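import Crest.Agent.X212.Prf6.Loc

/-!
# Row 212, PERF (helper6): sides of walls, parallel shifts, lifting through a collapse
-/

set_option autoImplicit false
set_option linter.unusedSectionVars false
noncomputable section
open Set Filter Topology Function Complex Metric
open scoped ContDiff Manifold

namespace Crest.Agent.X212.Prf6

/-- removing a thin set whose local sides are connected to each other -/
theorem preconn_diff {M : Type*} [TopologicalSpace M] {W S : Set M} (hc : IsPreconnected W)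
    (hd : ∀ x ∈ W, ∃ᶠ y in 𝓝 x, y ∈ W \ S)
    (h : ∀ x ∈ W, x ∈ S → ∃ C, IsPreconnected C ∧ C ⊆ W \ S ∧ ∀ᶠ y in 𝓝 x, y ∈ W \ S → y ∈ C) :
    IsPreconnected (W \ S) := by
  intro u v hu hv hs ⟨a, ha⟩ ⟨b, hb⟩
  by_contra hn
  have hn' : ∀ y ∈ W \ S, y ∈ u → y ∉ v := fun y hy h1 h2 => hn ⟨y, hy, h1, h2⟩
  obtain ⟨x, hx, h1, h2⟩ := hc {x | ∀ᶠ y in 𝓝 x, y ∈ W \ S → y ∈ u}
    {x | ∀ᶠ y in 𝓝 x, y ∈ W \ S → y ∈ v} isOpen_setOfPred_eventually_nhds
    isOpen_setOfPred_eventually_nhds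
    (fun x hx => by
      by_cases hxS : x ∈ S
      · obtain ⟨C, c1, c2, c3⟩ := h x hx hxS
        by_cases hu' : (C ∩ u).Nonempty
        · refine Or.inl (c3.mono fun y hy hy' => ?_)
          refine (hs hy').resolve_right fun hv' => ?_
          obtain ⟨z, z1, z2, z3⟩ := c1 u v hu hv (c2.trans hs) hu' ⟨y, hy hy', hv'⟩
          exact hn' z (c2 z1) z2 z3
        · exact Or.inr (c3.mono fun y hy hy' => (hs hy').resolve_left fun h => hu' ⟨y, hy hy', h⟩)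
      · rcases hs ⟨hx, hxS⟩ with h | h
        · exact Or.inl (mem_of_superset (hu.mem_nhds h) fun _ h _ => h)
        · exact Or.inr (mem_of_superset (hv.mem_nhds h) fun _ h _ => h))
    ⟨a, ha.1.1, mem_of_superset (hu.mem_nhds ha.2) fun _ h _ => h⟩
    ⟨b, hb.1.1, mem_of_superset (hv.mem_nhds hb.2) fun _ h _ => h⟩
  obtain ⟨y, y1, y2, y3⟩ := ((hd x hx).and_eventually (h1.and h2)).exists
  exact hn' y y1 (y2 y1) (y3 y1)

theorem freq_im (z : ℂ) : ∃ᶠ w in 𝓝 z, w.im ≠ 0 := by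
  by_contra h
  rw [not_frequently] at h
  have h1 : Tendsto (fun t : ℝ => z + t * I) (𝓝[≠] (0 : ℝ)) (𝓝 z) :=
    (Continuous.tendsto' (by fun_prop) 0 z (by simp)).mono_left nhdsWithin_le_nhds
  obtain ⟨t, h2, h3⟩ := ((h1.eventually h).and self_mem_nhdsWithin).exists
  have h0 := h.self_of_nhds
  simp only [ne_eq, not_not, add_im, mul_im, ofReal_re, I_im, mul_one, ofReal_im, I_re, mul_zero,
    add_zero] at h0 h2
  exact h3 (by simpa [h0] using h2)

theorem strip_conn (a b : ℝ) : IsPreconnected {z : ℂ | a < z.im ∧ z.im < b} :=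
  ((convex_halfSpace_im_gt a).inter (convex_halfSpace_im_lt b)).isPreconnected

section
variable {M N : Type*} [TopologicalSpace M] [ChartedSpace ℂ M] [IsManifold IC ∞ M] [T2Space M]
  [TopologicalSpace N] [ChartedSpace ℂ N] [IsManifold IC ∞ N] [T2Space N]
  {o : Or M} {o' : Or N} {A : ℂ → M}

/-- a wall `core A` in `U` whose two sides are joined by `T` does not separate -/
theorem wall_conn (hA : ∀ z, Pm oC o A z) (hm : ∀ z, A z ∈ core A → z.im = 0) {U T : Set M}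
    (hU : IsOpen U) (hc : IsPreconnected U) (hS : IsOpen (U \ core A)) {δ : ℝ} (hδ : 0 < δ)
    (hr : ∀ z : ℂ, |z.im| < δ → A z ∈ U) (hT : IsPreconnected T) (hTU : T ⊆ U \ core A)
    {p q : ℂ} (hp : 0 < p.im ∧ p.im < δ) (hq : -δ < q.im ∧ q.im < 0) (pT : A p ∈ T) (qT : A q ∈ T) :
    IsPreconnected (U \ core A) := by
  have hcA := cont_of_pm hA
  refine preconn_diff hc (fun x hx => ?_) fun x hx hxS => ?_
  · by_cases hxS : x ∈ core A
    · obtain ⟨t, rfl⟩ := hxS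
      rw [← (hA t).map_nhds, frequently_map]
      exact ((freq_im _).and_eventually (hcA.continuousAt.eventually (hU.mem_nhds hx))).mono
        fun w hw => ⟨hw.2, fun h => hw.1 (hm w h)⟩
    · exact Eventually.frequently (hS.mem_nhds ⟨hx, hxS⟩)
  · refine ⟨A '' {z : ℂ | 0 < z.im ∧ z.im < δ} ∪ T ∪ A '' {z : ℂ | -δ < z.im ∧ z.im < 0}, ?_, ?_, ?_⟩
    · refine IsPreconnected.union (A q) (Or.inr qT) ⟨q, hq, rfl⟩ (IsPreconnected.union (A p)
        ⟨p, hp, rfl⟩ pT ((strip_conn _ _).image _ hcA.continuousOn) hT)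
        ((strip_conn _ _).image _ hcA.continuousOn)
    · rintro _ ((⟨z, hz, rfl⟩ | h) | ⟨z, hz, rfl⟩)
      · exact ⟨hr z (abs_lt.2 ⟨by linarith [hz.1], hz.2⟩), fun h => hz.1.ne' (hm z h)⟩
      · exact hTU h
      · exact ⟨hr z (abs_lt.2 ⟨hz.1, by linarith [hz.2]⟩), fun h => hz.2.ne (hm z h)⟩
    · obtain ⟨t, rfl⟩ := hxS
      rw [← (hA t).map_nhds, eventually_map]
      have : ∀ᶠ w : ℂ in 𝓝 (t : ℂ), w.im ∈ Ioo (-δ) δ :=
        continuous_im.continuousAt.eventually (Ioo_mem_nhds (by simpa using hδ) (by simpa using hδ))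
      filter_upwards [this] with w hw hw'
      rcases lt_trichotomy w.im 0 with h | h | h
      · exact Or.inr ⟨w, ⟨hw.1, h⟩, rfl⟩
      · exact (hw'.2 (mem_core h)).elim
      · exact Or.inl (Or.inl ⟨w, ⟨h, hw.2⟩, rfl⟩)

theorem An.conn_diff (hA : An o A) {U T : Set M} (hU : IsOpen U) (hc : IsPreconnected U)
    (h : core A ⊆ U) (hT : IsPreconnected T) (hTU : T ⊆ U \ core A)
    (hp : ∀ δ > (0 : ℝ), ∃ p : ℂ, (0 < p.im ∧ p.im < δ) ∧ A p ∈ T)
    (hq : ∀ δ > (0 : ℝ), ∃ q : ℂ, (-δ < q.im ∧ q.im < 0) ∧ A q ∈ T) :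
    IsPreconnected (U \ core A) := by
  obtain ⟨δ, hδ, hr⟩ := hA.tube hU h
  obtain ⟨p, p1, p2⟩ := hp δ hδ
  obtain ⟨q, q1, q2⟩ := hq δ hδ
  exact wall_conn hA.1 (fun z => hA.mem_core.1) hU hc (hU.sdiff hA.isCompact_core.isClosed) hδ hr
    hT hTU p1 q1 p2 q2

theorem sign_sides {h : ℝ → ℝ} {h' t : ℝ} (hd : HasDerivAt h h' t) (h0 : h t = 0) (hp : 0 < h') :
    (∀ᶠ s in 𝓝[>] t, 0 < h s) ∧ ∀ᶠ s in 𝓝[<] t, h s < 0 := by
  have h1 := (hasDerivAt_iff_tendsto_slope.1 hd).eventually (lt_mem_nhds hp)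
  constructor
  · filter_upwards [nhdsGT_le_nhdsNE t h1, self_mem_nhdsWithin] with s hs hs'
    rw [slope_def_field, h0, sub_zero] at hs
    exact (div_pos_iff_of_pos_right (sub_pos.2 hs')).1 hs
  · filter_upwards [nhdsLT_le_nhdsNE t h1, self_mem_nhdsWithin] with s hs hs'
    rw [slope_def_field, h0, sub_zero] at hs
    by_contra hn
    exact absurd hs (not_lt.2 (div_nonpos_of_nonneg_of_nonpos (not_lt.1 hn) (sub_nonpos.2 hs'.le)))

/-- a transverse crossing goes from one side to the other -/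
theorem Tv.sides {γ : ℝ → M} {t : ℝ} (h : Tv A γ t) {δ : ℝ} (hδ : 0 < δ) : ∃ ε : ℝ,
    (ε = 1 ∨ ε = -1) ∧ (∀ᶠ s in 𝓝[>] t, ∃ z, γ s = A z ∧ 0 < ε * z.im ∧ |z.im| < δ) ∧
      ∀ᶠ s in 𝓝[<] t, ∃ z, γ s = A z ∧ ε * z.im < 0 ∧ |z.im| < δ := by
  obtain ⟨g, g1, g2, g3, g4⟩ := h
  have hd := der_im (g1.differentiableAt (by simp)).hasDerivAt
  have hs : ∀ᶠ s in 𝓝 t, |(g s).im| < δ :=
    hd.continuousAt.abs.eventually_lt continuousAt_const (by simp [g3, hδ])
  have key : ∀ ε : ℝ, 0 < ε * (deriv g t).im →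
      (∀ᶠ s in 𝓝[>] t, ∃ z, γ s = A z ∧ 0 < ε * z.im ∧ |z.im| < δ) ∧
      ∀ᶠ s in 𝓝[<] t, ∃ z, γ s = A z ∧ ε * z.im < 0 ∧ |z.im| < δ := fun ε hε => by
    obtain ⟨a, b⟩ := sign_sides (hd.const_mul ε) (by simp [g3]) hε
    constructor
    · filter_upwards [a, nhdsWithin_le_nhds g2, nhdsWithin_le_nhds hs] with s x y z
        using ⟨g s, y, x, z⟩
    · filter_upwards [b, nhdsWithin_le_nhds g2, nhdsWithin_le_nhds hs] with s x y z
        using ⟨g s, y, x, z⟩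
  rcases lt_or_gt_of_ne g4 with h | h
  · exact ⟨-1, Or.inr rfl, key _ (by linarith)⟩
  · exact ⟨1, Or.inl rfl, key _ (by linarith)⟩

theorem Cv.per {γ : ℝ → M} (h : Cv γ) (t : ℝ) (n : ℤ) : γ (t + n) = γ t :=
  ((h.inj _ _).2 ⟨n, rfl⟩).symm

/-- a closed curve that crosses a wall exactly once joins its two sides -/
theorem once_sides {γ : ℝ → M} (hγ : Cv γ) {t : ℝ} (ht : Tv A γ t) {δ : ℝ} (hδ : 0 < δ) :
    (∃ p : ℂ, (0 < p.im ∧ p.im < δ) ∧ A p ∈ γ '' Ioo t (t + 1)) ∧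
      ∃ q : ℂ, (-δ < q.im ∧ q.im < 0) ∧ A q ∈ γ '' Ioo t (t + 1) := by
  obtain ⟨ε, hε, h1, h2⟩ := ht.sides hδ
  obtain ⟨s, ⟨z, z1, z2, z3⟩, hs⟩ := (h1.and (Ioo_mem_nhdsGT (show t < t + 1 by linarith))).exists
  obtain ⟨r, ⟨w, w1, w2, w3⟩, hr⟩ := (h2.and (Ioo_mem_nhdsLT (show t - 1 < t by linarith))).exists
  have a : A z ∈ γ '' Ioo t (t + 1) := ⟨s, hs, z1⟩
  have b : A w ∈ γ '' Ioo t (t + 1) := ⟨r + (1 : ℤ), ⟨by push_cast; linarith [hr.1],
    by push_cast; linarith [hr.2]⟩, (hγ.per r 1).trans w1⟩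
  rw [abs_lt] at z3 w3
  rcases hε with rfl | rfl
  · exact ⟨⟨z, ⟨by linarith, z3.2⟩, a⟩, w, ⟨w3.1, by linarith⟩, b⟩
  · exact ⟨⟨w, ⟨by linarith, w3.2⟩, b⟩, z, ⟨z3.1, by linarith⟩, a⟩

theorem once_off {γ : ℝ → M} {U S : Set M} {t : ℝ} (hr : range γ ⊆ U)
    (ho : ∀ s, γ s ∈ S → ∃ n : ℤ, s = t + n) : γ '' Ioo t (t + 1) ⊆ U \ S := by
  rintro _ ⟨s, hs, rfl⟩
  refine ⟨hr ⟨s, rfl⟩, fun h => ?_⟩
  obtain ⟨n, rfl⟩ := ho s h
  have h1 : (0 : ℤ) < n := by exact_mod_cast (show (0 : ℝ) < n by linarith [hs.1])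
  have h2 : n < (1 : ℤ) := by exact_mod_cast (show (n : ℝ) < 1 by linarith [hs.2])
  omega

/-- a core crossed exactly once by a closed curve does not separate -/
theorem An.conn_of_once (hA : An o A) {U : Set M} (hU : IsOpen U) (hc : IsPreconnected U)
    (h : core A ⊆ U) {γ : ℝ → M} (hγ : Cv γ) (hr : range γ ⊆ U) {t : ℝ} (ht : Tv A γ t)
    (ho : ∀ s, γ s ∈ core A → ∃ n : ℤ, s = t + n) : IsPreconnected (U \ core A) :=
  hA.conn_diff hU hc h (isPreconnected_Ioo.image _ hγ.sm.continuous.continuousOn) (once_off hr ho)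
    (fun _ hδ => (once_sides hγ ht hδ).1) fun _ hδ => (once_sides hγ ht hδ).2

theorem An.dense (hA : An o A) : Dense (core A)ᶜ := fun x => by
  by_cases hx : x ∈ core A
  · obtain ⟨t, rfl⟩ := hx
    rw [mem_closure_iff_frequently, ← (hA.1 t).map_nhds, frequently_map]
    exact (freq_im _).mono fun w hw h => hw (hA.mem_core.1 h)
  · exact subset_closure hx

theorem conn_of_dense {U S : Set M} (hU : IsOpen U) (hS : Dense Sᶜ) (h : IsPreconnected (U \ S)) :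
    IsPreconnected U := h.subset_closure sdiff_subset (hS.open_subset_closure_inter hU)

theorem An.conn_univ (hA : An o A) (h : NS A) : IsPreconnected (univ : Set M) :=
  conn_of_dense isOpen_univ hA.dense (by rw [← compl_eq_univ_sdiff]; exact h)

theorem dense_compl_pt (o : Or M) (x : M) : Dense ({x}ᶜ : Set M) := fun y => by
  by_cases h : y = x
  · obtain ⟨D, hD, rfl, -⟩ := exists_st_at o (univ_mem : univ ∈ 𝓝 x)
    rw [h, mem_closure_iff_frequently, ← (hD.1 0).map_nhds, frequently_map]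
    exact (freq_im _).mono fun w hw e => hw (by rw [hD.2 e]; simp)
  · exact subset_closure h

theorem conn_diff_pt (o : Or M) {W : Set M} (hW : IsOpen W) (hc : IsPreconnected W) (x : M) :
    IsPreconnected (W \ {x}) := by
  refine preconn_diff hc (fun y hy => ?_) ?_
  · exact ((mem_closure_iff_frequently.1 (dense_compl_pt o x y)).and_eventually
      (hW.mem_nhds hy)).mono fun _ h => ⟨h.2, h.1⟩
  · rintro y hy rfl
    obtain ⟨D, hD, rfl, hr⟩ := exists_st_at o (hW.mem_nhds hy)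
    refine ⟨D '' {0}ᶜ, ((isConnected_compl_singleton_of_one_lt_rank (by simp) 0).isPreconnected).image
      _ (cont_of_pm hD.1).continuousOn, ?_, ?_⟩
    · rintro _ ⟨z, hz, rfl⟩
      exact ⟨hr ⟨z, rfl⟩, fun e => hz (hD.2 e)⟩
    · rw [← (hD.1 0).map_nhds, eventually_map]
      exact Eventually.of_forall fun z hz => ⟨z, fun e => hz.2 (congrArg D e), rfl⟩

theorem conn_diff_fin (o : Or M) {P : Set M} (hP : P.Finite) {W : Set M} (hW : IsOpen W)
    (hc : IsPreconnected W) : IsPreconnected (W \ P) := by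
  induction P, hP using Set.Finite.induction_on with
  | empty => simpa using hc
  | insert _ hP ih =>
    rw [insert_eq, union_comm, ← Set.sdiff_sdiff]
    exact conn_diff_pt o (hW.sdiff hP.isClosed) ih _

theorem dense_compl_fin (o : Or M) {P : Set M} (hP : P.Finite) : Dense Pᶜ := by
  induction P, hP using Set.Finite.induction_on with
  | empty => simp
  | insert _ _ ih =>
    rw [insert_eq, compl_union]
    exact (dense_compl_pt o _).inter_of_isOpen_left ih isOpen_compl_singleton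

theorem NS.comp (h : NS A) {g : Equiv.Perm M} (hg : g ∈ G o) : NS (g ∘ A) := by
  unfold NS
  rw [core_comp, ← image_compl_eq g.bijective]
  exact h.image _ (G_cont hg).continuousOn

/-- translation of a strip inside an annulus -/
theorem An.exists_shift (hA : An o A) (b : ℂ) (ρ : ℝ) : ∃ φ, Iso o φ ∧
    (∀ t, ∀ x ∉ A '' bx (-(|ρ| + |b.im| + 2)) (|ρ| + |b.im| + 2), φ t x = x) ∧
    ∀ z : ℂ, |z.im| ≤ ρ → φ 1 (A z) = A (z + b) := by
  by_cases hb : b = 0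
  · exact ⟨_, iso_one, fun _ _ _ => rfl, fun z _ => by simp [hb]⟩
  obtain ⟨α, a1, a2, a3, a4⟩ := exists_cut (a := -(|ρ| + |b.im| + 1)) (b := |ρ| + |b.im| + 1) one_pos
  obtain ⟨φ, hφ⟩ := exists_drift (χ := fun z => α z.im) (C := 1) (a1.comp imCLM.contDiff)
    (fun z => by rw [abs_of_nonneg (a2 _).1]; exact (a2 _).2) hb
  have hp : ∀ t z, ∀ n : ℤ, φ t (z + n) = φ t z + n := fun t z n => hφ.per n (by simp) t z
  have ho : ∀ t, ∀ z : ℂ, z.im ∉ Icc (-(|ρ| + |b.im| + 2)) (|ρ| + |b.im| + 2) →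
      ∃ n : ℤ, φ t z = z + n := fun t z hz =>
    ⟨0, by rw [hφ.fix t z (a4 _ fun h => hz ⟨by linarith [h.1], by linarith [h.2]⟩)]; simp⟩
  refine ⟨_, hA.tr_iso hφ.iso hp ho, fun t x hx => (hA.wd (hp t)).fix (hA.out (ho t)) hx,
    fun z hz => ?_⟩
  rw [(hA.wd (hp 1)).apply, hφ.tra 1 z fun s hs => ?_]
  · simp
  · rw [uIcc_of_le zero_le_one] at hs
    have h1 : |(z + s * b).im| ≤ |ρ| + |b.im| := by
      simp only [add_im, mul_im, ofReal_re, ofReal_im, zero_mul, add_zero]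
      refine (abs_add_le _ _).trans (add_le_add (hz.trans (le_abs_self _)) ?_)
      rw [abs_mul, abs_of_nonneg hs.1]
      exact mul_le_of_le_one_left (abs_nonneg _) hs.2
    rw [abs_le] at h1
    filter_upwards [continuous_im.continuousAt.eventually (Icc_mem_nhds
      (show -(|ρ| + |b.im| + 1) < (z + s * b).im by linarith [h1.1])
      (show (z + s * b).im < |ρ| + |b.im| + 1 by linarith [h1.2]))] with w hw using a3 _ hw

theorem An.ns_shift (hA : An o A) (h : NS A) (b : ℂ) : NS fun z => A (z + b) := by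
  obtain ⟨φ, h1, -, h3⟩ := hA.exists_shift b 0
  have := h.comp (h1.mem 1)
  unfold NS at this ⊢
  rwa [core_congr (A := φ 1 ∘ A) fun t => (h3 t (by simp)).symm]

/-! ### collapses -/

/-- symmetric form of `Col` -/
structure Col0 (o : Or M) (o' : Or N) (j : M → N) (Z : Set M) (P : Set N) : Prop where
  cl : IsClosed Z
  cl' : IsClosed P
  pos : ∀ x ∉ Z, Pm o o' j x
  bij : BijOn j Zᶜ Pᶜ
  nbd : ∀ O ∈ 𝓝ˢ P, j ⁻¹' O ∪ Z ∈ 𝓝ˢ Z

theorem Col.col0 {j : M → N} {Z : Set M} {P : Set N} (h : Col o o' j Z P) : Col0 o o' j Z P :=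
  ⟨h.cl, h.fin.isClosed, h.pos, h.bij, h.nbd⟩

/-- the inverse of a collapse -/
def jv [Nonempty M] (j : M → N) (Z : Set M) : N → M := invFunOn j Zᶜ

variable [Nonempty M] {j : M → N} {Z : Set M} {P : Set N}

namespace Col0

theorem jv_j (h : Col0 o o' j Z P) {x : M} (hx : x ∉ Z) : jv j Z (j x) = x :=
  h.bij.invOn_invFunOn.1 hx

theorem j_jv (h : Col0 o o' j Z P) {y : N} (hy : y ∉ P) : j (jv j Z y) = y :=
  h.bij.invOn_invFunOn.2 hy

theorem jv_not (h : Col0 o o' j Z P) {y : N} (hy : y ∉ P) : jv j Z y ∉ Z :=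
  h.bij.surjOn.mapsTo_invFunOn hy

theorem j_not (h : Col0 o o' j Z P) {x : M} (hx : x ∉ Z) : j x ∉ P := h.bij.mapsTo hx

theorem pm_jv (h : Col0 o o' j Z P) {y : N} (hy : y ∉ P) : Pm o' o (jv j Z) y := by
  have hx := h.jv_not hy
  rw [← h.j_jv hy]
  refine (h.pos _ hx).of_comp ((pm_id o _).congr ?_)
  filter_upwards [h.cl.isOpen_compl.mem_nhds hx] with x hx using h.jv_j hx

theorem cont (h : Col0 o o' j Z P) : ContinuousOn j Zᶜ := fun x hx =>
  (h.pos x hx).1.contMDiffAt.continuousAt.continuousWithinAt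

theorem cont_jv (h : Col0 o o' j Z P) : ContinuousOn (jv j Z) Pᶜ := fun _ hy =>
  (h.pm_jv hy).1.contMDiffAt.continuousAt.continuousWithinAt

theorem isOpen_pre (h : Col0 o o' j Z P) {O : Set N} (hO : IsOpen O) (hP : P ⊆ O) :
    IsOpen (j ⁻¹' O ∪ Z) := by
  refine isOpen_iff_mem_nhds.2 fun x hx => ?_
  by_cases hz : x ∈ Z
  · exact nhds_le_nhdsSet hz (h.nbd O (hO.mem_nhdsSet.2 hP))
  · exact mem_of_superset ((h.pos x hz).1.contMDiffAt.continuousAt
      (hO.mem_nhds (hx.resolve_right hz))) subset_union_left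

theorem symm [CompactSpace M] (h : Col0 o o' j Z P) : Col0 o' o (jv j Z) P Z := by
  refine ⟨h.cl', h.cl, fun _ => h.pm_jv, h.bij.symm h.bij.invOn_invFunOn.symm, fun O hO => ?_⟩
  obtain ⟨O', h1, h2, h3⟩ := mem_nhdsSet_iff_exists.1 hO
  have hc : IsCompact (j '' O'ᶜ) := h1.isClosed_compl.isCompact.image_of_continuousOn
    (h.cont.mono (compl_subset_compl.2 h2))
  refine mem_nhdsSet_iff_exists.2 ⟨_, hc.isClosed.isOpen_compl, ?_, fun y hy => ?_⟩
  · rintro y hy ⟨x, hx, rfl⟩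
    exact h.j_not (fun hz => hx (h2 hz)) hy
  · by_cases hP : y ∈ P
    · exact Or.inr hP
    · refine Or.inl (h3 ?_)
      by_contra hn
      exact hy ⟨_, hn, h.j_jv hP⟩

theorem spec (h : Col0 o o' j Z P) {f : Equiv.Perm N} (hf : ∀ y ∈ P, f y = y) :
    (∀ x ∈ Z, lf j Z f x = x) ∧ ∀ x ∉ Z, lf j Z f x = jv j Z (f (j x)) := by
  classical
  let F : Equiv.Perm N → M → M := fun f x => if x ∈ Z then x else invFunOn j Zᶜ (f (j x))
  have h0 : ∀ f : Equiv.Perm N, (∀ y ∈ P, f y = y) → ∀ y ∉ P, f y ∉ P := fun f hf y hy hp =>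
    hy (f.injective (hf _ hp) ▸ hp)
  have h1 : ∀ f : Equiv.Perm N, (∀ y ∈ P, f y = y) → LeftInverse (F f⁻¹) (F f) := fun f hf x => by
    by_cases hx : x ∈ Z
    · simp [F, hx]
    · have a := h0 f hf _ (h.j_not hx)
      have b : F f x = jv j Z (f (j x)) := if_neg hx
      rw [b]
      refine (if_neg (h.jv_not a)).trans ?_
      rw [h.j_jv a, show f⁻¹ (f (j x)) = j x by simp]
      exact h.jv_j hx
  have hf' : ∀ y ∈ P, f⁻¹ y = y := fun y hy => by rw [Equiv.Perm.inv_eq_iff_eq, hf y hy]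
  have hb : Bijective (F f) := ⟨(h1 f hf).injective, (by simpa using h1 _ hf' :
    LeftInverse (F f) (F f⁻¹)).surjective⟩
  exact ⟨fun x hx => (mkP_apply hb _).trans (if_pos hx),
    fun x hx => (mkP_apply hb _).trans (if_neg hx)⟩

theorem f_not {f : Equiv.Perm N} (hf : ∀ y ∈ P, f y = y) {y : N} (hy : y ∉ P) : f y ∉ P :=
  fun hp => hy (f.injective (hf _ hp) ▸ hp)

theorem lf_in (h : Col0 o o' j Z P) {f : Equiv.Perm N} (hf : ∀ y ∈ P, f y = y) {x : M}
    (hx : x ∈ Z) : lf j Z f x = x := (h.spec hf).1 x hx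

theorem lf_out (h : Col0 o o' j Z P) {f : Equiv.Perm N} (hf : ∀ y ∈ P, f y = y) {x : M}
    (hx : x ∉ Z) : lf j Z f x = jv j Z (f (j x)) := (h.spec hf).2 x hx

theorem lf_not (h : Col0 o o' j Z P) {f : Equiv.Perm N} (hf : ∀ y ∈ P, f y = y) {x : M}
    (hx : x ∉ Z) : lf j Z f x ∉ Z := by
  rw [h.lf_out hf hx]; exact h.jv_not (f_not hf (h.j_not hx))

theorem j_lf (h : Col0 o o' j Z P) {f : Equiv.Perm N} (hf : ∀ y ∈ P, f y = y) {x : M}
    (hx : x ∉ Z) : j (lf j Z f x) = f (j x) := by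
  rw [h.lf_out hf hx]; exact h.j_jv (f_not hf (h.j_not hx))

theorem lf_jv (h : Col0 o o' j Z P) {f : Equiv.Perm N} (hf : ∀ y ∈ P, f y = y) {y : N}
    (hy : y ∉ P) : lf j Z f (jv j Z y) = jv j Z (f y) := by
  rw [h.lf_out hf (h.jv_not hy), h.j_jv hy]

theorem lf_fix (h : Col0 o o' j Z P) {f : Equiv.Perm N} (hf : ∀ y ∈ P, f y = y) {x : M}
    (hx : f (j x) = j x) : lf j Z f x = x := by
  by_cases hz : x ∈ Z
  · exact h.lf_in hf hz
  · rw [h.lf_out hf hz, hx, h.jv_j hz]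

theorem lf_ext (h : Col0 o o' j Z P) {f : Equiv.Perm N} (hf : ∀ y ∈ P, f y = y) {g : Equiv.Perm M}
    (h1 : ∀ x ∈ Z, g x = x) (h2 : ∀ x ∉ Z, j (g x) = f (j x)) : lf j Z f = g := by
  ext x
  by_cases hz : x ∈ Z
  · rw [h.lf_in hf hz, h1 x hz]
  · rw [h.lf_out hf hz, ← h2 x hz, h.jv_j (f_not h1 hz)]

theorem lf_one (h : Col0 o o' j Z P) : lf j Z 1 = 1 :=
  h.lf_ext (fun _ _ => rfl) (fun _ _ => rfl) fun _ _ => rfl

theorem lf_mul (h : Col0 o o' j Z P) {f g : Equiv.Perm N} (hf : ∀ y ∈ P, f y = y)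
    (hg : ∀ y ∈ P, g y = y) : lf j Z (f * g) = lf j Z f * lf j Z g :=
  h.lf_ext (fun y hy => by simp [hf y hy, hg y hy])
    (fun x hx => by simp [h.lf_in hf hx, h.lf_in hg hx]) fun x hx => by
    rw [Equiv.Perm.mul_apply, h.j_lf hf (h.lf_not hg hx), h.j_lf hg hx, Equiv.Perm.mul_apply]

theorem lf_inv (h : Col0 o o' j Z P) {f : Equiv.Perm N} (hf : ∀ y ∈ P, f y = y) :
    lf j Z f⁻¹ = (lf j Z f)⁻¹ := by
  rw [eq_inv_iff_mul_eq_one, ← h.lf_mul (fun y hy => by rw [Equiv.Perm.inv_eq_iff_eq, hf y hy]) hf,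
    inv_mul_cancel, h.lf_one]

theorem lf_nearI (h : Col0 o o' j Z P) {φ : ℝ → Equiv.Perm N} {S : Set N}
    (hφ : NearI φ (P ∪ S)) : NearI (fun t => lf j Z (φ t)) (Z ∪ j ⁻¹' S) := by
  obtain ⟨O, h1, h2, h3⟩ := nearI_iff_open.1 hφ
  have hP : ∀ t, ∀ y ∈ P, φ t y = y := fun t y hy => h3 y (h2 (Or.inl hy)) t
  refine nearI_iff_open.2 ⟨_, h.isOpen_pre h1 (subset_union_left.trans h2), ?_, ?_⟩
  · rintro x (hx | hx)
    · exact Or.inr hx
    · exact Or.inl (h2 (Or.inr hx))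
  · rintro x (hx | hx) t
    · exact h.lf_fix (hP t) (h3 _ hx t)
    · exact h.lf_in (hP t) hx

theorem lf_near (h : Col0 o o' j Z P) {f : Equiv.Perm N} {S : Set N} (hf : Near f (P ∪ S)) :
    Near (lf j Z f) (Z ∪ j ⁻¹' S) := (h.lf_nearI hf.nearI).near 0

theorem lf_near' (h : Col0 o o' j Z P) {f : Equiv.Perm N} (hf : Near f P) : Near (lf j Z f) Z :=
  (h.lf_near (S := ∅) (by simpa using hf)).mono subset_union_left

theorem lf_mem (h : Col0 o o' j Z P) {f : Equiv.Perm N} (hG : f ∈ G o') (hf : Near f P) :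
    lf j Z f ∈ G o := by
  intro x
  by_cases hz : x ∈ Z
  · exact (pm_id o x).congr ((h.lf_near' hf).at hz)
  · have hP : ∀ y ∈ P, f y = y := fun _ => hf.fix
    refine (Pm.comp (f := f ∘ j) (h.pm_jv (f_not hP (h.j_not hz)))
      ((hG _).comp (h.pos x hz))).congr ?_
    filter_upwards [h.cl.isOpen_compl.mem_nhds hz] with y hy using h.lf_out hP hy

theorem lf_sm (h : Col0 o o' j Z P) {φ : ℝ → Equiv.Perm N}
    (hs : ContMDiff (IR.prod IC) IC ∞ fun p : ℝ × N => φ p.1 p.2) (hφ : NearI φ P) :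
    ContMDiff (IR.prod IC) IC ∞ fun p : ℝ × M => lf j Z (φ p.1) p.2 := by
  rintro ⟨t, x⟩
  have hP : ∀ t, ∀ y ∈ P, φ t y = y := fun t _ => (hφ.near t).fix
  by_cases hz : x ∈ Z
  · refine contMDiffAt_snd.congr_of_eventuallyEq ?_
    have := ((h.lf_nearI (S := ∅) (by simpa using hφ)).mono subset_union_left).filter_mono
      (nhds_le_nhdsSet hz)
    filter_upwards [continuous_snd.continuousAt.eventually this] with p hp using hp p.1
  · have h1 : ContMDiffAt (IR.prod IC) IC ∞ (fun p : ℝ × M => φ p.1 (j p.2)) (t, x) :=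
      (hs (t, j x)).comp (f := fun p : ℝ × M => (p.1, j p.2)) (t, x) (contMDiffAt_fst.prodMk
        ((h.pos x hz).1.contMDiffAt.comp (f := fun p : ℝ × M => p.2) (t, x) contMDiffAt_snd))
    refine ((h.pm_jv (f_not (hP t) (h.j_not hz))).1.contMDiffAt.comp
      (f := fun p : ℝ × M => φ p.1 (j p.2)) (t, x) h1).congr_of_eventuallyEq ?_
    filter_upwards [continuous_snd.continuousAt.eventually (h.cl.isOpen_compl.mem_nhds hz)] with p hp
      using h.lf_out (hP _) hp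

theorem lf_iso (h : Col0 o o' j Z P) {φ : ℝ → Equiv.Perm N} (hi : Iso o' φ) (hφ : NearI φ P) :
    Iso o fun t => lf j Z (φ t) :=
  ⟨h.lf_sm hi.sm hφ, fun t => h.lf_mem (hi.mem t) (hφ.near t), by rw [hi.zero, h.lf_one]⟩

/-- every diffeomorphism that is the identity near `Z` is a lift -/
theorem exists_down [CompactSpace M] [Nonempty N] (h : Col0 o o' j Z P) {g : Equiv.Perm M}
    (hG : g ∈ G o) {S : Set M} (hg : Near g (Z ∪ S)) :
    ∃ f ∈ G o', Near f (P ∪ j '' (S \ Z)) ∧ lf j Z f = g := by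
  have hZ : ∀ x ∈ Z, g x = x := fun _ hx => hg.fix (Or.inl hx)
  have h1 := h.symm.lf_near hg
  refine ⟨_, h.symm.lf_mem hG (hg.mono subset_union_left), h1.mono (union_subset_union_right _ ?_),
    h.lf_ext (fun y hy => h1.fix (Or.inl hy)) hZ fun x hx => ?_⟩
  · rintro _ ⟨x, hx, rfl⟩
    rw [mem_preimage, h.jv_j hx.2]; exact hx.1
  · rw [h.symm.lf_out hZ (h.j_not hx), h.jv_j hx]
    have a := f_not hZ hx
    conv_rhs => rw [← h.jv_j a]
    rw [h.symm.jv_j (h.j_not a)]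

variable {B : ℂ → N}

theorem eq_iff (h : Col0 o o' j Z P) (hB : ∀ z, B z ∉ P) (z w : ℂ) :
    jv j Z (B z) = jv j Z (B w) ↔ B z = B w :=
  ⟨fun e => by rw [← h.j_jv (hB z), e, h.j_jv (hB w)], fun e => by rw [e]⟩

theorem an_jv (h : Col0 o o' j Z P) (hB : An o' B) (hr : ∀ z, B z ∉ P) : An o (jv j Z ∘ B) :=
  ⟨fun z => (h.pm_jv (hr z)).comp (hB.1 z), fun z w => (h.eq_iff hr z w).trans (hB.2 z w)⟩

theorem st_jv (h : Col0 o o' j Z P) (hB : St o' B) (hr : ∀ z, B z ∉ P) : St o (jv j Z ∘ B) :=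
  ⟨fun z => (h.pm_jv (hr z)).comp (hB.1 z), fun z w e => hB.2 ((h.eq_iff hr z w).1 e)⟩

theorem an_j (h : Col0 o o' j Z P) (hA : An o A) (hr : ∀ z, A z ∉ Z) : An o' (j ∘ A) :=
  ⟨fun z => (h.pos _ (hr z)).comp (hA.1 z), fun z w =>
    (h.bij.injOn.eq_iff (hr z) (hr w)).trans (hA.2 z w)⟩

theorem st_j (h : Col0 o o' j Z P) (hA : St o A) (hr : ∀ z, A z ∉ Z) : St o' (j ∘ A) :=
  ⟨fun z => (h.pos _ (hr z)).comp (hA.1 z), fun z w e => hA.2 (h.bij.injOn (hr z) (hr w) e)⟩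

theorem lf_tr (h : Col0 o o' j Z P) (hr : ∀ z, B z ∉ P) {k : Equiv.Perm ℂ} (hw : Wd B k) :
    lf j Z (tr B k) = tr (jv j Z ∘ B) k := by
  have hw' : Wd (jv j Z ∘ B) k := fun z w =>
    (h.eq_iff hr z w).trans ((hw z w).trans (h.eq_iff hr _ _).symm)
  have hP : ∀ y ∈ P, tr B k y = y := fun y hy => hw.out fun ⟨z, e⟩ => hr z (e ▸ hy)
  symm
  refine hw'.ext (fun z => by rw [comp_apply, h.lf_jv hP (hr z), hw.apply]; rfl) fun x hx => ?_
  by_cases hz : x ∈ Z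
  · exact h.lf_in hP hz
  · exact h.lf_fix hP (hw.out fun ⟨z, e⟩ => hx ⟨z, by rw [comp_apply, e, h.jv_j hz]⟩)

/-- connectedness goes up through a collapse -/
theorem conn_up (h : Col0 o o' j Z P) (hd : Dense Zᶜ) {Y : Set N} (hY : Disjoint Y P)
    (hcl : IsClosed (jv j Z '' Y)) (hc : IsPreconnected (Yᶜ \ P)) :
    IsPreconnected (jv j Z '' Y)ᶜ := by
  refine conn_of_dense hcl.isOpen_compl hd ?_
  have : (jv j Z '' Y)ᶜ \ Z = jv j Z '' (Yᶜ \ P) := by
    ext x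
    constructor
    · rintro ⟨h1, h2⟩
      exact ⟨j x, ⟨fun hy => h1 ⟨_, hy, h.jv_j h2⟩, h.j_not h2⟩, h.jv_j h2⟩
    · rintro ⟨y, ⟨h1, h2⟩, rfl⟩
      refine ⟨?_, h.jv_not h2⟩
      rintro ⟨y', h3, e⟩
      rw [← h.j_jv h2, ← e, h.j_jv (disjoint_left.1 hY h3)] at h1
      exact h1 h3
  rw [this]
  exact hc.image _ (h.cont_jv.mono fun _ hy => hy.2)

end Col0

theorem Col.ns_jv (h : Col o o' j Z P) (hd : Dense Zᶜ) {B : ℂ → N} (hB : An o' B)
    (hr : ∀ z, B z ∉ P) (hn : NS B) : NS (jv j Z ∘ B) := by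
  have h1 := (h.col0.an_jv hB hr).isCompact_core.isClosed
  unfold NS
  rw [core_comp] at h1 ⊢
  refine h.col0.conn_up hd (disjoint_left.2 ?_) h1
    (conn_diff_fin o' h.fin hB.isCompact_core.isClosed.isOpen_compl hn)
  rintro _ ⟨t, rfl⟩
  exact hr _

/-- connectedness goes down -/
theorem Col.conn_down (h : Col o o' j Z P) (hc : IsPreconnected Zᶜ) :
    IsPreconnected (univ : Set N) := by
  refine conn_of_dense isOpen_univ (dense_compl_fin o' h.fin) ?_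
  rw [← compl_eq_univ_sdiff, ← h.bij.image_eq]
  exact hc.image _ h.col0.cont

/-! ### caps -/

section
variable {ι : Type*} {C : ι → ℂ → M} {D : ι → Bool → ℂ → N}

theorem CapD.mem_P (h : CapD o o' C j D) {i : ι} {b : Bool} {z : ℂ} :
    D i b z ∈ range (fun p : ι × Bool => D p.1 p.2 0) ↔ z = 0 := by
  refine ⟨fun ⟨p, hp⟩ => ?_, fun e => ⟨(i, b), by rw [e]⟩⟩
  by_cases e : p = (i, b)
  · subst e; exact ((h.st _ _).2 hp).symm
  · exact (disjoint_left.1 (h.dis p (i, b) e) ⟨0, hp⟩ ⟨z, rfl⟩).elim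

theorem CapD.ea_not (h : CapD o o' C j D) (i : ι) (b : Bool) {ρ : ℝ} (hρ : 0 < ρ) (z : ℂ) :
    (D i b ∘ ea ρ) z ∉ range (fun p : ι × Bool => D p.1 p.2 0) :=
  fun e => ea_ne hρ z (h.mem_P.1 e)

end

section
variable {D : Unit → Bool → ℂ → N}

theorem CapD.col1 (h : CapD o o' (fun _ : Unit => A) j D) :
    Col o o' j (core A) {D () true 0, D () false 0} := by
  have h1 := h.col
  rw [iUnion_const] at h1
  convert h1 using 1
  ext y
  simp only [mem_insert_iff, mem_singleton_iff, mem_range, Prod.exists, Bool.exists_bool]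
  exact ⟨fun e => ⟨(), e.symm.imp Eq.symm Eq.symm⟩, fun ⟨_, e⟩ => e.symm.imp Eq.symm Eq.symm⟩

theorem CapD.mem_P1 (h : CapD o o' (fun _ : Unit => A) j D) {b : Bool} {z : ℂ} :
    D () b z ∈ ({D () true 0, D () false 0} : Set N) ↔ z = 0 := by
  rw [← h.mem_P (i := ()) (b := b)]
  simp only [mem_insert_iff, mem_singleton_iff, mem_range, Prod.exists, Bool.exists_bool]
  exact ⟨fun e => ⟨(), e.symm.imp Eq.symm Eq.symm⟩, fun ⟨_, e⟩ => e.symm.imp Eq.symm Eq.symm⟩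

/-- exchanging the two sides -/
theorem CapD.flip (h : CapD o o' (fun _ : Unit => A) j D) :
    CapD o o' (fun (_ : Unit) z => A (-z)) j fun i b => D i (!b) := by
  refine ⟨?_, fun i b => h.st i _, fun p q e => h.dis (p.1, !p.2) (q.1, !q.2) fun e' => e ?_,
    fun i θ r hr => ?_, fun i θ r hr => ?_⟩
  · have h1 := h.col
    simp only [core_neg]
    convert h1 using 1
    ext y
    exact ⟨fun ⟨p, e⟩ => ⟨(p.1, !p.2), e⟩, fun ⟨p, e⟩ => ⟨(p.1, !p.2), by simpa using e⟩⟩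
  · exact Prod.ext rfl (by simpa using congrArg Prod.snd e')
  · have := h.dn i (-θ) r hr
    push_cast at this
    rw [show -((θ : ℂ) + r * I) = -θ - r * I by ring, this, mul_neg]; rfl
  · have := h.up i (-θ) r hr
    push_cast at this
    rw [show -((θ : ℂ) - r * I) = -θ + r * I by ring, this, mul_neg, neg_neg]; rfl

/-- circles round the upper point lift to parallels of the core -/
theorem CapD.jv_ea (h : CapD o o' (fun _ : Unit => A) j D) (hA : An o A) {ρ : ℝ} (hρ : 0 < ρ)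
    (t : ℝ) : jv j (core A) (D () true (ea ρ t)) = A (-t + ρ * I) := by
  have := h.up () (-t) ρ hρ
  push_cast at this
  rw [mul_neg, neg_neg] at this
  rw [ea, ← this, h.col1.col0.jv_j]
  rw [hA.mem_core]; simpa using hρ.ne'

theorem CapD.ns_ea (h : CapD o o' (fun _ : Unit => A) j D) (hA : An o A) (hn : NS A) {ρ : ℝ}
    (hρ : 0 < ρ) : NS (jv j (core A) ∘ D () true ∘ ea ρ) := by
  have h1 := hA.ns_shift hn (ρ * I)
  unfold NS at h1 ⊢
  rw [← core_neg] at h1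
  rwa [core_congr (A := fun z => A (-z + ρ * I)) fun t => h.jv_ea hA hρ t]

/-- the lift of a multiple rotation round the upper point is a power of a twist -/
theorem CapD.lf_rot (h : CapD o o' (fun _ : Unit => A) j D) (hA : An o A) (hn : NS A) (hT : TW o)
    {δ : ℝ} (hδ : 0 < δ) (m : ℤ) : lf j (core A) (tr (D () true) (rot δ m)) ∈ K o := by
  have h0 := h.col1.col0
  have h1 := (h.st () true).an_ea one_pos
  have h2 : ∀ z, (D () true ∘ ea 1) z ∉ ({D () true 0, D () false 0} : Set N) := fun z e =>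
    ea_ne one_pos z (h.mem_P1.1 e)
  have h3 := h0.an_jv h1 h2
  obtain ⟨b, c, e1, e2⟩ := rl_ends one_pos hδ m
  rw [(h.st () true).tr_rot one_pos, h0.lf_tr h2 (h1.wd_sh _), ← cls_eq_one (h3.sh_mem (rl_cd _ _ _)
    (a := b) (b := c) fun r hr => ?_), h3.cls_sh (rl_cd _ _ _) (m := 0) (n := m)
    (by simpa using e1) e2, cls_K (hT _ h3 (h.ns_ea hA hn one_pos)), one_zpow]
  rw [mem_Icc, not_and_or, not_le, not_le] at hr
  exact hr.elim (fun a => ⟨0, by simpa using e1 r a⟩) fun a => ⟨m, e2 r a⟩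

end

end

end Crest.Agent.X212.Prf6
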