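import Crest.Agent.X212.Prf6.Tr

/-!
# Row 212, PERF (helper6): small charts, thin annuli, drifts, translations, slides, homogeneity
-/

set_option autoImplicit false
set_option linter.unusedSectionVars false
noncomputable section
open Set Filter Topology Function Complex Metric
open scoped ContDiff Manifold

namespace Crest.Agent.X212.Prf6

/-! ### a squeeze of the line -/

/-- increasing, the identity on `[-1,1]`, bounded by `6` -/
def sq (t : ℝ) : ℝ :=
  3 * Real.arctan t + Real.smoothTransition ((4 - t ^ 2) / 3) * (t - 3 * Real.arctan t)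

theorem sq_cd : ContDiff ℝ ∞ sq :=
  (contDiff_const.mul Real.contDiff_arctan).add ((Real.smoothTransition.contDiff.comp
    (by fun_prop)).mul (contDiff_id.sub (contDiff_const.mul Real.contDiff_arctan)))

theorem sq_id {t : ℝ} (ht : |t| ≤ 1) : sq t = t := by
  rw [sq, Real.smoothTransition.one_of_one_le]
  · ring
  · have := (sq_le_one_iff_abs_le_one t).2 ht
    linarith

theorem abs_sq_lt (t : ℝ) : |sq t| < 6 := by
  have h1 := Real.arctan_lt_pi_div_two t
  have h2 := Real.neg_pi_div_two_lt_arctan t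
  have h3 := Real.pi_lt_four
  have a := Real.smoothTransition.nonneg ((4 - t ^ 2) / 3)
  have b := Real.smoothTransition.le_one ((4 - t ^ 2) / 3)
  by_cases ht : |t| ≤ 2
  · rw [abs_le] at ht
    rw [sq, abs_lt]
    constructor <;> nlinarith
  · rw [sq, Real.smoothTransition.zero_of_nonpos, abs_lt]
    · constructor <;> linarith
    · have : 2 ^ 2 < t ^ 2 := by
        rw [← sq_abs t]; exact pow_lt_pow_left₀ (not_le.1 ht) (by norm_num) (by norm_num)
      linarith

theorem sq_deriv (t : ℝ) : 0 < deriv sq t := by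
  set σ := Real.smoothTransition
  have hσ : HasDerivAt σ (deriv σ ((4 - t ^ 2) / 3)) ((4 - t ^ 2) / 3) :=
    ((Real.smoothTransition.contDiff (n := 1)).differentiable (by simp) _).hasDerivAt
  have h0 : 0 ≤ deriv σ ((4 - t ^ 2) / 3) := Real.smoothTransition.monotone.deriv_nonneg
  set D := deriv σ ((4 - t ^ 2) / 3)
  have h1 : HasDerivAt (fun t : ℝ => (4 - t ^ 2) / 3) (-(2 * t) / 3) t := by
    simpa using (((hasDerivAt_id t).pow 2).const_sub 4).div_const 3
  have h2 := Real.hasDerivAt_arctan t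
  have h3 : HasDerivAt sq (3 * (1 / (1 + t ^ 2)) + (D * (-(2 * t) / 3) * (t - 3 * Real.arctan t) +
      σ ((4 - t ^ 2) / 3) * (1 - 3 * (1 / (1 + t ^ 2))))) t :=
    (h2.const_mul 3).add (HasDerivAt.fun_mul (c := fun t : ℝ => σ ((4 - t ^ 2) / 3))
      (HasDerivAt.comp (h := fun t : ℝ => (4 - t ^ 2) / 3) t hσ h1)
      ((hasDerivAt_id' t).fun_sub (h2.const_mul 3)))
  rw [h3.deriv]
  have a := Real.smoothTransition.nonneg ((4 - t ^ 2) / 3)
  have b := Real.smoothTransition.le_one ((4 - t ^ 2) / 3)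
  have c : 0 < 1 / (1 + t ^ 2) := by positivity
  have e : 0 ≤ D * (-(2 * t) / 3) * (t - 3 * Real.arctan t) := by
    by_cases h4 : 2 < |t|
    · have : D = 0 := by
        have h5 : 2 ^ 2 < t ^ 2 := by
          rw [← sq_abs t]; exact pow_lt_pow_left₀ h4 (by norm_num) (by norm_num)
        have h6 : σ =ᶠ[𝓝 ((4 - t ^ 2) / 3)] fun _ => 0 := by
          filter_upwards [Iio_mem_nhds (show (4 - t ^ 2) / 3 < 0 by linarith)] with s hs
          exact Real.smoothTransition.zero_of_nonpos hs.le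
        simp [D, h6.deriv_eq]
      simp [this]
    by_cases h5 : |t| < 1
    · have : D = 0 := by
        have h5 := (sq_lt_one_iff_abs_lt_one t).2 h5
        have h6 : σ =ᶠ[𝓝 ((4 - t ^ 2) / 3)] fun _ => 1 := by
          filter_upwards [Ioi_mem_nhds (show 1 < (4 - t ^ 2) / 3 by linarith)] with s hs
          exact Real.smoothTransition.one_of_one_le hs.le
        simp [D, h6.deriv_eq]
      simp [this]
    rw [mul_assoc]
    refine mul_nonneg h0 ?_
    have hp := Real.pi_gt_three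
    rw [not_lt] at h4 h5
    rcases le_abs.1 h5 with h | h
    · have := Real.arctan_mono h
      rw [Real.arctan_one] at this
      have := (abs_le.1 h4).2
      nlinarith
    · have := Real.arctan_mono h
      rw [Real.arctan_one, Real.arctan_neg] at this
      have := (abs_le.1 h4).1
      nlinarith
  rcases b.eq_or_lt with b | b
  · rw [show σ ((4 - t ^ 2) / 3) = 1 from b]; linarith
  · nlinarith

theorem sq_mono : StrictMono sq := strictMono_of_deriv_pos sq_deriv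

/-- diagonal maps -/
theorem pm_diag {f g : ℝ → ℝ} (hf : ContDiff ℝ ∞ f) (hg : ContDiff ℝ ∞ g) {z : ℂ}
    (h : 0 < deriv f z.re * deriv g z.im) : Pm oC oC (fun w : ℂ => (f w.re + g w.im * I : ℂ)) z := by
  refine pm_C isOpen_univ (mem_univ z) ((ofRealCLM.contDiff.comp (hf.comp reCLM.contDiff)).add
    ((ofRealCLM.contDiff.comp (hg.comp imCLM.contDiff)).mul contDiff_const)).contDiffOn ?_
  have h1 := ofRealCLM.hasFDerivAt.comp z
    ((hf.differentiable (by simp) z.re).hasDerivAt.comp_hasFDerivAt z reCLM.hasFDerivAt)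
  have h2 := (ofRealCLM.hasFDerivAt.comp z
    ((hg.differentiable (by simp) z.im).hasDerivAt.comp_hasFDerivAt z imCLM.hasFDerivAt)).mul_const I
  rw [HasFDerivAt.fderiv (f := fun w : ℂ => (f w.re + g w.im * I : ℂ)) (h1.add h2), det_C]
  simpa using h

section
variable {M : Type*} [TopologicalSpace M] [ChartedSpace ℂ M] [IsManifold IC ∞ M] [T2Space M]
  {o : Or M} {A : ℂ → M}

theorem Pm.injOn {e : ℂ → M} {z : ℂ} (h : Pm oC o e z) : ∃ s ∈ 𝓝 z, InjOn e s := by
  obtain ⟨Φ, hx, hΦ⟩ := h.1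
  exact ⟨Φ.source, Φ.open_source.mem_nhds hx, fun a ha b hb e => Φ.toPartialEquiv.injOn ha hb
    (by rw [← hΦ ha, ← hΦ hb]; exact e)⟩

/-- a plane chart with a prescribed germ -/
theorem exists_st {e : ℂ → M} (h : Pm oC o e 0) {s : Set ℂ} (hs : s ∈ 𝓝 0) :
    ∃ δ > (0 : ℝ), ∃ B, St o B ∧ range B ⊆ e '' s ∧
      ∀ z : ℂ, |z.re| ≤ 1 → |z.im| ≤ 1 → B z = e (δ * z) := by
  obtain ⟨t, ht, hi⟩ := h.injOn
  obtain ⟨r, hr, hb⟩ := Metric.mem_nhds_iff.1 (inter_mem (inter_mem hs ht) h.eventually)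
  have hm : ∀ z : ℂ, ((r / 12 : ℝ) * (sq z.re + sq z.im * I) : ℂ) ∈ ball (0 : ℂ) r := fun z => by
    rw [mem_ball_zero_iff, norm_mul, norm_real, Real.norm_of_nonneg (by positivity)]
    have h1 : ‖(sq z.re + sq z.im * I : ℂ)‖ < 12 := by
      refine (norm_add_le _ _).trans_lt ?_
      simp only [norm_real, norm_mul, norm_I, mul_one, Real.norm_eq_abs]
      linarith [abs_sq_lt z.re, abs_sq_lt z.im]
    nlinarith
  have h0 : ((r / 12 : ℝ) : ℂ) ≠ 0 := ofReal_ne_zero.2 (by positivity)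
  refine ⟨r / 12, by positivity, fun z => e ((r / 12 : ℝ) * (sq z.re + sq z.im * I)),
    ⟨fun z => ?_, fun z w hzw => ?_⟩, ?_, fun z h1 h2 => ?_⟩
  · have h1 := (pm_affine h0 0 _).comp (pm_diag sq_cd sq_cd (mul_pos (sq_deriv z.re) (sq_deriv z.im)))
    have h2 : Pm oC oC (fun z : ℂ => ((r / 12 : ℝ) * (sq z.re + sq z.im * I) : ℂ)) z :=
      h1.congr (Eventually.of_forall fun w => by simp)
    exact Pm.comp (f := fun z : ℂ => ((r / 12 : ℝ) * (sq z.re + sq z.im * I) : ℂ)) (hb (hm z)).2 h2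
  · have := mul_left_cancel₀ h0 (hi (hb (hm z)).1.2 (hb (hm w)).1.2 hzw)
    exact Complex.ext (sq_mono.injective (by simpa using congrArg re this))
      (sq_mono.injective (by simpa using congrArg im this))
  · rintro _ ⟨z, rfl⟩
    exact mem_image_of_mem e (hb (hm z)).1.1
  · simp only [sq_id h1, sq_id h2, re_add_im]

theorem exists_st_at (o : Or M) {x : M} {U : Set M} (hU : U ∈ 𝓝 x) :
    ∃ B, St o B ∧ B 0 = x ∧ range B ⊆ U := by
  obtain ⟨e, he, rfl⟩ := exists_pm o x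
  obtain ⟨δ, -, B, h1, h2, h3⟩ := exists_st he (he.1.contMDiffAt.continuousAt hU)
  exact ⟨B, h1, by simpa using h3 0, h2.trans (image_preimage_subset _ _)⟩

/-- tube lemma for annuli -/
theorem An.tube (hA : An o A) {U : Set M} (hU : IsOpen U) (h : core A ⊆ U) :
    ∃ δ > (0 : ℝ), ∀ z : ℂ, |z.im| < δ → A z ∈ U := by
  obtain ⟨δ, hδ, hs⟩ := (isCompact_bx 0 0).exists_thickening_subset_open
    (hU.preimage (cont_of_pm hA.1)) fun z hz => h (Prf6.mem_core (le_antisymm hz.2.2 hz.2.1))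
  refine ⟨δ, hδ, fun z hz => ?_⟩
  obtain ⟨w, hw, e⟩ := (hA.mem_bx (a := z.im) (b := z.im) (z := z)).2 ⟨le_rfl, le_rfl⟩
  rw [← e]
  refine hs (mem_thickening_iff.2 ⟨w.re, ⟨by simpa using hw.1, by simp⟩, ?_⟩)
  rw [dist_eq_norm, show w - w.re = w.im * I by apply Complex.ext <;> simp]
  simpa [hA.im_eq e] using hz

/-- reparametrisation of the height of an annulus chart -/
theorem An.height (hA : An o A) {g : ℝ → ℝ} (hg : ContDiff ℝ ∞ g) (h : ∀ r, 0 < deriv g r) :
    An o fun z => A (z.re + g z.im * I) := by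
  refine ⟨fun z => Pm.comp (f := fun w : ℂ => ((id w.re : ℝ) + g w.im * I : ℂ)) (hA.1 _)
    (pm_diag contDiff_id hg (by simpa using h _)), fun z w => ?_⟩
  rw [hA.2]
  refine exists_congr fun n => ⟨fun e => Complex.ext (by simpa using congrArg re e)
    ?_, fun e => by rw [e]; simp; ring⟩
  simpa using (strictMono_of_deriv_pos h).injective (by simpa using congrArg im e)

/-- a thin annulus chart with the same germ along the core -/
theorem An.thin (hA : An o A) {U : Set M} (hU : IsOpen U) (h : core A ⊆ U) :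
    ∃ δ > (0 : ℝ), ∃ A', An o A' ∧ range A' ⊆ U ∧ range A' ⊆ range A ∧
      ∀ z : ℂ, |z.im| ≤ δ → A' z = A z := by
  obtain ⟨δ, hδ, hs⟩ := hA.tube hU h
  have h6 : 0 < δ / 6 := by positivity
  refine ⟨δ / 6, h6, _, hA.height (g := fun r => δ / 6 * sq (r / (δ / 6)))
    (contDiff_const.mul (sq_cd.comp (by fun_prop))) fun r => ?_, ?_, ?_, fun z hz => ?_⟩
  · have h1 := (((sq_cd.differentiable (by simp) (r / (δ / 6))).hasDerivAt.comp r
      ((hasDerivAt_id r).div_const (δ / 6)))).const_mul (δ / 6)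
    rw [HasDerivAt.deriv (f := fun r => δ / 6 * sq (r / (δ / 6))) h1]
    have := sq_deriv (r / (δ / 6))
    positivity
  · rintro _ ⟨z, rfl⟩
    refine hs _ ?_
    have := abs_sq_lt (z.im / (δ / 6))
    simp only [add_im, ofReal_im, mul_im, ofReal_re, I_im, mul_one, I_re, mul_zero, add_zero,
      zero_add, abs_mul, abs_of_pos h6]
    nlinarith
  · rintro _ ⟨z, rfl⟩; exact ⟨_, rfl⟩
  · rw [sq_id (by rw [abs_div, abs_of_pos h6, div_le_one h6]; exact hz), mul_div_cancel₀ _ h6.ne',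
      re_add_im]

theorem core_congr {M : Type*} {A A' : ℂ → M} (h : ∀ t : ℝ, A' t = A t) : core A' = core A :=
  congrArg range (funext h)

end

/-! ### drifts -/

theorem mder_iff {γ : ℝ → ℂ} {v : ℂ} {t : ℝ} :
    HasMFDerivAt IR IC γ t ((1 : ℝ →L[ℝ] ℝ).smulRight v) ↔ HasDerivAt γ v t :=
  hasMFDerivAt_iff_hasFDerivAt

theorem der_re {γ : ℝ → ℂ} {v : ℂ} {t : ℝ} (h : HasDerivAt γ v t) :
    HasDerivAt (fun s => (γ s).re) v.re t := reCLM.hasFDerivAt.comp_hasDerivAt t h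

theorem der_im {γ : ℝ → ℂ} {v : ℂ} {t : ℝ} (h : HasDerivAt γ v t) :
    HasDerivAt (fun s => (γ s).im) v.im t := imCLM.hasFDerivAt.comp_hasDerivAt t h

theorem cpl_of_bdd {V : ℂ → ℂ} (hV : ContDiff ℝ ∞ V) {C : ℝ} (hC : ∀ z, ‖V z‖ ≤ C) :
    Flo26.Cpl (I := IC) V := by
  have hv : Flo26.SmV IC V := Flo26.smV_model.2 hV
  rintro ⟨T, x⟩
  refine Flo26.mem_dom_of_compact hv (isCompact_closedBall x (C * |T|)) fun s hs hd => ?_
  have h1 : ∀ r ∈ uIcc 0 s, HasDerivWithinAt (fun r => Flo26.fl (I := IC) V r x)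
      (V (Flo26.fl (I := IC) V r x)) (uIcc 0 s) r := fun r hr =>
    (mder_iff.1 (Flo26.hasMFDerivAt_fl hv (Flo26.mem_dom_of_uIcc hd hr))).hasDerivWithinAt
  have h2 := (convex_uIcc 0 s).norm_image_sub_le_of_norm_hasDerivWithin_le h1 (fun r _ => hC _)
    left_mem_uIcc right_mem_uIcc
  rw [Flo26.fl_zero hv, sub_zero] at h2
  rw [mem_closedBall, dist_eq_norm]
  refine h2.trans (mul_le_mul_of_nonneg_left ?_ ((norm_nonneg _).trans (hC 0)))
  simpa using abs_sub_left_of_mem_uIcc hs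

/-- the flow of `χ • u` -/
structure Drift (χ : ℂ → ℝ) (u : ℂ) (φ : ℝ → Equiv.Perm ℂ) : Prop where
  iso : Iso oC φ
  add : ∀ s t, φ (s + t) = φ s * φ t
  fix : ∀ t z, χ z = 0 → φ t z = z
  tra : ∀ (t : ℝ) (z : ℂ), (∀ s ∈ uIcc 0 t, ∀ᶠ w in 𝓝 (z + s * u), χ w = 1) → φ t z = z + t * u
  per : ∀ c : ℂ, (∀ z, χ (z + c) = χ z) → ∀ t z, φ t (z + c) = φ t z + c
  lin : ∀ z, ∃ f : ℝ → ℝ, (∀ t, φ t z = z + f t * u) ∧ ∀ t, HasDerivAt f (χ (φ t z)) t

theorem exists_drift {χ : ℂ → ℝ} (hχ : ContDiff ℝ ∞ χ) {C : ℝ} (hC : ∀ z, |χ z| ≤ C) {u : ℂ}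
    (hu : u ≠ 0) : ∃ φ, Drift χ u φ := by
  have hV : ContDiff ℝ ∞ fun z : ℂ => (χ z * u : ℂ) := (ofRealCLM.contDiff.comp hχ).mul contDiff_const
  have hv : Flo26.SmV IC fun z : ℂ => (χ z * u : ℂ) := Flo26.smV_model.2 hV
  have hc := cpl_of_bdd hV (C := C * ‖u‖) fun z => by
    rw [norm_mul, norm_real]; exact mul_le_mul_of_nonneg_right (hC z) (norm_nonneg _)
  have hd : ∀ z t, HasDerivAt (fun t => flP hv hc t z) (χ (flP hv hc t z) * u) t := fun z t =>
    mder_iff.1 (hc.curve hv z t)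
  refine ⟨flP hv hc, iso_flP hv hc, fun s t => Equiv.ext fun z => hc.add hv s t z,
    fun t z hz => (Flo26.fl_of_zero hv (show (χ z * u : ℂ) = 0 by simp [hz]) t).2, fun t z h => ?_, fun c h t z => ?_,
    fun z => ?_⟩
  · have := (Flo26.fl_of_curve hv (γ := fun s : ℝ => z + s * u) (T := t) fun s hs => ?_).2
    · rw [ofReal_zero, zero_mul, add_zero] at this; exact this
    have h1 : Continuous fun s : ℝ => z + s * u := by fun_prop
    filter_upwards [h1.continuousAt.eventually (h s hs)] with r hr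
    refine mder_iff.2 ?_
    rw [hr]
    exact ((ofRealCLM.hasDerivAt (x := r)).mul_const u).const_add z
  · exact (Flo26.fl_map hv hv (f := fun z => z + c) isOpen_univ (fun x _ => ⟨by
      rw [mdifferentiableAt_iff_differentiableAt]; fun_prop, by
      rw [mfderiv_eq_fderiv, fderiv_add_const, fderiv_fun_id, h]; rfl⟩) (hc (t, z))
      fun _ _ => mem_univ _).2
  · have h1 : ∀ t, HasDerivAt (fun t => (flP hv hc t z - z) / u) (χ (flP hv hc t z)) t := fun t => by
      simpa [hu] using ((hd z t).sub_const z).div_const u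
    refine ⟨fun t => ((flP hv hc t z - z) / u).re, fun t => ?_, fun t => der_re (h1 t)⟩
    have h2 : ∀ t, HasDerivAt (fun t => ((flP hv hc t z - z) / u).im) 0 t := fun t => der_im (h1 t)
    have h3 := is_const_of_deriv_eq_zero (fun t => (h2 t).differentiableAt) (fun t => (h2 t).deriv) t 0
    rw [flP_apply hv hc 0, Flo26.fl_zero hv, sub_self, zero_div, zero_im] at h3
    have h4 : ((((flP hv hc t z - z) / u).re : ℝ) : ℂ) = (flP hv hc t z - z) / u :=
      Complex.ext (by simp) (by simp [h3])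
    rw [h4, div_mul_cancel₀ _ hu]; ring

/-- local translations, smooth in the translation vector -/
theorem exists_tau {R : ℝ} (hR : 0 < R) : ∃ κ : ℂ → Equiv.Perm ℂ,
    ContDiff ℝ ∞ (fun p : ℂ × ℂ => κ p.1 p.2) ∧ (∀ w, κ w ∈ G oC) ∧ κ 0 = 1 ∧
    (∀ w z, ‖w‖ ≤ R → ‖z‖ ≤ R → κ w z = z + w) ∧ ∀ w, ∀ z ∉ closedBall (0 : ℂ) (5 * R), κ w z = z := by
  let b : ContDiffBump (0 : ℂ) := ⟨4 * R, 5 * R, by positivity, by linarith⟩
  have hb : ∀ z, |b z| ≤ 1 := fun z => by rw [abs_of_nonneg b.nonneg]; exact b.le_one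
  obtain ⟨φ, hφ⟩ := exists_drift b.contDiff hb one_ne_zero
  obtain ⟨ψ, hψ⟩ := exists_drift b.contDiff hb I_ne_zero
  have h1 : ∀ w : ℂ, ‖w‖ ≤ 3 * R → ∀ᶠ v in 𝓝 w, b v = 1 := fun w hw =>
    b.eventuallyEq_one_of_mem_ball (mem_ball_zero_iff.2 (by show ‖w‖ < 4 * R; linarith))
  refine ⟨fun w => φ w.re * ψ w.im, ?_, fun w => mul_mem (hφ.iso.mem _) (hψ.iso.mem _),
    by simp [hφ.iso.zero, hψ.iso.zero], fun w z hw hz => ?_, fun w z hz => ?_⟩
  · exact hφ.iso.cd.comp (f := fun p : ℂ × ℂ => (p.1.re, ψ p.1.im p.2))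
      ((reCLM.contDiff.comp contDiff_fst).prodMk (hψ.iso.cd.comp (f := fun p : ℂ × ℂ => (p.1.im, p.2))
        ((imCLM.contDiff.comp contDiff_fst).prodMk contDiff_snd)))
  · have a1 := (abs_re_le_norm w).trans hw
    have a2 := (abs_im_le_norm w).trans hw
    rw [Equiv.Perm.mul_apply, hψ.tra _ _ fun s hs => h1 _ ?_, hφ.tra _ _ fun s hs => h1 _ ?_]
    · apply Complex.ext <;> simp
    · have := abs_sub_left_of_mem_uIcc hs
      refine (norm_add_le _ _).trans ((add_le_add_left (norm_add_le _ _) _).trans ?_)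
      simp only [norm_mul, norm_real, norm_I, mul_one, Real.norm_eq_abs, sub_zero] at *
      linarith
    · have := abs_sub_left_of_mem_uIcc hs
      refine (norm_add_le _ _).trans ?_
      simp only [norm_mul, norm_real, norm_I, mul_one, Real.norm_eq_abs, sub_zero] at *
      linarith
  · have : b z = 0 := b.zero_of_le_dist (by simpa using (not_le.1 (mt mem_closedBall_zero_iff.2 hz)).le)
    rw [Equiv.Perm.mul_apply, hψ.fix _ _ this, hφ.fix _ _ this]

/-- a cut-off of the line -/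
theorem exists_cut {a b δ : ℝ} (hδ : 0 < δ) : ∃ α : ℝ → ℝ, ContDiff ℝ ∞ α ∧
    (∀ x, 0 ≤ α x ∧ α x ≤ 1) ∧ (∀ x ∈ Icc a b, α x = 1) ∧ ∀ x ∉ Ioo (a - δ) (b + δ), α x = 0 := by
  refine ⟨fun x => Real.smoothTransition ((x - (a - δ)) / δ) * Real.smoothTransition ((b + δ - x) / δ),
    (Real.smoothTransition.contDiff.comp (by fun_prop)).mul
      (Real.smoothTransition.contDiff.comp (by fun_prop)), fun x => ⟨mul_nonneg
      (Real.smoothTransition.nonneg _) (Real.smoothTransition.nonneg _), mul_le_one₀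
      (Real.smoothTransition.le_one _) (Real.smoothTransition.nonneg _)
      (Real.smoothTransition.le_one _)⟩, fun x hx => ?_, fun x hx => ?_⟩
  · beta_reduce
    rw [Real.smoothTransition.one_of_one_le, Real.smoothTransition.one_of_one_le, mul_one] <;>
      rw [le_div_iff₀ hδ] <;> linarith [hx.1, hx.2]
  · rw [mem_Ioo, not_and_or, not_lt, not_lt] at hx
    beta_reduce
    rcases hx with h | h
    · rw [Real.smoothTransition.zero_of_nonpos (div_nonpos_of_nonpos_of_nonneg (by linarith) hδ.le),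
        zero_mul]
    · rw [Real.smoothTransition.zero_of_nonpos (x := (b + δ - x) / δ)
        (div_nonpos_of_nonpos_of_nonneg (by linarith) hδ.le), mul_zero]

/-- a slide along the real axis -/
theorem exists_slide {a b δ : ℝ} (hab : a ≤ b) (hδ : 0 < δ) : ∃ κ, Iso oC κ ∧
    (∀ t, ∀ z ∉ Icc (a - δ) (b + δ) ×ℂ Icc (-δ) δ, κ t z = z) ∧ (∀ t z, (κ t z).im = z.im) ∧
    (∀ t ≥ (0 : ℝ), ∀ z, z.re ≤ (κ t z).re) ∧ ∀ x : ℝ, a ≤ x → b ≤ (κ 1 x).re := by
  have h2 : 0 < δ / 2 := by positivity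
  obtain ⟨α, a1, a2, a3, a4⟩ := exists_cut (a := a - δ / 2) (b := b + δ / 2) h2
  obtain ⟨β, b1, b2, b3, b4⟩ := exists_cut (a := -(δ / 2)) (b := δ / 2) h2
  obtain ⟨φ, hφ⟩ := exists_drift (χ := fun z => α z.re * β z.im) (C := 1)
    ((a1.comp reCLM.contDiff).mul (b1.comp imCLM.contDiff)) (fun z => by
      rw [abs_of_nonneg (mul_nonneg (a2 _).1 (b2 _).1)]
      exact mul_le_one₀ (a2 _).2 (b2 _).1 (b2 _).2) one_ne_zero
  have hm : ∀ t ≥ (0 : ℝ), ∀ z, z.re ≤ (φ t z).re := fun t ht z => by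
    obtain ⟨f, f1, f2⟩ := hφ.lin z
    have f0 : f 0 = 0 := by simpa [hφ.iso.zero] using f1 0
    have := monotone_of_deriv_nonneg (fun t => (f2 t).differentiableAt)
      (fun t => by rw [(f2 t).deriv]; exact mul_nonneg (a2 _).1 (b2 _).1) ht
    rw [f1]; simp; linarith
  refine ⟨fun t => φ (t * (b - a)), hφ.iso.reparam (by fun_prop) (by simp), fun t z hz => ?_,
    fun t z => ?_, fun t ht z => hm _ (mul_nonneg ht (by linarith)) z, fun x hx => ?_⟩
  · refine hφ.fix _ _ ?_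
    rw [mem_reProdIm, not_and_or] at hz
    rcases hz with h | h
    · rw [a4 _ fun h' => h ⟨by linarith [h'.1], by linarith [h'.2]⟩, zero_mul]
    · rw [b4 _ fun h' => h ⟨by linarith [h'.1], by linarith [h'.2]⟩, mul_zero]
  · obtain ⟨f, f1, -⟩ := hφ.lin z
    rw [f1]; simp
  · rcases le_total b x with h | h
    · exact h.trans (by simpa using hm (1 * (b - a)) (by linarith) x)
    · beta_reduce
      rw [show 1 * (b - a) = (x - a) + (b - x) by ring, hφ.add, Equiv.Perm.mul_apply,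
        hφ.tra (b - x) x fun s hs => ?_]
      · exact le_trans (by simp) (hm _ (by linarith) _)
      · rw [uIcc_of_le (by linarith)] at hs
        have e1 : ∀ᶠ w : ℂ in 𝓝 (x + s * 1), w.re ∈ Ioo (a - δ / 2) (b + δ / 2) :=
          continuous_re.continuousAt.eventually (Ioo_mem_nhds (by simp; linarith [hs.1])
            (by simp; linarith [hs.2]))
        have e2 : ∀ᶠ w : ℂ in 𝓝 (x + s * 1), w.im ∈ Ioo (-(δ / 2)) (δ / 2) :=
          continuous_im.continuousAt.eventually (Ioo_mem_nhds (by simpa using h2) (by simpa using h2))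
        filter_upwards [e1, e2] with w w1 w2
        rw [a3 _ (Ioo_subset_Icc_self w1), b3 _ (Ioo_subset_Icc_self w2), mul_one]

/-! ### homogeneity -/

section
variable {M : Type*} [TopologicalSpace M] [ChartedSpace ℂ M] [IsManifold IC ∞ M] [T2Space M]
  {o : Or M}

/-- local translations in a chart -/
theorem St.exists_tau {D : ℂ → M} (hD : St o D) {R : ℝ} (hR : 0 < R) : ∃ τ : ℂ → Equiv.Perm M,
    ContMDiff (IC.prod IC) IC ∞ (fun p : ℂ × M => τ p.1 p.2) ∧ (∀ w, τ w ∈ G o) ∧ τ 0 = 1 ∧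
    (∀ w z, ‖w‖ ≤ R → ‖z‖ ≤ R → τ w (D z) = D (z + w)) ∧
    ∀ w, ∀ x ∉ D '' closedBall 0 (5 * R), τ w x = x := by
  obtain ⟨κ, h1, h2, h3, h4, h5⟩ := Prf6.exists_tau hR
  exact ⟨fun w => tr D (κ w), tr_sm hD.1 h1 (fun w => hD.wd _) (isCompact_closedBall _ _)
    fun w => out_of_supp (h5 w), fun w => hD.tr_mem (h2 w) (isCompact_closedBall _ _) (h5 w),
    by beta_reduce; rw [h3, tr_one], fun w z hw hz => by rw [hD.apply, h4 w z hw hz],
    fun w x hx => hD.fix (h5 w) hx⟩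

/-- an isotopy along a smooth path in a smooth family -/
theorem iso_of_fam {F : Type*} [NormedAddCommGroup F] [NormedSpace ℝ F] {τ : F → Equiv.Perm M}
    (h : ContMDiff (𝓘(ℝ, F).prod IC) IC ∞ fun p : F × M => τ p.1 p.2) (hm : ∀ w, τ w ∈ G o)
    {c : ℝ → F} (hc : ContDiff ℝ ∞ c) (h0 : τ (c 0) = 1) : Iso o fun t => τ (c t) :=
  ⟨h.comp (f := fun p : ℝ × M => (c p.1, p.2))
    ((hc.contMDiff.comp contMDiff_fst).prodMk contMDiff_snd), fun _ => hm _, h0⟩

theorem hom_loc (o : Or M) {W : Set M} {x : M} (hW : W ∈ 𝓝 x) :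
    ∀ᶠ y in 𝓝 x, ∃ φ, Iso o φ ∧ NearI φ Wᶜ ∧ φ 1 x = y := by
  obtain ⟨D, hD, rfl, hr⟩ := exists_st_at o hW
  obtain ⟨τ, h1, h2, h3, h4, h5⟩ := hD.exists_tau one_pos
  rw [← (hD.1 0).map_nhds, eventually_map]
  filter_upwards [closedBall_mem_nhds (0 : ℂ) one_pos] with w hw
  refine ⟨fun t => τ (t • w), iso_of_fam h1 h2 (by fun_prop) (by simp [h3]),
    nearI_of_closed ((isCompact_closedBall _ _).image (cont_of_pm hD.1)).isClosed
      (disjoint_compl_right_iff_subset.2 ((image_subset_range _ _).trans hr))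
      fun t x hx => h5 _ x hx, ?_⟩
  simpa using h4 w 0 (by simpa using hw) (by simp)

theorem hom_gen (o : Or M) {W : Set M} (hW : IsOpen W) (hc : IsPreconnected W) {x y : M}
    (hx : x ∈ W) (hy : y ∈ W) : ∃ φ, Iso o φ ∧ NearI φ Wᶜ ∧ φ 1 x = y := by
  have hl : Lev33.LCo W fun z => ∃ φ, Iso o φ ∧ NearI φ Wᶜ ∧ φ 1 x = z := by
    intro z hz
    filter_upwards [nhdsWithin_le_nhds (hom_loc o (hW.mem_nhds hz))] with w ⟨ψ, a, b, c⟩
    refine propext ⟨fun ⟨φ, d, e, f⟩ => ⟨_, a.inv.mul d, b.inv.mul e, ?_⟩,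
      fun ⟨φ, d, e, f⟩ => ⟨_, a.mul d, b.mul e, ?_⟩⟩
    · simp [f, ← c]
    · simp [f, c]
  rw [← hl.eq hc hx hy]
  exact ⟨_, iso_one, (near_one _).nearI, rfl⟩

end

theorem hom : Hom := fun X _ hW hc _ hx _ hy => hom_gen X.o hW hc hx hy

end Crest.Agent.X212.Prf6
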