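import Mathlib
import Crest.Agent.X212.Cyl58.OE
import Crest.Agent.X212.Glue52.More
import Crest.Agent.X212.Flo26.More
import Crest.Agent.X212.Lev33.Coc

/-!
# Row 212, layer H, PERF (helper6): definitions and leaf statements

Surfaces are modelled on `ℂ` (real smooth).  `Or M` is an orientation, `G o` the group of
orientation preserving diffeomorphisms, `K o` the subgroup generated by commutators and by the
ends of smooth isotopies.  Goal: `G o ≤ K o` for closed connected surfaces of genus `≥ 3`.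
-/

set_option autoImplicit false
set_option linter.unusedSectionVars false
noncomputable section
open Set Filter Topology Function Complex
open scoped ContDiff Manifold

namespace Crest.Agent.X212.Prf6

/-- the model -/
abbrev IC : ModelWithCorners ℝ ℂ ℂ := 𝓘(ℝ, ℂ)
/-- the model of the time axis -/
abbrev IR : ModelWithCorners ℝ ℝ ℝ := 𝓘(ℝ, ℝ)

section
variable {M N Q : Type*} [TopologicalSpace M] [ChartedSpace ℂ M] [TopologicalSpace N]
  [ChartedSpace ℂ N] [TopologicalSpace Q] [ChartedSpace ℂ Q]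

/-- Jacobian determinant in the preferred charts -/
def dt (f : M → N) (x : M) : ℝ :=
  ContinuousLinearMap.det (show ℂ →L[ℝ] ℂ from mfderiv IC IC f x)

variable (M) in
/-- an orientation: a sign relative to the preferred charts -/
structure Or where
  s : M → ℝ
  loc : ∀ x, ∀ᶠ y in 𝓝 x, 0 < s x * s y * dt (chartAt ℂ x) y

/-- the standard orientation of `ℂ` -/
def oC : Or ℂ where
  s := fun _ => 1
  loc := fun x => Eventually.of_forall fun y => by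
    have : dt (chartAt ℂ x) y = 1 := by
      unfold dt
      have h : (chartAt ℂ x : ℂ → ℂ) = id := rfl
      rw [h, mfderiv_id]
      exact LinearMap.det_id
    rw [this]; norm_num

/-- `f` is an orientation preserving local diffeomorphism at `x` -/
def Pm (o : Or M) (o' : Or N) (f : M → N) (x : M) : Prop :=
  IsLocalDiffeomorphAt IC IC ∞ f x ∧ 0 < o.s x * o'.s (f x) * dt f x

theorem dt_comp {f : M → N} {g : N → Q} {x : M} (hg : MDifferentiableAt IC IC g (f x))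
    (hf : MDifferentiableAt IC IC f x) : dt (g ∘ f) x = dt g (f x) * dt f x := by
  unfold dt
  rw [mfderiv_comp x hg hf]
  exact LinearMap.det_comp (show ℂ →L[ℝ] ℂ from mfderiv IC IC g (f x)).toLinearMap
    (show ℂ →L[ℝ] ℂ from mfderiv IC IC f x).toLinearMap

theorem dt_id (x : M) : dt (id : M → M) x = 1 := by
  unfold dt
  rw [mfderiv_id]
  exact LinearMap.det_id

theorem dt_congr {f g : M → N} {x : M} (h : g =ᶠ[𝓝 x] f) : dt g x = dt f x := by
  unfold dt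
  rw [h.mfderiv_eq]

theorem Or.ne (o : Or M) (x : M) : o.s x ≠ 0 := by
  have h := (o.loc x).self_of_nhds
  intro h0
  simp [h0] at h

theorem Pm.mdiff {o : Or M} {o' : Or N} {f : M → N} {x : M} (h : Pm o o' f x) :
    MDifferentiableAt IC IC f x := h.1.contMDiffAt.mdifferentiableAt (by simp)

theorem Pm.comp {o : Or M} {o' : Or N} {o'' : Or Q} {f : M → N} {g : N → Q} {x : M}
    (hg : Pm o' o'' g (f x)) (hf : Pm o o' f x) : Pm o o'' (g ∘ f) x := by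
  refine ⟨Cyl58.ld_comp hg.1 hf.1, ?_⟩
  rw [dt_comp hg.mdiff hf.mdiff]
  have h1 := mul_pos hg.2 hf.2
  have h2 : 0 < o'.s (f x) * o'.s (f x) := mul_self_pos.2 (o'.ne _)
  have : o'.s (f x) * o''.s (g (f x)) * dt g (f x) * (o.s x * o'.s (f x) * dt f x) =
      (o'.s (f x) * o'.s (f x)) * (o.s x * o''.s ((g ∘ f) x) * (dt g (f x) * dt f x)) := by
    simp only [comp_apply]; ring
  rw [this] at h1
  exact (pos_iff_pos_of_mul_pos h1).1 h2

theorem Pm.congr {o : Or M} {o' : Or N} {f g : M → N} {x : M} (h : Pm o o' f x)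
    (e : g =ᶠ[𝓝 x] f) : Pm o o' g x :=
  ⟨Cyl58.ld_congr h.1 e, by rw [dt_congr e, e.self_of_nhds]; exact h.2⟩

theorem pm_id (o : Or M) (x : M) : Pm o o id x :=
  ⟨(Diffeomorph.refl IC M ∞).isLocalDiffeomorph x, by
    rw [dt_id, mul_one]; exact mul_self_pos.2 (o.ne x)⟩

/-- two out of three -/
theorem Pm.of_comp {o : Or M} {o' : Or N} {o'' : Or Q} {f : M → N} {g : N → Q} {x : M}
    (hf : Pm o o' f x) (h : Pm o o'' (g ∘ f) x) : Pm o' o'' g (f x) := by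
  have hg := Cyl58.ld_of_comp hf.1 h.1
  refine ⟨hg, ?_⟩
  have h1 := mul_pos h.2 hf.2
  rw [dt_comp (hg.contMDiffAt.mdifferentiableAt (by simp)) hf.mdiff] at h1
  have h2 : 0 < (o.s x * dt f x) * (o.s x * dt f x) := by
    refine mul_self_pos.2 fun h0 => ?_
    have := hf.2
    rw [mul_right_comm, h0, zero_mul] at this
    exact lt_irrefl _ this
  have : o.s x * o''.s ((g ∘ f) x) * (dt g (f x) * dt f x) * (o.s x * o'.s (f x) * dt f x) =
      ((o.s x * dt f x) * (o.s x * dt f x)) * (o'.s (f x) * o''.s (g (f x)) * dt g (f x)) := by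
    simp only [comp_apply]; ring
  rw [this] at h1
  exact (pos_iff_pos_of_mul_pos h1).1 h2

/-- orientation preserving diffeomorphisms -/
def G (o : Or M) : Subgroup (Equiv.Perm M) where
  carrier := {f | ∀ x, Pm o o f x}
  one_mem' := fun x => pm_id o x
  mul_mem' := fun {f g} hf hg x => (hf (g x)).comp (hg x)
  inv_mem' := fun {f} hf y => by
    obtain ⟨x, rfl⟩ := f.surjective y
    refine (hf x).of_comp ((pm_id o x).congr (Eventually.of_forall fun z => ?_))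
    simp

/-- a smooth isotopy from the identity -/
structure Iso (o : Or M) (φ : ℝ → Equiv.Perm M) : Prop where
  sm : ContMDiff (IR.prod IC) IC ∞ (fun p : ℝ × M => φ p.1 p.2)
  mem : ∀ t, φ t ∈ G o
  zero : φ 0 = 1

/-- commutators and ends of isotopies -/
def K (o : Or M) : Subgroup (Equiv.Perm M) :=
  Subgroup.closure ({f | ∃ a ∈ G o, ∃ b ∈ G o, f = a * b * a⁻¹ * b⁻¹} ∪
    {f | ∃ φ, Iso o φ ∧ f = φ 1})

end

section
variable {M N : Type*}

/-- `f` is the identity near `Z` -/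
def Near [TopologicalSpace M] (f : Equiv.Perm M) (Z : Set M) : Prop := ∀ᶠ x in 𝓝ˢ Z, f x = x

/-- the family `φ` is the identity on one neighbourhood of `Z` -/
def NearI [TopologicalSpace M] (φ : ℝ → Equiv.Perm M) (Z : Set M) : Prop :=
  ∀ᶠ x in 𝓝ˢ Z, ∀ t, φ t x = x

/-- a function as a permutation (junk `1` if it is not bijective) -/
def mkP (f : M → M) : Equiv.Perm M :=
  by classical exact if h : Bijective f then Equiv.ofBijective f h else 1

theorem mkP_apply {f : M → M} (h : Bijective f) (x : M) : mkP f x = f x := by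
  simp [mkP, h]

/-- transplant of a permutation of `ℂ` through a chart -/
def tr (A : ℂ → M) (h : Equiv.Perm ℂ) : Equiv.Perm M :=
  by classical exact mkP fun x => if H : ∃ z, A z = x then A (h H.choose) else x

/-- lift of a permutation through a collapse `j` (bijective off `Z`) -/
def lf [Nonempty M] (j : M → N) (Z : Set M) (f : Equiv.Perm N) : Equiv.Perm M :=
  by classical exact mkP fun x => if x ∈ Z then x else invFunOn j Zᶜ (f (j x))

/-- the image of the real axis -/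
def core (A : ℂ → M) : Set M := range fun t : ℝ => A t

/-- the core does not separate -/
def NS [TopologicalSpace M] (A : ℂ → M) : Prop := IsPreconnected (core A)ᶜ

end

/-- horizontal shear -/
def sh (l : ℝ → ℝ) : Equiv.Perm ℂ where
  toFun z := z + l z.im
  invFun z := z - l z.im
  left_inv z := by simp
  right_inv z := by simp

/-- rotation by `2 π a` on the ball `δ / 2`, identity off the ball `δ` -/
def rot (δ a : ℝ) : Equiv.Perm ℂ where
  toFun z := z * exp (2 * Real.pi * I * (a * (1 - Real.smoothTransition (2 * ‖z‖ / δ - 1)) : ℝ))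
  invFun z := z * exp (-(2 * Real.pi * I * (a * (1 - Real.smoothTransition (2 * ‖z‖ / δ - 1)) : ℝ)))
  left_inv z := by
    have h : ∀ r : ℝ, ‖exp (2 * Real.pi * I * r)‖ = 1 := fun r => by
      rw [show (2 * Real.pi * I * r : ℂ) = (2 * Real.pi * r : ℝ) * I by push_cast; ring]
      exact norm_exp_ofReal_mul_I _
    simp only [norm_mul, h, mul_one]
    rw [mul_assoc, ← exp_add, add_neg_cancel, exp_zero, mul_one]
  right_inv z := by
    have h : ∀ r : ℝ, ‖exp (-(2 * Real.pi * I * r))‖ = 1 := fun r => by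
      rw [show (-(2 * Real.pi * I * r) : ℂ) = (-(2 * Real.pi * r) : ℝ) * I by push_cast; ring]
      exact norm_exp_ofReal_mul_I _
    simp only [norm_mul, h, mul_one]
    rw [mul_assoc, ← exp_add, neg_add_cancel, exp_zero, mul_one]

/-- the Dehn twist of an annulus chart -/
def tw {M : Type*} (A : ℂ → M) : Equiv.Perm M := tr A (sh Real.smoothTransition)

section
variable {M N : Type*} [TopologicalSpace M] [ChartedSpace ℂ M] [TopologicalSpace N]
  [ChartedSpace ℂ N]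

/-- positive plane chart -/
def St (o : Or M) (B : ℂ → M) : Prop := (∀ z, Pm oC o B z) ∧ Injective B

/-- positive annulus chart (`re` = angle of period one, `im` = height) -/
def An (o : Or M) (A : ℂ → M) : Prop :=
  (∀ z, Pm oC o A z) ∧ ∀ z w, A z = A w ↔ ∃ n : ℤ, w = z + n

/-- embedded closed curve of period one -/
structure Cv (γ : ℝ → M) : Prop where
  sm : ContMDiff IR IC ∞ γ
  imm : ∀ t, (show ℂ from mfderiv IR IC γ t (1 : ℝ)) ≠ 0
  inj : ∀ s t, γ s = γ t ↔ ∃ n : ℤ, t = s + n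

/-- at time `t` the curve `γ` crosses the image of the real axis under `A` transversally -/
def Tv (A : ℂ → M) (γ : ℝ → M) (t : ℝ) : Prop :=
  ∃ g : ℝ → ℂ, ContDiffAt ℝ ∞ g t ∧ (∀ᶠ s in 𝓝 t, γ s = A (g s)) ∧ (g t).im = 0 ∧
    (deriv g t).im ≠ 0

/-- all twists along non-separating curves are in `K` -/
def TW (o : Or M) : Prop := ∀ A, An o A → NS A → tw A ∈ K o

/-- `c` is moved to `d` by a diffeomorphism supported in `U`, a word in non-separating twists -/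
def Mv (o : Or M) (U c d : Set M) : Prop :=
  ∃ k ∈ G o, Near k Uᶜ ∧ k '' c = d ∧ (TW o → k ∈ K o)

/-- two annuli in `U` plumbed at `n` crossings -/
structure Nf (o : Or M) (U : Set M) (A B : ℂ → M) (n : ℕ) (δ : ℝ) (t θ ε : Fin n → ℝ) : Prop where
  hA : An o A
  hB : An o B
  rA : range A ⊆ U
  rB : range B ⊆ U
  pos : 0 < δ
  sgn : ∀ j, ε j = 1 ∨ ε j = -1
  box : ∀ j (z : ℂ), |z.re| < δ → |z.im| < δ → B (t j + z) = A (θ j + ε j * I * z)
  only : ∀ z w : ℂ, |z.im| < δ → |w.im| < δ → A z = B w → ∃ j, ∃ m : ℤ, |w.re - t j - m| < δ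
  sept : ∀ i j, ∀ m : ℤ, |t i - t j - m| < 2 * δ → i = j ∧ m = 0
  sepθ : ∀ i j, ∀ m : ℤ, |θ i - θ j - m| < 2 * δ → i = j ∧ m = 0

/-- `j` collapses `Z` to the finite set `P` and is a positive diffeomorphism elsewhere -/
structure Col (o : Or M) (o' : Or N) (j : M → N) (Z : Set M) (P : Set N) : Prop where
  cl : IsClosed Z
  fin : P.Finite
  pos : ∀ x ∉ Z, Pm o o' j x
  bij : BijOn j Zᶜ Pᶜ
  nbd : ∀ O ∈ 𝓝ˢ P, j ⁻¹' O ∪ Z ∈ 𝓝ˢ Z

/-- `N` is `M` cut along the cores of the `A i`, both sides collapsed to points -/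
structure CapD {ι : Type*} (o : Or M) (o' : Or N) (A : ι → ℂ → M) (j : M → N)
    (D : ι → Bool → ℂ → N) : Prop where
  col : Col o o' j (⋃ i, core (A i)) (range fun p : ι × Bool => D p.1 p.2 0)
  st : ∀ i b, St o' (D i b)
  dis : ∀ p q : ι × Bool, p ≠ q → Disjoint (range (D p.1 p.2)) (range (D q.1 q.2))
  up : ∀ i (θ r : ℝ), 0 < r → j (A i (θ + r * I)) = D i true (r * exp (-(2 * Real.pi * I * θ)))
  dn : ∀ i (θ r : ℝ), 0 < r → j (A i (θ - r * I)) = D i false (r * exp (2 * Real.pi * I * θ))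

/-- `core B` is a proper arc in the complement of the closed connected set `Z` -/
structure Arc (o : Or M) (Z : Set M) (B : ℂ → M) (η : M → ℝ) : Prop where
  cl : IsClosed Z
  conn : IsPreconnected Z
  st : St o B
  off : ∀ z, B z ∉ Z
  cl' : IsClosed (Z ∪ core B)
  cc : IsPreconnected (Z ∪ core B)ᶜ
  cont : Continuous η
  nn : ∀ x, 0 ≤ η x
  zero : ∀ x, η x = 0 ↔ x ∈ Z
  sm : ContMDiffOn IC IR ∞ η Zᶜ
  mono : ∃ T : ℝ, ∀ t : ℝ, T ≤ |t| → t * deriv (fun s : ℝ => η (B s)) t < 0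
  lim : Tendsto (fun s : ℝ => η (B s)) (cocompact ℝ) (𝓝 0)

/-- a cut system based at `x` -/
structure Cut (o : Or M) (x : M) where
  m : ℕ
  Z : ℕ → Set M
  B : ℕ → ℂ → M
  η : ℕ → M → ℝ
  cl : IsClosed (Z 0)
  mem : x ∈ Z 0
  arc : ∀ j < m, Arc o (Z j) (B j) (η j)
  succ : ∀ j < m, Z (j + 1) = Z j ∪ core (B j)
  root : ∀ O ∈ 𝓝 x, ∃ φ, Iso o φ ∧ (∀ t, φ t x = x) ∧ φ 1 '' Z 0 ⊆ O
  face : ∃ D, St o D ∧ range D ⊆ (Z m)ᶜ ∧ ∀ L, IsCompact L → L ⊆ (Z m)ᶜ →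
    ∃ φ, Iso o φ ∧ (∀ t, φ t '' L ⊆ (Z m)ᶜ) ∧ φ 1 '' L ⊆ range D

variable [IsManifold IC ∞ M]

/-- Morse function with a gradient-like field that is linear in charts at the critical points -/
structure Mo (o : Or M) where
  f : M → ℝ
  v : (x : M) → TangentSpace IC x
  C : Finset M
  Q : M → ℂ → M
  a : M → ℝ
  b : M → ℝ
  c : M → ℝ
  cpos : ∀ p ∈ C, 0 < c p
  smf : ContMDiff IC IR ∞ f
  smv : Flo26.SmV IC v
  up : ∀ x ∉ C, 0 < (show ℝ from mfderiv IC IR f x (v x))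
  ab : ∀ p ∈ C, (a p = 1 ∧ b p = 1) ∨ (a p = -1 ∧ b p = -1) ∨ (a p = 1 ∧ b p = -1)
  pos : ∀ p ∈ C, ∀ z : ℂ, ‖z‖ < 1 → Pm oC o (Q p) z
  inj : ∀ p ∈ C, InjOn (Q p) (Metric.ball 0 1)
  ctr : ∀ p ∈ C, Q p 0 = p
  dis : ∀ p ∈ C, ∀ q ∈ C, p ≠ q → Disjoint (Q p '' Metric.ball 0 1) (Q q '' Metric.ball 0 1)
  fQ : ∀ p ∈ C, ∀ z : ℂ, ‖z‖ < 1 → f (Q p z) = f p + c p * (a p * z.re ^ 2 + b p * z.im ^ 2)
  vQ : ∀ p ∈ C, ∀ z : ℂ, ‖z‖ < 1 →
    v (Q p z) = mfderiv IC IC (Q p) z (show ℂ from ⟨a p * z.re, b p * z.im⟩)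

/-- no orbit runs from a saddle to a saddle -/
def Mo.Noc {o : Or M} (m : Mo o) : Prop :=
  ∀ p ∈ m.C, ∀ q ∈ m.C, m.a p ≠ m.b p → m.a q ≠ m.b q → ∀ x ∉ m.C,
    ¬ (Tendsto (fun t => Flo26.fl m.v t x) atBot (𝓝 p) ∧
      Tendsto (fun t => Flo26.fl m.v t x) atTop (𝓝 q))

end

/-- closed oriented surface -/
structure Sf where
  R : Type
  [tp : TopologicalSpace R]
  [t2 : T2Space R]
  [cp : CompactSpace R]
  [ne : Nonempty R]
  [ch : ChartedSpace ℂ R]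
  [mf : IsManifold IC ∞ R]
  o : Or R

instance (X : Sf) : TopologicalSpace X.R := X.tp
instance (X : Sf) : T2Space X.R := X.t2
instance (X : Sf) : CompactSpace X.R := X.cp
instance (X : Sf) : Nonempty X.R := X.ne
instance (X : Sf) : ChartedSpace ℂ X.R := X.ch
instance (X : Sf) : IsManifold IC ∞ X.R := X.mf

/-! ### leaves -/

/-- GERM 1: a positive germ at `0` is the end of an isotopy supported in a small ball -/
def Germ1 : Prop := ∀ (f : ℂ → ℂ) (δ : ℝ), Pm oC oC f 0 → f 0 = 0 → 0 < δ →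
  ∃ ψ, Iso oC ψ ∧ (∀ t, ψ t 0 = 0) ∧ (∀ t z, δ ≤ ‖z‖ → ψ t z = z) ∧ ∀ᶠ z in 𝓝 0, ψ 1 z = f z

/-- GERM 2: a loop of germs at `0` is covered by an isotopy ending at a multiple rotation -/
def Germ2 : Prop := ∀ (f : ℝ → ℂ → ℂ) (ρ δ : ℝ), 0 < ρ → 0 < δ →
  ContDiffOn ℝ ∞ (fun p : ℝ × ℂ => f p.1 p.2) (univ ×ˢ Metric.ball 0 ρ) → (∀ t, f t 0 = 0) →
  (∀ t, 0 < dt (f t) 0) → (∀ᶠ z in 𝓝 0, f 0 z = z) → (∀ᶠ z in 𝓝 0, f 1 z = z) →
  ∃ κ, ∃ m : ℤ, ∃ δ' > 0, δ' ≤ δ ∧ Iso oC κ ∧ (∀ t z, δ ≤ ‖z‖ → κ t z = z) ∧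
    (∀ᶠ z in 𝓝 0, ∀ t ∈ Icc (0 : ℝ) 1, κ t z = f t z) ∧ κ 1 = rot δ' m

/-- SMALE -/
def Smale : Prop := ∀ h ∈ G oC, (∃ ρ : ℝ, ∀ z, ρ ≤ ‖z‖ → h z = z) →
  ∃ φ, Iso oC φ ∧ φ 1 = h ∧ ∃ ρ : ℝ, ∀ t z, ρ ≤ ‖z‖ → φ t z = z

/-- HOM: homogeneity -/
def Hom : Prop := ∀ (X : Sf) (W : Set X.R), IsOpen W → IsPreconnected W → ∀ x ∈ W, ∀ y ∈ W,
  ∃ φ, Iso X.o φ ∧ NearI φ Wᶜ ∧ φ 1 x = y

/-- COLL: uniqueness of annulus charts with a given core -/
def Coll : Prop := ∀ (X : Sf) (A A' : ℂ → X.R) (U : Set X.R), An X.o A → An X.o A' →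
  core A = core A' → IsOpen U → core A ⊆ U →
  ∃ φ, Iso X.o φ ∧ NearI φ Uᶜ ∧ ∃ ε : ℝ, (ε = 1 ∨ ε = -1) ∧ ∃ δ > 0, ∀ z : ℂ, |z.im| < δ →
    φ 1 (A z) = A' (ε * z)

/-- TUB: annulus chart of a curve, prescribed near finitely many points -/
def Tub : Prop := ∀ (X : Sf) (γ : ℝ → X.R) (U : Set X.R) (n : ℕ) (t : Fin n → ℝ)
  (e : Fin n → ℂ → X.R), Cv γ → IsOpen U → range γ ⊆ U →
  (∀ i j, ∀ m : ℤ, t i = t j + m → i = j) → (∀ j, Pm oC X.o (e j) 0) →
  (∀ j, ∀ᶠ u : ℝ in 𝓝 0, e j u = γ (t j + u)) →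
  ∃ A, An X.o A ∧ range A ⊆ U ∧ (∀ s : ℝ, A s = γ s) ∧ ∀ j, ∀ᶠ z in 𝓝 0, A (t j + z) = e j z

/-- ARCX: a closed curve crossing a non-separating wall once -/
def Arcx : Prop := ∀ (X : Sf) (U Z : Set X.R) (B : ℂ → X.R), IsOpen U → IsOpen (U \ Z) →
  IsPreconnected (U \ Z) → Pm oC X.o B 0 → B 0 ∈ U → (∀ᶠ z in 𝓝 0, B z ∈ Z ↔ z.im = 0) →
  ∃ γ, Cv γ ∧ range γ ⊆ U ∧ (∀ t, γ t ∈ Z → ∃ n : ℤ, t = n) ∧
    ∃ c > (0 : ℝ), ∀ᶠ t : ℝ in 𝓝 0, γ t = B (c * t * I)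

/-- DUAL 2: a common dual of two disjoint non-separating curves -/
def Dual2 : Prop := ∀ (X : Sf) (U : Set X.R) (A A' : ℂ → X.R), IsOpen U → An X.o A → An X.o A' →
  core A ⊆ U → core A' ⊆ U → Disjoint (core A) (core A') → IsPreconnected (U \ core A) →
  IsPreconnected (U \ core A') →
  ∃ γ, Cv γ ∧ range γ ⊆ U ∧ ∃ t t' : ℝ, (∀ s, γ s ∈ core A → ∃ n : ℤ, s = t + n) ∧ Tv A γ t ∧
    (∀ s, γ s ∈ core A' → ∃ n : ℤ, s = t' + n) ∧ Tv A' γ t'

/-- NF 0: general position by a parallel shift -/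
def Nf0 : Prop := ∀ (X : Sf) (A : ℂ → X.R) (γ : ℝ → X.R) (δ : ℝ), An X.o A → Cv γ → 0 < δ →
  ∃ r : ℝ, |r| < δ ∧ (∀ t, γ t ∈ core (fun z => A (z + r * I)) → Tv (fun z => A (z + r * I)) γ t) ∧
    {t ∈ Ico (0 : ℝ) 1 | γ t ∈ core (fun z => A (z + r * I))}.Finite

/-- NF 1: transverse curves have plumbed annuli -/
def Nf1 : Prop := ∀ (X : Sf) (U : Set X.R) (A : ℂ → X.R) (γ : ℝ → X.R) (n : ℕ) (t : Fin n → ℝ),
  IsOpen U → An X.o A → core A ⊆ U → Cv γ → range γ ⊆ U →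
  (∀ i j, ∀ m : ℤ, t i = t j + m → i = j) → (∀ j, Tv A γ (t j)) →
  (∀ s, γ s ∈ core A → ∃ j, ∃ m : ℤ, s = t j + m) →
  ∃ A' B δ θ ε, Nf X.o U A' B n δ t θ ε ∧ (∀ s : ℝ, A' s = A s) ∧ ∀ s : ℝ, B s = γ s

/-- PLUMB: the quarter turn of a one-holed torus -/
def Plumb : Prop := ∀ (X : Sf) (U : Set X.R) (A B : ℂ → X.R) (δ : ℝ), IsPreconnected (univ : Set X.R) →
  Nf X.o U A B 1 δ (fun _ => 0) (fun _ => 0) (fun _ => 1) →
  ∃ k ∈ G X.o, Near k Uᶜ ∧ (TW X.o → k ∈ K X.o) ∧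
    ∃ δ' > 0, ∀ z : ℂ, |z.im| < δ' → k (A z) = B z ∧ k (B z) = A (-z)

/-- SURG: surgery at two crossings that are adjacent on the core of `A` -/
def Surg : Prop := ∀ (X : Sf) (U : Set X.R) (A B : ℂ → X.R) (n : ℕ) (δ : ℝ) (t θ ε : Fin n → ℝ),
  IsOpen U → Nf X.o U A B n δ t θ ε → 2 ≤ n → IsPreconnected (U \ core B) →
  ∃ γ, Cv γ ∧ range γ ⊆ U ∧ IsPreconnected (U \ range γ) ∧
    (∃ n' < n, ∃ s : Fin n' → ℝ, (∀ i j, ∀ m : ℤ, s i = s j + m → i = j) ∧ (∀ j, Tv A γ (s j)) ∧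
      ∀ u, γ u ∈ core A → ∃ j, ∃ m : ℤ, u = s j + m) ∧
    (Disjoint (range γ) (core B) ∨ ∃ s, Tv B γ s ∧ ∀ u, γ u ∈ core B → ∃ m : ℤ, u = s + m)

/-- LK: Lickorish transitivity -/
def Lk : Prop := ∀ (X : Sf) (U : Set X.R) (A B : ℂ → X.R), IsPreconnected (univ : Set X.R) →
  IsOpen U → An X.o A → An X.o B → core A ⊆ U → core B ⊆ U → IsPreconnected (U \ core A) →
  IsPreconnected (U \ core B) → Mv X.o U (core A) (core B)

/-- CAP -/
def Cap : Prop := ∀ (X : Sf) (ι : Type) [Fintype ι] (A : ι → ℂ → X.R), (∀ i, An X.o (A i)) →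
  (∀ i k, i ≠ k → Disjoint (range (A i)) (range (A k))) →
  ∃ (Y : Sf) (j : X.R → Y.R) (D : ι → Bool → ℂ → Y.R), CapD X.o Y.o A j D

/-- MORSE -/
def Morse : Prop := ∀ X : Sf, Nonempty (Mo X.o)

/-- NOC -/
def Noc : Prop := ∀ X : Sf, Nonempty (Mo X.o) → ∃ m : Mo X.o, m.Noc

/-- CUT -/
def CutS : Prop := ∀ (X : Sf) (m : Mo X.o), m.Noc → IsPreconnected (univ : Set X.R) →
  ∃ x, Nonempty (Cut X.o x)

/-- every point of a connected surface carries a cut system -/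
def Graph : Prop := ∀ X : Sf, IsPreconnected (univ : Set X.R) → ∀ x, Nonempty (Cut X.o x)

/-- the monodromy of the cocycle `c` along the loop `w` is trivial -/
def Triv {Y Γ : Type*} [TopologicalSpace Y] [Group Γ] (c : Y → Y → Γ) (w : ℝ → Y) : Prop :=
  ∀ b : ℝ → Γ, Lev33.Prim (Icc 0 1) (fun s t => c (w s) (w t)) b → b 0 = b 1

/-- SIMP: non-separating simple loops generate -/
def Simp : Prop := ∀ (Y : Sf) (x : Y.R) (Γ : Type) [CommGroup Γ] (c : Y.R → Y.R → Γ),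
  IsPreconnected (univ : Set Y.R) → Lev33.Coc {x}ᶜ c →
  (∀ A, An Y.o A → NS A → x ∉ range A → Triv c fun t : ℝ => A t) →
  ∀ w : ℝ → Y.R, Continuous w → (∀ t, w t ≠ x) → w 0 = w 1 → Triv c w

/-- PUSH: pushing one foot of a handle -/
def Push : Prop := ∀ (X Y : Sf) (A : ℂ → X.R) (j : X.R → Y.R) (D : Unit → Bool → ℂ → Y.R),
  TW X.o → An X.o A → NS A → CapD X.o Y.o (fun _ => A) j D →
  ∀ φ, Iso Y.o φ → NearI φ {D () false 0} → Near (φ 1) {D () true 0} →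
    lf j (core A) (φ 1) ∈ K X.o

/-- genus at least three -/
def G3 (X : Sf) : Prop := ∃ A : Fin 3 → ℂ → X.R, (∀ i, An X.o (A i)) ∧
  (∀ i k, i ≠ k → Disjoint (range (A i)) (range (A k))) ∧ IsPreconnected (⋃ i, core (A i))ᶜ

/-- all non-separating twists have the same class -/
def Cj (X : Sf) : Prop := ∀ A B : ℂ → X.R, An X.o A → An X.o B → NS A → NS B →
  tw A * (tw B)⁻¹ ∈ K X.o

/-- LANT -/
def Lant : Prop := ∀ X : Sf, G3 X → Cj X → TW X.o

/-- ARC: fixing one more arc -/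
def ArcS : Prop := ∀ (X : Sf) (Z : Set X.R) (B : ℂ → X.R) (η : X.R → ℝ), TW X.o →
  Arc X.o Z B η → ∀ g ∈ G X.o, Near g Z → ∃ k ∈ K X.o, Near (k * g) (Z ∪ core B)

/-- PERF -/
def Perf : Prop := ∀ X : Sf, G3 X → G X.o ≤ K X.o

end Crest.Agent.X212.Prf6
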