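import Crest.Agent.X212.Prf6.Bas

/-!
# Row 212, PERF (helper6): transplanting through charts, shears, rotations, twists
-/

set_option autoImplicit false
set_option linter.unusedSectionVars false
noncomputable section
open Set Filter Topology Function Complex
open scoped ContDiff Manifold

namespace Crest.Agent.X212.Prf6

section
variable {M : Type*} {A : ℂ → M} {h k : Equiv.Perm ℂ}

/-- `h` respects the fibres of `A` -/
def Wd (A : ℂ → M) (h : Equiv.Perm ℂ) : Prop := ∀ z w, A z = A w ↔ A (h z) = A (h w)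

theorem wd_one : Wd A 1 := fun _ _ => Iff.rfl

theorem Wd.mul (a : Wd A h) (b : Wd A k) : Wd A (h * k) := fun z w => (b z w).trans (a _ _)

theorem Wd.inv (a : Wd A h) : Wd A h⁻¹ := fun z w => by simpa using (a (h⁻¹ z) (h⁻¹ w)).symm

theorem wd_of_inj (hA : Injective A) (h : Equiv.Perm ℂ) : Wd A h := fun _ _ => by
  rw [hA.eq_iff, hA.eq_iff, h.injective.eq_iff]

theorem Wd.spec (a : Wd A h) :
    (∀ z, tr A h (A z) = A (h z)) ∧ ∀ x ∉ range A, tr A h x = x := by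
  classical
  let F : Equiv.Perm ℂ → M → M := fun h x => if H : ∃ z, A z = x then A (h H.choose) else x
  have h1 : ∀ h, Wd A h → ∀ z, F h (A z) = A (h z) := fun h a z => by
    have H : ∃ w, A w = A z := ⟨z, rfl⟩
    exact (dif_pos H).trans ((a _ _).1 H.choose_spec)
  have h2 : ∀ h, ∀ x ∉ range A, F h x = x := fun h x hx => dif_neg hx
  have h3 : ∀ h, Wd A h → LeftInverse (F h⁻¹) (F h) := fun h a x => by
    by_cases hx : x ∈ range A
    · obtain ⟨z, rfl⟩ := hx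
      rw [h1 h a, h1 _ a.inv]; simp
    · rw [h2 h x hx, h2 _ x hx]
  have hb : Bijective (F h) := ⟨(h3 h a).injective, (by simpa using h3 _ a.inv :
    LeftInverse (F h) (F h⁻¹)).surjective⟩
  exact ⟨fun z => (mkP_apply hb _).trans (h1 h a z), fun x hx => (mkP_apply hb _).trans (h2 h x hx)⟩

theorem Wd.apply (a : Wd A h) (z : ℂ) : tr A h (A z) = A (h z) := a.spec.1 z

theorem Wd.out (a : Wd A h) {x : M} (hx : x ∉ range A) : tr A h x = x := a.spec.2 x hx

theorem Wd.ext (a : Wd A h) {f : Equiv.Perm M} (h1 : ∀ z, f (A z) = A (h z))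
    (h2 : ∀ x ∉ range A, f x = x) : tr A h = f := by
  ext x
  by_cases hx : x ∈ range A
  · obtain ⟨z, rfl⟩ := hx
    rw [a.apply, h1]
  · rw [a.out hx, h2 x hx]

theorem tr_one : tr A 1 = 1 := wd_one.ext (fun _ => rfl) fun _ _ => rfl

theorem tr_mul (a : Wd A h) (b : Wd A k) : tr A (h * k) = tr A h * tr A k :=
  (a.mul b).ext (fun z => by simp [a.apply, b.apply]) fun x hx => by simp [a.out hx, b.out hx]

theorem tr_inv (a : Wd A h) : tr A h⁻¹ = (tr A h)⁻¹ := by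
  rw [eq_inv_iff_mul_eq_one, ← tr_mul a.inv a, inv_mul_cancel, tr_one]

theorem Wd.comp (a : Wd A h) (g : Equiv.Perm M) : Wd (g ∘ A) h := fun z w => by
  simpa using a z w

theorem tr_conj (a : Wd A h) (g : Equiv.Perm M) : tr (g ∘ A) h = g * tr A h * g⁻¹ := by
  refine (a.comp g).ext (fun z => by simp [a.apply]) fun x hx => ?_
  have : g⁻¹ x ∉ range A := fun ⟨z, hz⟩ => hx ⟨z, by simp [hz]⟩
  show g (tr A h (g⁻¹ x)) = x
  rw [a.out this]; simp

/-- `tr A h` fixes everything off `A '' L` -/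
theorem Wd.fix (a : Wd A h) {L : Set ℂ} (hL : ∀ z, A z ∉ A '' L → A (h z) = A z) {x : M}
    (hx : x ∉ A '' L) : tr A h x = x := by
  by_cases hr : x ∈ range A
  · obtain ⟨z, rfl⟩ := hr
    rw [a.apply, hL z hx]
  · exact a.out hr

theorem core_comp {N : Type*} (g : M → N) (A : ℂ → M) : core (g ∘ A) = g '' core A := by
  unfold core
  rw [← range_comp]; rfl

theorem core_subset (A : ℂ → M) : core A ⊆ range A := by
  rintro _ ⟨t, rfl⟩; exact ⟨_, rfl⟩

theorem mem_core {z : ℂ} (hz : z.im = 0) : A z ∈ core A :=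
  ⟨z.re, congrArg A (Complex.ext (by simp) (by simp [hz]))⟩

theorem core_affine (A : ℂ → M) (t : ℝ) {ε : ℝ} (hε : ε ≠ 0) :
    core (fun z => A (t + ε * z)) = core A := by
  ext x
  constructor
  · rintro ⟨s, rfl⟩; exact mem_core (by simp)
  · rintro ⟨s, rfl⟩
    refine ⟨(s - t) / ε, congrArg A ?_⟩
    have : (ε : ℂ) ≠ 0 := ofReal_ne_zero.2 hε
    push_cast; field_simp; ring

end

section
variable {M : Type*} [TopologicalSpace M] [ChartedSpace ℂ M] [IsManifold IC ∞ M] [T2Space M]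
  {o : Or M} {A : ℂ → M}

theorem cont_of_pm (hA : ∀ z, Pm oC o A z) : Continuous A :=
  continuous_iff_continuousAt.2 fun z => (hA z).1.contMDiffAt.continuousAt

theorem sm_of_pm (hA : ∀ z, Pm oC o A z) : ContMDiff IC IC ∞ A := fun z => (hA z).1.contMDiffAt

theorem isOpenMap_of_pm (hA : ∀ z, Pm oC o A z) : IsOpenMap A :=
  IsLocalDiffeomorph.isOpenMap (I := IC) (J := IC) (n := ∞) fun z => (hA z).1

theorem Pm.map_nhds {N : Type*} [TopologicalSpace N] [ChartedSpace ℂ N] {o' : Or N} {f : N → M}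
    {x : N} (h : Pm o' o f x) : map f (𝓝 x) = 𝓝 (f x) := by
  obtain ⟨Φ, hx, hΦ⟩ := h.1
  have e : f =ᶠ[𝓝 x] Φ := Filter.eventuallyEq_of_mem (Φ.open_source.mem_nhds hx) hΦ
  rw [map_congr e, hΦ hx]
  exact Φ.toOpenPartialHomeomorph.map_nhds_eq hx

/-- smooth families are transplanted to smooth families -/
theorem tr_sm {F : Type*} [NormedAddCommGroup F] [NormedSpace ℝ F] (hA : ∀ z, Pm oC o A z)
    {κ : F → Equiv.Perm ℂ} (hκ : ContDiff ℝ ∞ fun p : F × ℂ => κ p.1 p.2) (hw : ∀ t, Wd A (κ t))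
    {L : Set ℂ} (hL : IsCompact L) (ho : ∀ t z, A z ∉ A '' L → A (κ t z) = A z) :
    ContMDiff (𝓘(ℝ, F).prod IC) IC ∞ fun p : F × M => tr A (κ p.1) p.2 := by
  rintro ⟨t, x⟩
  by_cases hx : x ∈ range A
  · obtain ⟨z, rfl⟩ := hx
    have h1 : IsLocalDiffeomorphAt (𝓘(ℝ, F).prod IC) (𝓘(ℝ, F).prod IC) ∞ (Prod.map id A) (t, z) :=
      Glue52.ld_prodMap_at ((Diffeomorph.refl 𝓘(ℝ, F) F ∞).isLocalDiffeomorph t) (hA z).1
    refine Cyl58.contMDiffAt_of_comp h1 ?_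
    refine ((sm_of_pm hA).comp (cm_of_cd hκ) (t, z)).congr_of_eventuallyEq ?_
    exact Eventually.of_forall fun p => (hw p.1).apply p.2
  · have hc : IsClosed (A '' L) := (hL.image (cont_of_pm hA)).isClosed
    refine contMDiffAt_snd.congr_of_eventuallyEq ?_
    filter_upwards [continuous_snd.continuousAt.eventually
      (hc.isOpen_compl.mem_nhds fun h => hx (image_subset_range _ _ h))] with p hp
    exact (hw p.1).fix (ho p.1) hp

theorem tr_mem (hA : ∀ z, Pm oC o A z) {h : Equiv.Perm ℂ} (hh : h ∈ G oC) (hw : Wd A h)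
    {L : Set ℂ} (hL : IsCompact L) (ho : ∀ z, A z ∉ A '' L → A (h z) = A z) : tr A h ∈ G o := by
  intro x
  by_cases hx : x ∈ range A
  · obtain ⟨z, rfl⟩ := hx
    exact (hA z).of_comp (((hA _).comp (hh z)).congr (Eventually.of_forall hw.apply))
  · have hc : IsClosed (A '' L) := (hL.image (cont_of_pm hA)).isClosed
    refine (pm_id o x).congr ?_
    filter_upwards [hc.isOpen_compl.mem_nhds fun h => hx (image_subset_range _ _ h)] with y hy
    exact hw.fix ho hy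

theorem Iso.cd {κ : ℝ → Equiv.Perm ℂ} (h : Iso oC κ) : ContDiff ℝ ∞ fun p : ℝ × ℂ => κ p.1 p.2 :=
  cd_of_cm h.sm

theorem tr_iso (hA : ∀ z, Pm oC o A z) {κ : ℝ → Equiv.Perm ℂ} (hκ : Iso oC κ)
    (hw : ∀ t, Wd A (κ t)) {L : Set ℂ} (hL : IsCompact L)
    (ho : ∀ t z, A z ∉ A '' L → A (κ t z) = A z) : Iso o fun t => tr A (κ t) :=
  ⟨tr_sm hA hκ.cd hw hL ho, fun t => tr_mem hA (hκ.mem t) (hw t) hL (ho t), by
    rw [hκ.zero, tr_one]⟩

theorem tr_near (hA : ∀ z, Pm oC o A z) {h : Equiv.Perm ℂ} (hw : Wd A h) {L : Set ℂ}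
    (hL : IsCompact L) (ho : ∀ z, A z ∉ A '' L → A (h z) = A z) {Z : Set M}
    (hZ : Disjoint (A '' L) Z) : Near (tr A h) Z :=
  near_of_closed (hL.image (cont_of_pm hA)).isClosed hZ fun _ hx => hw.fix ho hx

theorem tr_nearI (hA : ∀ z, Pm oC o A z) {κ : ℝ → Equiv.Perm ℂ} (hw : ∀ t, Wd A (κ t))
    {L : Set ℂ} (hL : IsCompact L) (ho : ∀ t z, A z ∉ A '' L → A (κ t z) = A z) {Z : Set M}
    (hZ : Disjoint (A '' L) Z) : NearI (fun t => tr A (κ t)) Z :=
  nearI_of_closed (hL.image (cont_of_pm hA)).isClosed hZ fun t _ hx => (hw t).fix (ho t) hx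

/-! ### plane charts -/

theorem St.wd (hA : St o A) (h : Equiv.Perm ℂ) : Wd A h := wd_of_inj hA.2 h

theorem St.apply (hA : St o A) (h : Equiv.Perm ℂ) (z : ℂ) : tr A h (A z) = A (h z) :=
  (hA.wd h).apply z

theorem out_of_supp {h : ℂ → ℂ} {L : Set ℂ} (hL : ∀ z ∉ L, h z = z) (z : ℂ) (hz : A z ∉ A '' L) :
    A (h z) = A z := by
  rw [hL z fun h => hz (mem_image_of_mem A h)]

theorem St.tr_mem (hA : St o A) {h : Equiv.Perm ℂ} (hh : h ∈ G oC) {L : Set ℂ} (hL : IsCompact L)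
    (ho : ∀ z ∉ L, h z = z) : tr A h ∈ G o :=
  Prf6.tr_mem hA.1 hh (hA.wd h) hL (out_of_supp ho)

theorem St.tr_iso (hA : St o A) {κ : ℝ → Equiv.Perm ℂ} (hκ : Iso oC κ) {L : Set ℂ}
    (hL : IsCompact L) (ho : ∀ t, ∀ z ∉ L, κ t z = z) : Iso o fun t => tr A (κ t) :=
  Prf6.tr_iso hA.1 hκ (fun t => hA.wd (κ t)) hL fun t => out_of_supp (ho t)

theorem St.fix (hA : St o A) {h : Equiv.Perm ℂ} {L : Set ℂ} (ho : ∀ z ∉ L, h z = z) {x : M}
    (hx : x ∉ A '' L) : tr A h x = x := (hA.wd h).fix (out_of_supp ho) hx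

theorem St.tr_near (hA : St o A) {h : Equiv.Perm ℂ} {L : Set ℂ} (hL : IsCompact L)
    (ho : ∀ z ∉ L, h z = z) {Z : Set M} (hZ : Disjoint (A '' L) Z) : Near (tr A h) Z :=
  Prf6.tr_near hA.1 (hA.wd h) hL (out_of_supp ho) hZ

theorem St.tr_nearI (hA : St o A) {κ : ℝ → Equiv.Perm ℂ} {L : Set ℂ} (hL : IsCompact L)
    (ho : ∀ t, ∀ z ∉ L, κ t z = z) {Z : Set M} (hZ : Disjoint (A '' L) Z) :
    NearI (fun t => tr A (κ t)) Z :=
  Prf6.tr_nearI hA.1 (fun t => hA.wd (κ t)) hL (fun t => out_of_supp (ho t)) hZ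

theorem St.comp (hA : St o A) {g : Equiv.Perm M} (hg : g ∈ G o) : St o (g ∘ A) :=
  ⟨fun z => (hg _).comp (hA.1 z), g.injective.comp hA.2⟩

theorem St.affine (hA : St o A) {a : ℂ} (ha : a ≠ 0) (b : ℂ) : St o fun z => A (b + a * z) :=
  ⟨fun z => (hA.1 _).comp (pm_affine ha b z), fun _ _ h =>
    mul_left_cancel₀ ha (add_left_cancel (hA.2 h))⟩

theorem St.mem_core (hA : St o A) {z : ℂ} : A z ∈ core A ↔ z.im = 0 :=
  ⟨fun ⟨t, ht⟩ => by rw [← hA.2 ht]; simp, Prf6.mem_core⟩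

theorem St.isOpenEmbedding (hA : St o A) : IsOpenEmbedding A :=
  .of_continuous_injective_isOpenMap (cont_of_pm hA.1) hA.2 (isOpenMap_of_pm hA.1)

/-! ### annulus charts -/

theorem An.per (hA : An o A) (z : ℂ) (n : ℤ) : A (z + n) = A z := ((hA.2 _ _).2 ⟨n, rfl⟩).symm

theorem An.im_eq (hA : An o A) {z w : ℂ} (h : A z = A w) : z.im = w.im := by
  obtain ⟨n, rfl⟩ := (hA.2 _ _).1 h
  simp

theorem An.wd (hA : An o A) {h : Equiv.Perm ℂ} (hh : ∀ z, ∀ n : ℤ, h (z + n) = h z + n) :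
    Wd A h := fun z w => by
  rw [hA.2, hA.2]
  refine exists_congr fun n => ⟨fun e => by rw [e, hh], fun e => h.injective (by rw [e, hh])⟩

/-- the compact fundamental box -/
def bx (a b : ℝ) : Set ℂ := Icc (0 : ℝ) 1 ×ℂ Icc a b

theorem isCompact_bx (a b : ℝ) : IsCompact (bx a b) := isCompact_Icc.reProdIm isCompact_Icc

theorem An.mem_bx (hA : An o A) {a b : ℝ} {z : ℂ} : A z ∈ A '' bx a b ↔ z.im ∈ Icc a b := by
  constructor
  · rintro ⟨w, hw, e⟩
    rw [← hA.im_eq e]; exact hw.2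
  · intro hz
    refine ⟨z + (-⌊z.re⌋ : ℤ), ⟨?_, by simpa using hz⟩, hA.per _ _⟩
    have h1 := Int.floor_le z.re
    have h2 := Int.lt_floor_add_one z.re
    simp only [mem_preimage, add_re, intCast_re, Int.cast_neg, neg_re, mem_Icc]
    constructor <;> linarith

theorem An.mem_core (hA : An o A) {z : ℂ} : A z ∈ core A ↔ z.im = 0 :=
  ⟨fun ⟨t, ht⟩ => by rw [← hA.im_eq ht]; simp, Prf6.mem_core⟩

theorem An.core_eq (hA : An o A) : core A = A '' bx 0 0 := by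
  ext x
  constructor
  · rintro ⟨t, rfl⟩; exact hA.mem_bx.2 (by simp)
  · rintro ⟨z, hz, rfl⟩
    exact Prf6.mem_core (le_antisymm hz.2.2 hz.2.1)

theorem An.isCompact_core (hA : An o A) : IsCompact (core A) :=
  hA.core_eq ▸ (isCompact_bx 0 0).image (cont_of_pm hA.1)

theorem An.out (hA : An o A) {h : ℂ → ℂ} {a b : ℝ}
    (ho : ∀ z : ℂ, z.im ∉ Icc a b → ∃ n : ℤ, h z = z + n) (z : ℂ) (hz : A z ∉ A '' bx a b) :
    A (h z) = A z := by
  obtain ⟨n, hn⟩ := ho z fun h => hz (hA.mem_bx.2 h)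
  rw [hn, hA.per]

theorem An.tr_mem (hA : An o A) {h : Equiv.Perm ℂ} (hh : h ∈ G oC)
    (hp : ∀ z, ∀ n : ℤ, h (z + n) = h z + n) {a b : ℝ}
    (ho : ∀ z : ℂ, z.im ∉ Icc a b → ∃ n : ℤ, h z = z + n) : tr A h ∈ G o :=
  Prf6.tr_mem hA.1 hh (hA.wd hp) (isCompact_bx a b) (hA.out ho)

theorem An.tr_iso (hA : An o A) {κ : ℝ → Equiv.Perm ℂ} (hκ : Iso oC κ)
    (hp : ∀ t z, ∀ n : ℤ, κ t (z + n) = κ t z + n) {a b : ℝ}
    (ho : ∀ t, ∀ z : ℂ, z.im ∉ Icc a b → ∃ n : ℤ, κ t z = z + n) : Iso o fun t => tr A (κ t) :=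
  Prf6.tr_iso hA.1 hκ (fun t => hA.wd (hp t)) (isCompact_bx a b) fun t => hA.out (ho t)

theorem An.comp (hA : An o A) {g : Equiv.Perm M} (hg : g ∈ G o) : An o (g ∘ A) :=
  ⟨fun z => (hg _).comp (hA.1 z), fun z w => by simpa using hA.2 z w⟩

theorem An.shift (hA : An o A) (b : ℂ) : An o fun z => A (z + b) :=
  ⟨fun z => ((hA.1 _).comp (pm_affine one_ne_zero b z)).congr
    (Eventually.of_forall fun w => by simp [add_comm]), fun z w => by
    rw [hA.2]
    exact exists_congr fun n => ⟨fun e => by linear_combination e, fun e => by rw [e]; ring⟩⟩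

theorem An.affine (hA : An o A) (b : ℂ) {ε : ℝ} (hε : ε = 1 ∨ ε = -1) :
    An o fun z => A (b + ε * z) := by
  have h0 : (ε : ℂ) ≠ 0 := by rcases hε with rfl | rfl <;> simp
  refine ⟨fun z => (hA.1 _).comp (pm_affine h0 b z), fun z w => ?_⟩
  rw [hA.2]
  rcases hε with rfl | rfl
  · exact exists_congr fun n => ⟨fun e => by push_cast at e; linear_combination e,
      fun e => by rw [e]; push_cast; ring⟩
  · exact ⟨fun ⟨n, e⟩ => ⟨-n, by push_cast at e ⊢; linear_combination -e⟩,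
      fun ⟨n, e⟩ => ⟨-n, by rw [e]; push_cast; ring⟩⟩

theorem An.neg (hA : An o A) : An o fun z => A (-z) := by
  simpa using hA.affine 0 (Or.inr rfl)

theorem core_neg {M : Type*} (A : ℂ → M) : core (fun z => A (-z)) = core A := by
  simpa using core_affine A 0 (ε := -1) (by simp)

/-- the core of an annulus chart as a curve -/
theorem An.cv (hA : An o A) : Cv fun t : ℝ => A t := by
  have h1 : ContMDiff IR IC ∞ (ofRealCLM : ℝ → ℂ) := ofRealCLM.contDiff.contMDiff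
  refine ⟨(sm_of_pm hA.1).comp h1, fun t => ?_, fun s t => ?_⟩
  · have e : (fun t : ℝ => A t) = A ∘ ofRealCLM := rfl
    rw [e, mfderiv_comp t (hA.1 _).mdiff (h1.mdifferentiableAt (by simp)), mfderiv_eq_fderiv,
      ofRealCLM.fderiv]
    intro h0
    have h3 : Injective (mfderiv IC IC A (ofRealCLM t)) :=
      (LinearMap.equivOfDetNeZero (show ℂ →L[ℝ] ℂ from mfderiv IC IC A (ofRealCLM t)).toLinearMap
        (dt_ne (hA.1 _).1)).injective
    have : (ofRealCLM 1 : ℂ) = 0 := (injective_iff_map_eq_zero _).1 h3 _ h0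
    simp at this
  · rw [hA.2]
    exact exists_congr fun n => ⟨fun e => by exact_mod_cast e, fun e => by rw [e]; push_cast; rfl⟩

end

/-! ### shears and rotations -/

@[simp] theorem sh_apply (l : ℝ → ℝ) (z : ℂ) : sh l z = z + l z.im := rfl

theorem sh_add (l l' : ℝ → ℝ) : sh (fun r => l r + l' r) = sh l * sh l' := by
  ext z : 1
  simp only [sh_apply, Equiv.Perm.mul_apply, add_im, ofReal_im, add_zero]
  push_cast; ring

theorem sh_zero : sh (fun _ => 0) = 1 := by ext z : 1; simp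

theorem sh_inv (l : ℝ → ℝ) : (sh l)⁻¹ = sh fun r => -l r := by
  rw [eq_comm, eq_inv_iff_mul_eq_one, ← sh_add]; simp [sh_zero]

theorem sh_per (l : ℝ → ℝ) (z : ℂ) (n : ℤ) : sh l (z + n) = sh l z + n := by simp; ring

theorem sh_cd {F : Type*} [NormedAddCommGroup F] [NormedSpace ℝ F] {l : F → ℝ → ℝ}
    (hl : ContDiff ℝ ∞ fun p : F × ℝ => l p.1 p.2) :
    ContDiff ℝ ∞ fun p : F × ℂ => sh (l p.1) p.2 :=
  contDiff_snd.add (ofRealCLM.contDiff.comp (hl.comp (f := fun p : F × ℂ => (p.1, p.2.im))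
    (contDiff_fst.prodMk (imCLM.contDiff.comp contDiff_snd))))

theorem sh_cd' {l : ℝ → ℝ} (hl : ContDiff ℝ ∞ l) : ContDiff ℝ ∞ (sh l) :=
  contDiff_id.add (ofRealCLM.contDiff.comp (hl.comp imCLM.contDiff))

theorem sh_iso {l : ℝ → ℝ → ℝ} (hl : ContDiff ℝ ∞ fun p : ℝ × ℝ => l p.1 p.2)
    (h0 : ∀ r, l 0 r = 0) : Iso oC fun t => sh (l t) := by
  refine iso_of_inv (cm_of_cd (sh_cd hl)) (fun t => ?_) ?_
  · rw [sh_inv]
    exact (sh_cd' (hl.comp (f := fun r : ℝ => (t, r)) (by fun_prop)).neg).contMDiff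
  · rw [← sh_zero]; exact congrArg sh (funext h0)

theorem sh_mem {l : ℝ → ℝ} (hl : ContDiff ℝ ∞ l) : sh l ∈ G oC := by
  simpa using (sh_iso (l := fun t r => t * l r) (contDiff_fst.mul (hl.comp contDiff_snd))
    (by simp)).mem 1

theorem rot_apply (δ a : ℝ) (z : ℂ) : rot δ a z =
    z * exp (2 * Real.pi * I * (a * (1 - Real.smoothTransition (2 * ‖z‖ / δ - 1)) : ℝ)) := rfl

theorem norm_exp_2pi (r : ℝ) : ‖exp (2 * Real.pi * I * r)‖ = 1 := by
  rw [show (2 * Real.pi * I * r : ℂ) = (2 * Real.pi * r : ℝ) * I by push_cast; ring]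
  exact norm_exp_ofReal_mul_I _

theorem norm_rot (δ a : ℝ) (z : ℂ) : ‖rot δ a z‖ = ‖z‖ := by
  rw [rot_apply, norm_mul, norm_exp_2pi, mul_one]

theorem rot_out {δ : ℝ} (hδ : 0 < δ) (a : ℝ) {z : ℂ} (hz : δ ≤ ‖z‖) : rot δ a z = z := by
  rw [rot_apply, Real.smoothTransition.one_of_one_le]
  · simp
  · rw [le_sub_iff_add_le, le_div_iff₀ hδ]; linarith

theorem rot_in {δ : ℝ} (hδ : 0 < δ) (a : ℝ) {z : ℂ} (hz : ‖z‖ ≤ δ / 2) :
    rot δ a z = z * exp (2 * Real.pi * I * a) := by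
  rw [rot_apply, Real.smoothTransition.zero_of_nonpos]
  · simp
  · rw [sub_nonpos, div_le_one hδ]; linarith

theorem rot_add (δ a b : ℝ) : rot δ (a + b) = rot δ a * rot δ b := by
  ext z : 1
  rw [Equiv.Perm.mul_apply, rot_apply δ a, norm_rot, rot_apply, rot_apply, mul_assoc z, ← exp_add]
  congr 2
  push_cast; ring

theorem rot_zero (δ : ℝ) : rot δ 0 = 1 := by ext z : 1; simp [rot_apply]

theorem rot_inv (δ a : ℝ) : (rot δ a)⁻¹ = rot δ (-a) := by
  rw [eq_comm, eq_inv_iff_mul_eq_one, ← rot_add]; simp [rot_zero]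

theorem rot_cd {δ : ℝ} (hδ : 0 < δ) : ContDiff ℝ ∞ fun p : ℝ × ℂ => rot δ p.1 p.2 := by
  have he : ContDiff ℝ ∞ (exp : ℂ → ℂ) := Complex.contDiff_exp
  refine contDiff_iff_contDiffAt.2 fun p => ?_
  by_cases hp : p.2 = 0
  · have : ContDiff ℝ ∞ fun p : ℝ × ℂ => p.2 * exp (2 * Real.pi * I * p.1) :=
      contDiff_snd.mul (he.comp (contDiff_const.mul (ofRealCLM.contDiff.comp contDiff_fst)))
    refine this.contDiffAt.congr_of_eventuallyEq ?_
    have h : ∀ᶠ q : ℝ × ℂ in 𝓝 p, ‖q.2‖ < δ / 2 :=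
      continuous_snd.norm.continuousAt.eventually_lt continuousAt_const (by simp [hp, hδ])
    filter_upwards [h] with q hq using rot_in hδ _ hq.le
  · have hn : ContDiffAt ℝ ∞ (fun q : ℝ × ℂ => ‖q.2‖) p :=
      (Glue52.contDiffAt_norm_c hp).comp p contDiffAt_snd
    refine contDiffAt_snd.mul (he.contDiffAt.comp p (contDiffAt_const.mul
      (ofRealCLM.contDiff.contDiffAt.comp p (contDiffAt_fst.mul (contDiffAt_const.sub
        (Real.smoothTransition.contDiff.contDiffAt.comp p ?_))))))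
    exact ((contDiffAt_const.mul hn).div_const δ).sub contDiffAt_const

theorem rot_iso {δ : ℝ} (hδ : 0 < δ) : Iso oC (rot δ) :=
  iso_of_inv (cm_of_cd (rot_cd hδ)) (fun t => by
    rw [rot_inv]
    exact ((rot_cd hδ).comp (f := fun z : ℂ => (-t, z)) (by fun_prop)).contMDiff) (rot_zero δ)

theorem rot_mem {δ : ℝ} (hδ : 0 < δ) (a : ℝ) : rot δ a ∈ G oC := (rot_iso hδ).mem a

/-! ### twists -/

section
variable {M : Type*} [TopologicalSpace M] [ChartedSpace ℂ M] [IsManifold IC ∞ M] [T2Space M]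
  {o : Or M} {A : ℂ → M}

theorem An.wd_sh (hA : An o A) (l : ℝ → ℝ) : Wd A (sh l) := hA.wd (sh_per l)

theorem An.sh_mem (hA : An o A) {l : ℝ → ℝ} (hl : ContDiff ℝ ∞ l) {a b : ℝ}
    (ho : ∀ r ∉ Icc a b, ∃ n : ℤ, l r = n) : tr A (sh l) ∈ G o :=
  hA.tr_mem (Prf6.sh_mem hl) (sh_per l) (a := a) (b := b) fun z hz => by
    obtain ⟨n, hn⟩ := ho _ hz
    exact ⟨n, by simp [hn]⟩

theorem st_int {r : ℝ} (hr : r ∉ Icc (0 : ℝ) 1) : ∃ n : ℤ, Real.smoothTransition r = n := by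
  rw [mem_Icc, not_and_or, not_le, not_le] at hr
  rcases hr with h | h
  · exact ⟨0, by simp [Real.smoothTransition.zero_of_nonpos h.le]⟩
  · exact ⟨1, by simp [Real.smoothTransition.one_of_one_le h.le]⟩

theorem An.tw_mem (hA : An o A) : tw A ∈ G o :=
  hA.sh_mem Real.smoothTransition.contDiff fun _ => st_int

theorem An.tw_apply (hA : An o A) (z : ℂ) : tw A (A z) = A (z + Real.smoothTransition z.im) :=
  (hA.wd_sh _).apply z

theorem An.tw_conj (hA : An o A) (g : Equiv.Perm M) : tw (g ∘ A) = g * tw A * g⁻¹ :=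
  tr_conj (hA.wd_sh _) g

theorem An.tr_sh_zpow (hA : An o A) (l : ℝ → ℝ) (n : ℤ) :
    tr A (sh fun r => n * l r) = tr A (sh l) ^ n := by
  induction n using Int.induction_on with
  | zero => simp [sh_zero, tr_one]
  | succ n ih =>
    rw [zpow_add_one, ← ih, ← tr_mul (hA.wd_sh _) (hA.wd_sh _), ← sh_add]
    congr 2; ext r; push_cast; ring
  | pred n ih =>
    rw [zpow_sub_one, ← ih, ← tr_inv (hA.wd_sh _), sh_inv, ← tr_mul (hA.wd_sh _) (hA.wd_sh _),
      ← sh_add]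
    congr 2; ext r; push_cast; ring

/-- the class of a shear with integral ends -/
theorem An.cls_sh (hA : An o A) {l : ℝ → ℝ} (hl : ContDiff ℝ ∞ l) {a b : ℝ} {m n : ℤ}
    (h1 : ∀ r < a, l r = m) (h2 : ∀ r > b, l r = n) :
    cls o (tr A (sh l)) = cls o (tw A) ^ (n - m) := by
  set σ := Real.smoothTransition
  have hσ : ContDiff ℝ ∞ σ := Real.smoothTransition.contDiff
  let d : ℝ → ℝ := fun r => l r - m - ((n - m : ℤ) : ℝ) * σ r
  have hd : ContDiff ℝ ∞ d := (hl.sub contDiff_const).sub (contDiff_const.mul hσ)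
  have d0 : ∀ r ∉ Icc (min a 0) (max b 1), d r = 0 := fun r hr => by
    rw [mem_Icc, not_and_or, not_le, not_le, lt_min_iff, max_lt_iff] at hr
    rcases hr with h | h
    · simp [d, h1 r h.1, σ, Real.smoothTransition.zero_of_nonpos h.2.le]
    · simp [d, h2 r h.1, σ, Real.smoothTransition.one_of_one_le h.2.le]
  have hi : Iso o fun t => tr A (sh fun r => t * d r) :=
    hA.tr_iso (sh_iso (l := fun t r => t * d r) (contDiff_fst.mul (hd.comp contDiff_snd)) (by simp))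
      (fun t => sh_per _) (a := min a 0) (b := max b 1) fun t z hz => ⟨0, by simp [d0 _ hz]⟩
  have e1 : tr A (sh fun _ => (m : ℝ)) = 1 :=
    (hA.wd_sh _).ext (fun z => by simp [hA.per]) fun _ _ => rfl
  have e : tr A (sh l) = tr A (sh fun r => 1 * d r) * tw A ^ (n - m) := by
    rw [tw, ← hA.tr_sh_zpow, ← one_mul (tr A (sh fun r => 1 * d r)), ← e1,
      ← tr_mul (hA.wd_sh _) (hA.wd_sh _), ← sh_add, ← tr_mul (hA.wd_sh _) (hA.wd_sh _), ← sh_add]
    congr 2; ext r; simp only [d, σ]; ring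
  rw [e, cls_mul (hi.mem 1) (zpow_mem hA.tw_mem _), cls_K hi.one_mem, one_mul, cls_zpow hA.tw_mem]

/-- the annulus chart round the centre of a plane chart -/
def ea (ρ : ℝ) (z : ℂ) : ℂ := ρ * exp (2 * Real.pi * I * z)

theorem norm_ea {ρ : ℝ} (hρ : 0 < ρ) (z : ℂ) : ‖ea ρ z‖ = ρ * Real.exp (-(2 * Real.pi * z.im)) := by
  rw [ea, norm_mul, norm_exp, norm_real, Real.norm_of_nonneg hρ.le]
  congr 2
  simp

theorem ea_ne {ρ : ℝ} (hρ : 0 < ρ) (z : ℂ) : ea ρ z ≠ 0 :=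
  mul_ne_zero (ofReal_ne_zero.2 hρ.ne') (exp_ne_zero _)

theorem two_pi_I_ne : (2 * Real.pi * I : ℂ) ≠ 0 := by simp [Real.pi_ne_zero]

theorem ea_surj {ρ : ℝ} (hρ : 0 < ρ) {w : ℂ} (hw : w ≠ 0) : ∃ z, ea ρ z = w := by
  have h : (ρ : ℂ) ≠ 0 := ofReal_ne_zero.2 hρ.ne'
  refine ⟨log (w / ρ) / (2 * Real.pi * I), ?_⟩
  rw [ea, mul_div_cancel₀ _ two_pi_I_ne, exp_log (div_ne_zero hw h), mul_div_cancel₀ _ h]

theorem an_ea {ρ : ℝ} (hρ : 0 < ρ) : An oC (ea ρ) := by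
  have h : (ρ : ℂ) ≠ 0 := ofReal_ne_zero.2 hρ.ne'
  refine ⟨fun z => ?_, fun z w => ?_⟩
  · have he : ContDiff ℝ ∞ (exp : ℂ → ℂ) := Complex.contDiff_exp
    refine pm_C isOpen_univ (mem_univ z)
      (contDiff_const.mul (he.comp (contDiff_const.mul contDiff_id))).contDiffOn ?_
    have hd : HasDerivAt (ea ρ) (ρ * (exp (2 * Real.pi * I * z) * (2 * Real.pi * I))) z := by
      have := (((hasDerivAt_id z).const_mul (2 * Real.pi * I)).cexp).const_mul (ρ : ℂ)
      rw [mul_one] at this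
      exact this
    rw [(hd.hasFDerivAt.restrictScalars ℝ).fderiv, det_C]
    set c := (ρ : ℂ) * (exp (2 * Real.pi * I * z) * (2 * Real.pi * I))
    have hc : c ≠ 0 := mul_ne_zero h (mul_ne_zero (exp_ne_zero _) two_pi_I_ne)
    have := normSq_pos.2 hc
    simpa [normSq_apply] using this
  · rw [ea, ea, mul_right_inj' h, eq_comm, exp_eq_exp_iff_exists_int]
    exact exists_congr fun n => ⟨fun e => mul_left_cancel₀ two_pi_I_ne (by rw [e]; ring),
      fun e => by rw [e]; ring⟩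

theorem St.an_ea (hA : St o A) {ρ : ℝ} (hρ : 0 < ρ) : An o (A ∘ ea ρ) :=
  ⟨fun z => (hA.1 _).comp ((Prf6.an_ea hρ).1 z), fun z w => by
    rw [comp_apply, comp_apply, hA.2.eq_iff]; exact (Prf6.an_ea hρ).2 z w⟩

/-- the profile of `rot` in the chart `ea` -/
def rl (ρ δ a r : ℝ) : ℝ :=
  a * (1 - Real.smoothTransition (2 * (ρ * Real.exp (-(2 * Real.pi * r))) / δ - 1))

theorem rl_cd (ρ δ a : ℝ) : ContDiff ℝ ∞ (rl ρ δ a) :=
  contDiff_const.mul (contDiff_const.sub (Real.smoothTransition.contDiff.comp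
    (((contDiff_const.mul (contDiff_const.mul (Real.contDiff_exp.comp (by fun_prop)))).div_const
      δ).sub contDiff_const)))

theorem rl_ends {ρ δ : ℝ} (hρ : 0 < ρ) (hδ : 0 < δ) (a : ℝ) :
    ∃ b c : ℝ, (∀ r < b, rl ρ δ a r = 0) ∧ ∀ r > c, rl ρ δ a r = a := by
  have hp := Real.pi_pos
  refine ⟨-Real.log (δ / ρ) / (2 * Real.pi), -Real.log (δ / 2 / ρ) / (2 * Real.pi),
    fun r hr => ?_, fun r hr => ?_⟩
  · rw [lt_div_iff₀ (by positivity)] at hr
    have : δ / ρ ≤ Real.exp (-(2 * Real.pi * r)) := by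
      rw [← Real.log_le_iff_le_exp (by positivity)]; linarith
    rw [div_le_iff₀ hρ] at this
    rw [rl, Real.smoothTransition.one_of_one_le]
    · simp
    · rw [le_sub_iff_add_le, le_div_iff₀ hδ]; linarith
  · rw [gt_iff_lt, div_lt_iff₀ (by positivity)] at hr
    have : Real.exp (-(2 * Real.pi * r)) ≤ δ / 2 / ρ := by
      rw [← Real.le_log_iff_exp_le (by positivity)]; linarith
    rw [le_div_iff₀ hρ] at this
    rw [rl, Real.smoothTransition.zero_of_nonpos]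
    · simp
    · rw [sub_nonpos, div_le_one hδ]; linarith

theorem rot_ea {ρ : ℝ} (hρ : 0 < ρ) (δ a : ℝ) (z : ℂ) :
    rot δ a (ea ρ z) = ea ρ (sh (rl ρ δ a) z) := by
  rw [rot_apply, norm_ea hρ, sh_apply, ea, ea, mul_assoc, ← exp_add, rl]
  congr 2; ring

/-- a rotation is a shear in the exponential chart -/
theorem St.tr_rot (hA : St o A) {ρ : ℝ} (hρ : 0 < ρ) (δ a : ℝ) :
    tr A (rot δ a) = tr (A ∘ ea ρ) (sh (rl ρ δ a)) := by
  symm
  refine ((hA.an_ea hρ).wd_sh _).ext (fun z => by simp only [comp_apply, hA.apply, rot_ea hρ])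
    fun x hx => ?_
  by_cases hr : x ∈ range A
  · obtain ⟨w, rfl⟩ := hr
    by_cases hw : w = 0
    · rw [hA.apply, hw, rot_apply, zero_mul]
    · obtain ⟨z, rfl⟩ := ea_surj hρ hw
      exact (hx ⟨z, rfl⟩).elim
  · exact (hA.wd _).out hr

end

end Crest.Agent.X212.Prf6
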