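import Crest.Agent.X212.Prf6.Defs

/-!
# Row 212, PERF (helper6): signs, the groups `G`, `K`, `G/K`, isotopies, flows
-/

set_option autoImplicit false
set_option linter.unusedSectionVars false
noncomputable section
open Set Filter Topology Function Complex
open scoped ContDiff Manifold

namespace Crest.Agent.X212.Prf6

section
variable {M N : Type*} [TopologicalSpace M] [ChartedSpace ℂ M] [IsManifold IC ∞ M]
  [TopologicalSpace N] [ChartedSpace ℂ N] [IsManifold IC ∞ N]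

theorem dt_eq (f : ℂ → ℂ) (z : ℂ) : dt f z = (fderiv ℝ f z).det := by
  unfold dt
  rw [mfderiv_eq_fderiv]

theorem ld_chart (x : M) {y : M} (hy : y ∈ (chartAt ℂ x).source) :
    IsLocalDiffeomorphAt IC IC ∞ (chartAt ℂ x) y :=
  Cyl58.ld_of_inverse (chartAt ℂ x).open_source (chartAt ℂ x).open_target contMDiffOn_chart
    contMDiffOn_chart_symm (chartAt ℂ x).mapsTo (chartAt ℂ x).symm.mapsTo
    (fun _ h => (chartAt ℂ x).left_inv h) (fun _ h => (chartAt ℂ x).right_inv h) hy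

theorem ld_chart_symm (x : M) {z : ℂ} (hz : z ∈ (chartAt ℂ x).target) :
    IsLocalDiffeomorphAt IC IC ∞ (chartAt ℂ x).symm z :=
  Cyl58.ld_of_inverse (chartAt ℂ x).open_target (chartAt ℂ x).open_source contMDiffOn_chart_symm
    contMDiffOn_chart (chartAt ℂ x).symm.mapsTo (chartAt ℂ x).mapsTo
    (fun _ h => (chartAt ℂ x).right_inv h) (fun _ h => (chartAt ℂ x).left_inv h) hz

theorem cd_iff_prod {F F' : Type*} [NormedAddCommGroup F] [NormedSpace ℝ F]
    [NormedAddCommGroup F'] [NormedSpace ℝ F'] {f : F × ℂ → F'} {p : F × ℂ} :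
    ContMDiffAt (𝓘(ℝ, F).prod IC) 𝓘(ℝ, F') ∞ f p ↔ ContDiffAt ℝ ∞ f p := by
  rw [← contMDiffAt_iff_contDiffAt, modelWithCornersSelf_prod, chartedSpaceSelf_prod]

theorem cd_of_prod {F F' : Type*} [NormedAddCommGroup F] [NormedSpace ℝ F]
    [NormedAddCommGroup F'] [NormedSpace ℝ F'] {f : F × ℂ → F'} {p : F × ℂ}
    (h : ContMDiffAt (𝓘(ℝ, F).prod IC) 𝓘(ℝ, F') ∞ f p) : ContDiffAt ℝ ∞ f p := cd_iff_prod.1 h

/-- smooth maps on `F × ℂ` -/
theorem cm_of_cd {F F' : Type*} [NormedAddCommGroup F] [NormedSpace ℝ F]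
    [NormedAddCommGroup F'] [NormedSpace ℝ F'] {f : F × ℂ → F'} (h : ContDiff ℝ ∞ f) :
    ContMDiff (𝓘(ℝ, F).prod IC) 𝓘(ℝ, F') ∞ f := fun _ => cd_iff_prod.2 h.contDiffAt

theorem cd_of_cm {F F' : Type*} [NormedAddCommGroup F] [NormedSpace ℝ F]
    [NormedAddCommGroup F'] [NormedSpace ℝ F'] {f : F × ℂ → F'}
    (h : ContMDiff (𝓘(ℝ, F).prod IC) 𝓘(ℝ, F') ∞ f) : ContDiff ℝ ∞ f :=
  contDiff_iff_contDiffAt.2 fun p => cd_of_prod (h p)

/-- the sign of the Jacobian is locally constant, with parameters -/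
theorem sign_param {F : Type*} [NormedAddCommGroup F] [NormedSpace ℝ F] (o : Or M) (o' : Or N)
    {f : F × M → N} {p₀ : F × M} (hf : ContMDiffAt (𝓘(ℝ, F).prod IC) IC ∞ f p₀)
    (h0 : dt (fun x => f (p₀.1, x)) p₀.2 ≠ 0) :
    ∀ᶠ p in 𝓝 p₀, 0 < (o.s p₀.2 * o'.s (f p₀) * dt (fun x => f (p₀.1, x)) p₀.2) *
      (o.s p.2 * o'.s (f p) * dt (fun x => f (p.1, x)) p.2) := by
  set χ := chartAt ℂ p₀.2
  set ψ := chartAt ℂ (f p₀)
  have x0 : p₀.2 ∈ χ.source := mem_chart_source ℂ _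
  have y0 : f p₀ ∈ ψ.source := mem_chart_source ℂ _
  let Φ : F × ℂ → ℂ := fun q => ψ (f (q.1, χ.symm q.2))
  have e0 : χ.symm (χ p₀.2) = p₀.2 := χ.left_inv x0
  have hΦ : ContDiffAt ℝ ∞ Φ (p₀.1, χ p₀.2) := by
    have h1 : ContMDiffAt (𝓘(ℝ, F).prod IC) (𝓘(ℝ, F).prod IC) ∞
        (fun q : F × ℂ => (q.1, χ.symm q.2)) (p₀.1, χ p₀.2) :=
      contMDiffAt_fst.prodMk ((ld_chart_symm p₀.2 (χ.map_source x0)).contMDiffAt.comp
        (f := fun q : F × ℂ => q.2) (p₀.1, χ p₀.2) contMDiffAt_snd)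
    have h2 : ContMDiffAt (𝓘(ℝ, F).prod IC) IC ∞ f (p₀.1, χ.symm (χ p₀.2)) := by rw [e0]; exact hf
    have h3 : ContMDiffAt IC IC ∞ ψ (f (p₀.1, χ.symm (χ p₀.2))) := by
      rw [e0]; exact (ld_chart _ y0).contMDiffAt
    exact cd_of_prod (h3.comp (f := fun q : F × ℂ => f (q.1, χ.symm q.2)) (p₀.1, χ p₀.2)
      (h2.comp (f := fun q : F × ℂ => (q.1, χ.symm q.2)) (p₀.1, χ p₀.2) h1))
  let D : F × ℂ → ℝ := fun q => (fderiv ℝ (fun w => Φ (q.1, w)) q.2).det
  have hD : ContinuousAt D (p₀.1, χ p₀.2) := by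
    have h1 : ContDiffAt ℝ 0 (fun q : F × ℂ => fderiv ℝ (fun w => Φ (q.1, w)) q.2)
        (p₀.1, χ p₀.2) := by
      refine ContDiffAt.fderiv (f := fun (q : F × ℂ) w => Φ (q.1, w)) (g := fun q => q.2)
        (n := ∞) ?_ contDiffAt_snd (by simp)
      exact hΦ.comp (f := fun r : (F × ℂ) × ℂ => (r.1.1, r.2)) _ (by fun_prop)
    exact ContinuousLinearMap.continuous_det.continuousAt.comp h1.continuousAt
  have key : ∀ᶠ p in 𝓝 p₀, dt ψ (f p) * dt (fun x => f (p.1, x)) p.2 =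
      D (p.1, χ p.2) * dt χ p.2 := by
    have h1 : ∀ᶠ p in 𝓝 p₀, ContMDiffAt (𝓘(ℝ, F).prod IC) IC 1 f p :=
      (contMDiffAt_iff_contMDiffAt_nhds (by simp)).1 (hf.of_le (by simp))
    filter_upwards [h1, continuous_snd.continuousAt.eventually (χ.open_source.mem_nhds x0),
      hf.continuousAt.eventually (ψ.open_source.mem_nhds y0)] with p hp hx hy
    have d1 : MDifferentiableAt IC IC (fun x => f (p.1, x)) p.2 :=
      (hp.comp (f := fun x : M => (p.1, x)) p.2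
        (contMDiffAt_const.prodMk contMDiffAt_id)).mdifferentiableAt (by simp)
    have d2 : MDifferentiableAt IC IC ψ (f p) := (ld_chart _ hy).contMDiffAt.mdifferentiableAt (by simp)
    have d3 : MDifferentiableAt IC IC χ p.2 := (ld_chart _ hx).contMDiffAt.mdifferentiableAt (by simp)
    have e : χ.symm (χ p.2) = p.2 := χ.left_inv hx
    have d4 : MDifferentiableAt IC IC (fun w => Φ (p.1, w)) (χ p.2) := by
      have d5 : MDifferentiableAt IC IC χ.symm (χ p.2) :=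
        (ld_chart_symm _ (χ.map_source hx)).contMDiffAt.mdifferentiableAt (by simp)
      have d6 : MDifferentiableAt IC IC (fun x => f (p.1, x)) (χ.symm (χ p.2)) := by rw [e]; exact d1
      have d7 : MDifferentiableAt IC IC ψ (f (p.1, χ.symm (χ p.2))) := by rw [e]; exact d2
      exact d7.comp (f := fun w => f (p.1, χ.symm w)) (χ p.2) (d6.comp (χ p.2) d5)
    rw [← dt_comp (g := ψ) (f := fun x => f (p.1, x)) d2 d1]
    have : D (p.1, χ p.2) = dt (fun w => Φ (p.1, w)) (χ p.2) := (dt_eq _ _).symm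
    rw [this, ← dt_comp d4 d3]
    refine dt_congr ?_
    filter_upwards [χ.open_source.mem_nhds hx] with y hy'
    simp only [comp_apply, Φ, χ.left_inv hy']
  have k0 := key.self_of_nhds
  have a0 : 0 < dt χ p₀.2 :=
    (pos_iff_pos_of_mul_pos (o.loc p₀.2).self_of_nhds).1 (mul_self_pos.2 (o.ne _))
  have b0 : 0 < dt ψ (f p₀) :=
    (pos_iff_pos_of_mul_pos (o'.loc (f p₀)).self_of_nhds).1 (mul_self_pos.2 (o'.ne _))
  have D0 : D (p₀.1, χ p₀.2) ≠ 0 := by
    intro h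
    rw [h, zero_mul] at k0
    exact (mul_ne_zero b0.ne' h0) k0
  have hc : ContinuousAt (fun p : F × M => D (p₀.1, χ p₀.2) * D (p.1, χ p.2)) p₀ :=
    continuousAt_const.mul (ContinuousAt.comp (f := fun p : F × M => (p.1, χ p.2)) hD
      (continuousAt_fst.prodMk ((χ.continuousAt x0).comp continuousAt_snd)))
  filter_upwards [key, continuous_snd.continuousAt.eventually (o.loc p₀.2),
    hf.continuousAt.eventually (o'.loc (f p₀)),
    hc.eventually (lt_mem_nhds (mul_self_pos.2 D0))] with p k1 a1 b1 c1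
  set u := dt (fun x => f (p₀.1, x)) p₀.2
  set u' := dt (fun x => f (p.1, x)) p.2
  have h1 : 0 < (dt ψ (f p₀) * (o'.s (f p₀) * o'.s (f p) * dt ψ (f p)) *
      (o'.s (f p₀) * o'.s (f p)) ^ 2) := by
    refine mul_pos (mul_pos b0 b1) (pow_pos_of_ne ?_)
    exact mul_ne_zero (o'.ne _) (o'.ne _)
  have h2 : 0 < dt χ p₀.2 * (o.s p₀.2 * o.s p.2 * dt χ p.2) * (D (p₀.1, χ p₀.2) * D (p.1, χ p.2)) *
      (o'.s (f p₀) * o'.s (f p)) ^ 4 := by
    refine mul_pos (mul_pos (mul_pos a0 a1) c1) ?_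
    have := mul_ne_zero (o'.ne (f p₀)) (o'.ne (f p))
    positivity
  have h3 : dt χ p₀.2 * (o.s p₀.2 * o.s p.2 * dt χ p.2) * (D (p₀.1, χ p₀.2) * D (p.1, χ p.2)) *
      (o'.s (f p₀) * o'.s (f p)) ^ 4 = (dt ψ (f p₀) * (o'.s (f p₀) * o'.s (f p) * dt ψ (f p)) *
      (o'.s (f p₀) * o'.s (f p)) ^ 2) * ((o.s p₀.2 * o'.s (f p₀) * u) * (o.s p.2 * o'.s (f p) * u')) := by
    have : dt χ p₀.2 * (o.s p₀.2 * o.s p.2 * dt χ p.2) * (D (p₀.1, χ p₀.2) * D (p.1, χ p.2)) =
        o.s p₀.2 * o.s p.2 * ((D (p₀.1, χ p₀.2) * dt χ p₀.2) * (D (p.1, χ p.2) * dt χ p.2)) := by ring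
    rw [this, ← k0, ← k1]; ring
  rw [h3] at h2
  exact (pos_iff_pos_of_mul_pos h2).1 h1
where pow_pos_of_ne {a : ℝ} (h : a ≠ 0) : 0 < a ^ 2 := by positivity

theorem ld_eventually {f : M → N} {x : M} (h : IsLocalDiffeomorphAt IC IC ∞ f x) :
    ∀ᶠ y in 𝓝 x, IsLocalDiffeomorphAt IC IC ∞ f y := by
  obtain ⟨Φ, hx, hΦ⟩ := h
  filter_upwards [Φ.open_source.mem_nhds hx] with y hy using ⟨Φ, hy, hΦ⟩

theorem dt_ne {f : M → N} {x : M} (h : IsLocalDiffeomorphAt IC IC ∞ f x) : dt f x ≠ 0 := by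
  have h1 := dt_comp (g := h.localInverse) (f := f) (x := x)
    (h.localInverse_contMDiffAt.mdifferentiableAt (by simp))
    (h.contMDiffAt.mdifferentiableAt (by simp))
  rw [dt_congr (f := id) h.localInverse_eventuallyEq_left, dt_id] at h1
  intro h0
  rw [h0, mul_zero] at h1
  exact one_ne_zero h1

theorem ld_of_dt {f : M → N} {s : Set M} (hs : IsOpen s) {x : M} (hx : x ∈ s)
    (hf : ContMDiffOn IC IC ∞ f s) (h : dt f x ≠ 0) : IsLocalDiffeomorphAt IC IC ∞ f x := by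
  refine Glue52.ld_of_injective_mfderiv rfl hs hx hf ?_
  exact (LinearMap.equivOfDetNeZero (show ℂ →L[ℝ] ℂ from mfderiv IC IC f x).toLinearMap h).injective

/-- positivity is open -/
theorem Pm.eventually {o : Or M} {o' : Or N} {f : M → N} {x : M} (h : Pm o o' f x) :
    ∀ᶠ y in 𝓝 x, Pm o o' f y := by
  have h1 := sign_param (F := ℝ) o o' (f := fun p => f p.2) (p₀ := (0, x))
    (h.1.contMDiffAt.comp (0, x) contMDiffAt_snd) (dt_ne h.1)
  have h2 := (continuous_const.prodMk continuous_id).continuousAt (x := x) |>.eventually h1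
  filter_upwards [ld_eventually h.1, h2] with y a b
  exact ⟨a, (pos_iff_pos_of_mul_pos b).1 h.2⟩

theorem pm_or {f : M → N} {x : M} (o : Or M) (o' : Or N) (h : IsLocalDiffeomorphAt IC IC ∞ f x) :
    Pm o o' f x ∨ o.s x * o'.s (f x) * dt f x < 0 :=
  (lt_or_gt_of_ne (mul_ne_zero (mul_ne_zero (o.ne x) (o'.ne (f x))) (dt_ne h))).symm.imp_left
    fun h' => ⟨h, h'⟩

/-- on a connected set a local diffeomorphism has one sign -/
theorem pm_of_conn {o : Or M} {o' : Or N} {f : M → N} {s : Set M} (hs : IsPreconnected s)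
    (hf : ∀ x ∈ s, IsLocalDiffeomorphAt IC IC ∞ f x) {x y : M} (hx : x ∈ s) (hy : y ∈ s)
    (h : Pm o o' f x) : Pm o o' f y := by
  have hl : Lev33.LCo s fun z => 0 < o.s z * o'.s (f z) * dt f z := by
    intro z hz
    have h1 := sign_param (F := ℝ) o o' (f := fun p => f p.2) (p₀ := (0, z))
      ((hf z hz).contMDiffAt.comp (0, z) contMDiffAt_snd) (dt_ne (hf z hz))
    have h2 := (continuous_const.prodMk continuous_id).continuousAt (x := z) |>.eventually h1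
    filter_upwards [nhdsWithin_le_nhds h2] with w b
    exact propext (pos_iff_pos_of_mul_pos b).symm
  exact ⟨hf y hy, hl.eq hs hx hy ▸ h.2⟩

theorem pm_C {f : ℂ → ℂ} {s : Set ℂ} (hs : IsOpen s) {z : ℂ} (hz : z ∈ s)
    (hf : ContDiffOn ℝ ∞ f s) (h : 0 < (fderiv ℝ f z).det) : Pm oC oC f z :=
  ⟨ld_of_dt hs hz (contMDiffOn_iff_contDiffOn.2 hf) (by rw [dt_eq]; exact h.ne'), by
    simpa [oC, dt_eq] using h⟩

theorem Pm.det_pos {f : ℂ → ℂ} {z : ℂ} (h : Pm oC oC f z) : 0 < (fderiv ℝ f z).det := by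
  simpa [oC, dt_eq] using h.2

theorem Pm.contDiffAt {f : ℂ → ℂ} {z : ℂ} (h : Pm oC oC f z) : ContDiffAt ℝ ∞ f z :=
  contMDiffAt_iff_contDiffAt.1 h.1.contMDiffAt

/-- determinant of a real linear map of `ℂ` -/
theorem det_C (L : ℂ →L[ℝ] ℂ) : L.det = (L 1).re * (L I).im - (L I).re * (L 1).im := by
  rw [ContinuousLinearMap.det, ← LinearMap.det_toMatrix basisOneI, Matrix.det_fin_two]
  simp [LinearMap.toMatrix_apply]

/-- complex affine maps are positive -/
theorem pm_affine {a : ℂ} (ha : a ≠ 0) (b z : ℂ) : Pm oC oC (fun w => b + a * w) z := by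
  refine pm_C isOpen_univ (mem_univ z) (by fun_prop) ?_
  have : HasFDerivAt (fun w : ℂ => b + a * w) (a • ContinuousLinearMap.id ℝ ℂ) z := by
    simpa using ((hasFDerivAt_id (𝕜 := ℝ) z).const_smul a).const_add b
  rw [this.fderiv, det_C]
  have := normSq_pos.2 ha
  simpa [normSq_apply] using this

/-- a positive chart at every point -/
theorem exists_pm (o : Or M) (x : M) : ∃ e : ℂ → M, Pm oC o e 0 ∧ e 0 = x := by
  have hx := mem_chart_source ℂ x
  have h1 : IsLocalDiffeomorphAt IC IC ∞ ((chartAt ℂ x).symm ∘ fun w => chartAt ℂ x x + 1 * w) 0 :=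
    Cyl58.ld_comp (by simpa using ld_chart_symm x ((chartAt ℂ x).map_source hx))
      (pm_affine one_ne_zero _ _).1
  have h0 : ((chartAt ℂ x).symm ∘ fun w => chartAt ℂ x x + 1 * w) 0 = x := by simp [hx]
  rcases pm_or oC o h1 with h | h
  · exact ⟨_, h, h0⟩
  · have hc : IsLocalDiffeomorphAt IC IC ∞ (conjCLE : ℂ → ℂ) 0 := Glue52.ld_clm conjCLE 0
    have h1' : IsLocalDiffeomorphAt IC IC ∞
        ((chartAt ℂ x).symm ∘ fun w => chartAt ℂ x x + 1 * w) (conjCLE 0) := by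
      rw [map_zero]; exact h1
    refine ⟨_ ∘ conjCLE, ⟨Cyl58.ld_comp h1' hc, ?_⟩, by simp⟩
    rw [dt_comp (h1'.contMDiffAt.mdifferentiableAt (by simp))
      (hc.contMDiffAt.mdifferentiableAt (by simp)), dt_eq (conjCLE : ℂ → ℂ), conjCLE.fderiv, det_C]
    simp only [comp_apply, map_zero] at h ⊢
    simp only [ContinuousLinearEquiv.coe_coe, conjCLE_apply, map_one, one_re, conj_I, neg_im, I_im,
      neg_re, I_re, one_im]
    linarith

/-! ### the groups -/

variable {o : Or M}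

theorem mem_G {f : Equiv.Perm M} : f ∈ G o ↔ ∀ x, Pm o o f x := Iff.rfl

theorem G_sm {f : Equiv.Perm M} (h : f ∈ G o) : ContMDiff IC IC ∞ f := fun x => (h x).1.contMDiffAt

theorem G_cont {f : Equiv.Perm M} (h : f ∈ G o) : Continuous f := (G_sm h).continuous

theorem G_cont_inv {f : Equiv.Perm M} (h : f ∈ G o) : Continuous (f⁻¹ : Equiv.Perm M) :=
  G_cont ((G o).inv_mem h)

/-- an element of `G` as a homeomorphism -/
def homeo {f : Equiv.Perm M} (h : f ∈ G o) : M ≃ₜ M :=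
  { f with continuous_toFun := G_cont h, continuous_invFun := G_cont_inv h }

theorem K_le : K o ≤ G o := by
  refine (Subgroup.closure_le _).2 ?_
  rintro f (⟨a, ha, b, hb, rfl⟩ | ⟨φ, hφ, rfl⟩)
  · exact mul_mem (mul_mem (mul_mem ha hb) (inv_mem ha)) (inv_mem hb)
  · exact hφ.mem 1

theorem comm_mem {a b : Equiv.Perm M} (ha : a ∈ G o) (hb : b ∈ G o) :
    a * b * a⁻¹ * b⁻¹ ∈ K o := Subgroup.subset_closure (Or.inl ⟨a, ha, b, hb, rfl⟩)

theorem Iso.one_mem {φ : ℝ → Equiv.Perm M} (h : Iso o φ) : φ 1 ∈ K o :=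
  Subgroup.subset_closure (Or.inr ⟨φ, h, rfl⟩)

theorem conj_mem {g k : Equiv.Perm M} (hg : g ∈ G o) (hk : k ∈ K o) : g * k * g⁻¹ ∈ K o := by
  simpa using mul_mem (comm_mem hg (K_le hk)) hk

instance : ((K o).subgroupOf (G o)).Normal :=
  ⟨fun _ hk g => Subgroup.mem_subgroupOf.2 (conj_mem g.2 (Subgroup.mem_subgroupOf.1 hk))⟩

variable (o) in
/-- the abelian group `G / K` -/
def Ab : Type _ := G o ⧸ (K o).subgroupOf (G o)

instance : CommGroup (Ab o) :=
  { (inferInstance : Group (G o ⧸ (K o).subgroupOf (G o))) with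
    mul_comm := fun a b => by
      obtain ⟨a, rfl⟩ := QuotientGroup.mk_surjective a
      obtain ⟨b, rfl⟩ := QuotientGroup.mk_surjective b
      refine (QuotientGroup.eq (a := a * b) (b := b * a)).2 (Subgroup.mem_subgroupOf.2 ?_)
      have := comm_mem (inv_mem b.2) (inv_mem a.2)
      simpa [mul_assoc] using this }

variable (o) in
/-- the class of a permutation (junk `1` off `G`) -/
def cls (f : Equiv.Perm M) : Ab o :=
  by classical exact if h : f ∈ G o then (QuotientGroup.mk ⟨f, h⟩ : G o ⧸ _) else 1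

theorem cls_of {f : Equiv.Perm M} (h : f ∈ G o) :
    cls o f = (QuotientGroup.mk ⟨f, h⟩ : G o ⧸ (K o).subgroupOf (G o)) := dif_pos h

theorem cls_mul {f g : Equiv.Perm M} (hf : f ∈ G o) (hg : g ∈ G o) :
    cls o (f * g) = cls o f * cls o g := by
  rw [cls_of hf, cls_of hg, cls_of (mul_mem hf hg)]; rfl

theorem cls_eq_one {f : Equiv.Perm M} (hf : f ∈ G o) : cls o f = 1 ↔ f ∈ K o := by
  rw [cls_of hf]
  exact (QuotientGroup.eq_one_iff _).trans Subgroup.mem_subgroupOf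

theorem cls_K {f : Equiv.Perm M} (hf : f ∈ K o) : cls o f = 1 := (cls_eq_one (K_le hf)).2 hf

@[simp] theorem cls_one : cls o 1 = 1 := cls_K (one_mem _)

theorem cls_inv {f : Equiv.Perm M} (hf : f ∈ G o) : cls o f⁻¹ = (cls o f)⁻¹ := by
  rw [eq_inv_iff_mul_eq_one, ← cls_mul (inv_mem hf) hf, inv_mul_cancel, cls_one]

theorem cls_conj {f g : Equiv.Perm M} (hf : f ∈ G o) (hg : g ∈ G o) :
    cls o (g * f * g⁻¹) = cls o f := by
  rw [cls_mul (mul_mem hg hf) (inv_mem hg), cls_mul hg hf, cls_inv hg, mul_comm (cls o g),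
    mul_inv_cancel_right]

theorem cls_zpow {f : Equiv.Perm M} (hf : f ∈ G o) (n : ℤ) : cls o (f ^ n) = cls o f ^ n := by
  rw [cls_of hf, cls_of (zpow_mem hf n)]
  exact QuotientGroup.mk_zpow _ (⟨f, hf⟩ : G o) n

theorem cls_eq_iff {f g : Equiv.Perm M} (hf : f ∈ G o) (hg : g ∈ G o) :
    cls o f = cls o g ↔ f * g⁻¹ ∈ K o := by
  rw [← cls_eq_one (mul_mem hf (inv_mem hg)), cls_mul hf (inv_mem hg), cls_inv hg, mul_inv_eq_one]

/-! ### isotopies -/

theorem sm_slice {F : Type*} [NormedAddCommGroup F] [NormedSpace ℝ F] {f : F × M → N}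
    (h : ContMDiff (𝓘(ℝ, F).prod IC) IC ∞ f) (t : F) : ContMDiff IC IC ∞ fun x => f (t, x) :=
  h.comp (f := fun x : M => (t, x)) (contMDiff_const.prodMk contMDiff_id)

/-- the inverses of a smooth family of diffeomorphisms form a smooth family -/
theorem sm_inv {F : Type*} [NormedAddCommGroup F] [NormedSpace ℝ F] [FiniteDimensional ℝ F]
    {φ : F → Equiv.Perm M} (h : ContMDiff (𝓘(ℝ, F).prod IC) IC ∞ fun p : F × M => φ p.1 p.2)
    (hl : ∀ t x, IsLocalDiffeomorphAt IC IC ∞ (φ t) x) :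
    ContMDiff (𝓘(ℝ, F).prod IC) IC ∞ fun p : F × M => (φ p.1)⁻¹ p.2 := by
  let Φ : F × M → F × M := fun p => (p.1, φ p.1 p.2)
  have hΦ : ContMDiff (𝓘(ℝ, F).prod IC) (𝓘(ℝ, F).prod IC) ∞ Φ := contMDiff_fst.prodMk h
  have hL : ∀ p, IsLocalDiffeomorphAt (𝓘(ℝ, F).prod IC) (𝓘(ℝ, F).prod IC) ∞ Φ p := by
    intro p
    refine Glue52.ld_of_injective_mfderiv rfl isOpen_univ (mem_univ p) hΦ.contMDiffOn ?_
    have d := (h p).mdifferentiableAt (by simp)
    rw [injective_iff_map_eq_zero]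
    intro v hv
    rw [mdifferentiableAt_fst.mfderiv_prod d, mfderiv_fst] at hv
    have h1 : v.1 = 0 := congrArg Prod.fst hv
    have h2 : mfderiv (𝓘(ℝ, F).prod IC) IC (fun p : F × M => φ p.1 p.2) p v = 0 :=
      congrArg Prod.snd hv
    rw [mfderiv_prod_eq_add_apply d, h1] at h2
    erw [map_zero, zero_add] at h2
    have h3 : Injective (mfderiv IC IC (φ p.1) p.2) :=
      (LinearMap.equivOfDetNeZero (show ℂ →L[ℝ] ℂ from mfderiv IC IC (φ p.1) p.2).toLinearMap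
        (dt_ne (hl _ _))).injective
    exact Prod.ext h1 ((injective_iff_map_eq_zero _).1 h3 _ h2)
  rintro ⟨t, y⟩
  obtain ⟨x, rfl⟩ := (φ t).surjective y
  refine Cyl58.contMDiffAt_of_comp (hL (t, x)) (contMDiffAt_snd.congr_of_eventuallyEq ?_)
  exact Eventually.of_forall fun p => by simp [Φ]

/-- positivity along an isotopy is automatic -/
theorem iso_of_ld {φ : ℝ → Equiv.Perm M}
    (h : ContMDiff (IR.prod IC) IC ∞ fun p : ℝ × M => φ p.1 p.2)
    (hl : ∀ t x, IsLocalDiffeomorphAt IC IC ∞ (φ t) x) (h0 : φ 0 = 1) : Iso o φ := by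
  refine ⟨h, fun t x => ⟨hl t x, ?_⟩, h0⟩
  have hc : Lev33.LCo univ fun t => 0 < o.s x * o.s (φ t x) * dt (φ t) x := by
    intro s _
    have h1 := sign_param o o (p₀ := (s, x)) (h _) (dt_ne (hl s x))
    have h2 := (continuous_id.prodMk continuous_const).continuousAt (x := s) |>.eventually h1
    filter_upwards [nhdsWithin_le_nhds h2] with w b
    exact propext (pos_iff_pos_of_mul_pos b).symm
  rw [hc.eq isPreconnected_univ (mem_univ t) (mem_univ 0), h0]
  exact (pm_id o x).2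

/-- a smooth family with smooth inverses, slice by slice -/
theorem iso_of_inv {φ : ℝ → Equiv.Perm M}
    (h : ContMDiff (IR.prod IC) IC ∞ fun p : ℝ × M => φ p.1 p.2)
    (hi : ∀ t, ContMDiff IC IC ∞ ((φ t)⁻¹ : Equiv.Perm M)) (h0 : φ 0 = 1) : Iso o φ :=
  iso_of_ld h (fun t x => (Glue52.diffeoOf (φ t) ((φ t)⁻¹ : Equiv.Perm M) (sm_slice h t) (hi t)
    (fun _ => by simp) (fun _ => by simp)).isLocalDiffeomorph x) h0

theorem iso_one : Iso o fun _ => 1 := ⟨contMDiff_snd, fun _ => one_mem _, rfl⟩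

theorem Iso.mul {φ ψ : ℝ → Equiv.Perm M} (h : Iso o φ) (h' : Iso o ψ) :
    Iso o fun t => φ t * ψ t :=
  ⟨h.sm.comp (f := fun p : ℝ × M => (p.1, ψ p.1 p.2)) (contMDiff_fst.prodMk h'.sm),
    fun t => mul_mem (h.mem t) (h'.mem t), by simp [h.zero, h'.zero]⟩

theorem Iso.inv {φ : ℝ → Equiv.Perm M} (h : Iso o φ) : Iso o fun t => (φ t)⁻¹ :=
  ⟨sm_inv h.sm fun t x => (h.mem t x).1, fun t => inv_mem (h.mem t), by simp [h.zero]⟩

theorem Iso.conj {φ : ℝ → Equiv.Perm M} (h : Iso o φ) {g : Equiv.Perm M} (hg : g ∈ G o) :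
    Iso o fun t => g * φ t * g⁻¹ :=
  ⟨(G_sm hg).comp (h.sm.comp (f := fun p : ℝ × M => (p.1, g⁻¹ p.2))
    (contMDiff_fst.prodMk ((G_sm (inv_mem hg)).comp contMDiff_snd))),
    fun t => mul_mem (mul_mem hg (h.mem t)) (inv_mem hg), by simp [h.zero]⟩

/-- a smooth path in `G`, read from the time `σ 0` -/
theorem iso_of_path {φ : ℝ → Equiv.Perm M}
    (h : ContMDiff (IR.prod IC) IC ∞ fun p : ℝ × M => φ p.1 p.2) (hm : ∀ t, φ t ∈ G o)
    {σ : ℝ → ℝ} (hσ : ContDiff ℝ ∞ σ) : Iso o fun t => φ (σ t) * (φ (σ 0))⁻¹ :=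
  ⟨h.comp (f := fun p : ℝ × M => (σ p.1, (φ (σ 0))⁻¹ p.2))
    ((hσ.contMDiff.comp contMDiff_fst).prodMk ((G_sm (inv_mem (hm _))).comp contMDiff_snd)),
    fun t => mul_mem (hm _) (inv_mem (hm _)), by simp⟩

/-- the class is constant along a smooth path in `G` -/
theorem cls_path {φ : ℝ → Equiv.Perm M}
    (h : ContMDiff (IR.prod IC) IC ∞ fun p : ℝ × M => φ p.1 p.2) (hm : ∀ t, φ t ∈ G o) (s t : ℝ) :
    cls o (φ s) = cls o (φ t) := by
  have := (iso_of_path h hm (σ := fun u => t + u * (s - t)) (by fun_prop)).one_mem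
  rw [cls_eq_iff (hm s) (hm t)]
  simpa using this

theorem Iso.reparam {φ : ℝ → Equiv.Perm M} (h : Iso o φ) {σ : ℝ → ℝ} (hσ : ContDiff ℝ ∞ σ)
    (h0 : σ 0 = 0) : Iso o fun t => φ (σ t) := by
  simpa [h0, h.zero] using iso_of_path h.sm h.mem hσ

theorem Iso.clamp {φ : ℝ → Equiv.Perm M} (h : Iso o φ) :
    Iso o fun t => φ (Real.smoothTransition t) :=
  h.reparam Real.smoothTransition.contDiff Real.smoothTransition.zero

theorem Iso.mem_K {φ : ℝ → Equiv.Perm M} (h : Iso o φ) (t : ℝ) : φ t ∈ K o := by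
  simpa using (h.reparam (σ := fun s => s * t) (by fun_prop) (by simp)).one_mem

theorem Iso.cont {φ : ℝ → Equiv.Perm M} (h : Iso o φ) : Continuous fun p : ℝ × M => φ p.1 p.2 :=
  h.sm.continuous

/-- the flow of a complete field -/
def flP [T2Space M] {v : (x : M) → TangentSpace IC x} (hv : Flo26.SmV IC v) (hc : Flo26.Cpl v)
    (t : ℝ) : Equiv.Perm M := (Flo26.flD hv hc t).toEquiv

theorem flP_apply [T2Space M] {v : (x : M) → TangentSpace IC x} (hv : Flo26.SmV IC v)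
    (hc : Flo26.Cpl v) (t : ℝ) (x : M) : flP hv hc t x = Flo26.fl v t x := rfl

theorem iso_flP [T2Space M] {v : (x : M) → TangentSpace IC x} (hv : Flo26.SmV IC v)
    (hc : Flo26.Cpl v) : Iso o (flP hv hc) :=
  iso_of_ld (hc.contMDiff hv) (fun t x => (Flo26.flD hv hc t).isLocalDiffeomorph x)
    (Equiv.ext fun x => Flo26.fl_zero hv x)

end

/-! ### `Near` -/

section
variable {M : Type*} [TopologicalSpace M] {f g : Equiv.Perm M} {φ ψ : ℝ → Equiv.Perm M}
  {Z Z' : Set M}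

theorem Near.mono (h : Near f Z) (s : Z' ⊆ Z) : Near f Z' := h.filter_mono (nhdsSet_mono s)

theorem near_one (Z : Set M) : Near 1 Z := Eventually.of_forall fun _ => rfl

theorem Near.mul (h : Near f Z) (h' : Near g Z) : Near (f * g) Z :=
  Eventually.mono (h.and h') fun x hx => by simp [hx.1, hx.2]

theorem Near.inv (h : Near f Z) : Near f⁻¹ Z :=
  Eventually.mono h fun x hx => by rw [Equiv.Perm.inv_eq_iff_eq, hx]

theorem Near.union (h : Near f Z) (h' : Near f Z') : Near f (Z ∪ Z') := by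
  unfold Near
  rw [nhdsSet_union, eventually_sup]
  exact ⟨h, h'⟩

theorem Near.fix (h : Near f Z) {x : M} (hx : x ∈ Z) : f x = x := h.self_of_nhdsSet x hx

theorem Near.at (h : Near f Z) {x : M} (hx : x ∈ Z) : ∀ᶠ y in 𝓝 x, f y = y :=
  h.filter_mono (nhds_le_nhdsSet hx)

theorem near_iff : Near f Z ↔ ∀ x ∈ Z, ∀ᶠ y in 𝓝 x, f y = y := eventually_nhdsSet_iff_forall

theorem near_iff_open : Near f Z ↔ ∃ O, IsOpen O ∧ Z ⊆ O ∧ ∀ x ∈ O, f x = x :=
  eventually_nhdsSet_iff_exists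

theorem nearI_iff_open : NearI φ Z ↔ ∃ O, IsOpen O ∧ Z ⊆ O ∧ ∀ x ∈ O, ∀ t, φ t x = x :=
  eventually_nhdsSet_iff_exists

theorem near_of_closed {L : Set M} (hL : IsClosed L) (hd : Disjoint L Z) (h : ∀ x ∉ L, f x = x) :
    Near f Z := near_iff_open.2 ⟨Lᶜ, hL.isOpen_compl, hd.subset_compl_left, h⟩

theorem nearI_of_closed {L : Set M} (hL : IsClosed L) (hd : Disjoint L Z)
    (h : ∀ t, ∀ x ∉ L, φ t x = x) : NearI φ Z :=
  nearI_iff_open.2 ⟨Lᶜ, hL.isOpen_compl, hd.subset_compl_left, fun x hx t => h t x hx⟩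

/-- conjugation moves the set near which a map is the identity -/
theorem Near.conj (h : Near f Z) (hg : Continuous (g⁻¹ : Equiv.Perm M)) :
    Near (g * f * g⁻¹) (g '' Z) := by
  obtain ⟨O, hO, hZ, h⟩ := near_iff_open.1 h
  refine near_iff_open.2 ⟨(g⁻¹ : Equiv.Perm M) ⁻¹' O, hO.preimage hg, ?_, fun x hx => ?_⟩
  · rintro _ ⟨x, hx, rfl⟩
    simpa using hZ hx
  · show g (f (g⁻¹ x)) = x
    rw [h _ hx]; simp

theorem NearI.near (h : NearI φ Z) (t : ℝ) : Near (φ t) Z := Eventually.mono h fun _ hx => hx t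

theorem NearI.mono (h : NearI φ Z) (s : Z' ⊆ Z) : NearI φ Z' := h.filter_mono (nhdsSet_mono s)

theorem NearI.mul (h : NearI φ Z) (h' : NearI ψ Z) : NearI (fun t => φ t * ψ t) Z :=
  Eventually.mono (h.and h') fun x hx t => by simp [hx.1 t, hx.2 t]

theorem NearI.inv (h : NearI φ Z) : NearI (fun t => (φ t)⁻¹) Z :=
  Eventually.mono h fun x hx t => by rw [Equiv.Perm.inv_eq_iff_eq, hx t]

theorem NearI.union (h : NearI φ Z) (h' : NearI φ Z') : NearI φ (Z ∪ Z') := by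
  unfold NearI
  rw [nhdsSet_union, eventually_sup]
  exact ⟨h, h'⟩

theorem NearI.reparam (h : NearI φ Z) (σ : ℝ → ℝ) : NearI (fun t => φ (σ t)) Z :=
  Eventually.mono h fun _ hx t => hx (σ t)

theorem Near.nearI (h : Near f Z) : NearI (fun _ => f) Z := Eventually.mono h fun _ hx _ => hx

theorem NearI.conj (h : NearI φ Z) (hg : Continuous (g⁻¹ : Equiv.Perm M)) :
    NearI (fun t => g * φ t * g⁻¹) (g '' Z) := by
  obtain ⟨O, hO, hZ, h⟩ := nearI_iff_open.1 h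
  refine nearI_iff_open.2 ⟨(g⁻¹ : Equiv.Perm M) ⁻¹' O, hO.preimage hg, ?_, fun x hx t => ?_⟩
  · rintro _ ⟨x, hx, rfl⟩
    simpa using hZ hx
  · show g (φ t (g⁻¹ x)) = x
    rw [h _ hx]; simp

/-- a permutation that fixes the complement of `U` preserves `U` -/
theorem mem_iff_of_fix {U : Set M} (h : ∀ x ∉ U, f x = x) (x : M) : f x ∈ U ↔ x ∈ U := by
  constructor
  · intro hx
    by_contra hn
    exact hn (h x hn ▸ hx)
  · intro hx
    by_contra hn
    exact hn ((f.injective (h _ hn)).symm ▸ hx)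

end

end Crest.Agent.X212.Prf6
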