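import Crest.Agent.X212.Prf6.Lf

/-!
# Row 212, PERF (helper6): the glue
-/

set_option autoImplicit false
set_option linter.unusedSectionVars false
noncomputable section
open Set Filter Topology Function Complex Metric
open scoped ContDiff Manifold

namespace Crest.Agent.X212.Prf6

section
variable {M : Type*} [TopologicalSpace M] [ChartedSpace ℂ M] [IsManifold IC ∞ M] [T2Space M]
  {o : Or M} {A B D : ℂ → M}

theorem St.inv_apply [Nonempty M] (hD : St o D) (z : ℂ) : invFun D (D z) = z :=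
  leftInverse_invFun hD.2 z

theorem St.pm_inv (hD : St o D) (z : ℂ) : Pm o oC (invFun D) (D z) :=
  (hD.1 z).of_comp ((pm_id oC z).congr (Eventually.of_forall (leftInverse_invFun hD.2)))

theorem St.isOpen_range (hD : St o D) : IsOpen (range D) := hD.isOpenEmbedding.isOpen_range

/-- a diffeomorphism supported in a plane chart is a transplant -/
theorem St.exists_pull (hD : St o D) {g : Equiv.Perm M} (hg : g ∈ G o) {L : Set M}
    (hL : IsCompact L) (hr : L ⊆ range D) (ho : ∀ x ∉ L, g x = x) :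
    ∃ h ∈ G oC, (∃ ρ : ℝ, ∀ z, ρ ≤ ‖z‖ → h z = z) ∧ tr D h = g := by
  have h1 : ∀ x ∉ range D, g x = x := fun x hx => ho x fun h => hx (hr h)
  have h2 : ∀ g : Equiv.Perm M, (∀ x ∉ range D, g x = x) → ∀ z, D (invFun D (g (D z))) = g (D z) :=
    fun g h z => invFun_eq ((mem_iff_of_fix h _).2 ⟨z, rfl⟩)
  have h1' : ∀ x ∉ range D, g⁻¹ x = x := fun x hx => by rw [Equiv.Perm.inv_eq_iff_eq, h1 x hx]
  let h : Equiv.Perm ℂ := ⟨fun z => invFun D (g (D z)), fun z => invFun D (g⁻¹ (D z)),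
    fun z => hD.2 (by rw [h2 _ h1', h2 _ h1]; simp), fun z => hD.2 (by rw [h2 _ h1, h2 _ h1']; simp)⟩
  obtain ⟨ρ, hρ⟩ := (hD.isOpenEmbedding.isInducing.isCompact_preimage' hL hr).isBounded.subset_ball 0
  refine ⟨h, fun z => ?_, ⟨ρ, fun z hz => hD.2 ?_⟩, (hD.wd h).ext (fun z => (h2 g h1 z).symm) h1⟩
  · refine Pm.comp (f := g ∘ D) (g := invFun D) ?_ ((hg _).comp (hD.1 z))
    rw [comp_apply, ← h2 g h1 z]
    exact hD.pm_inv _
  · exact (h2 g h1 z).trans (ho _ fun hl => not_lt.2 hz (mem_ball_zero_iff.1 (hρ hl)))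

theorem tr_sh_congr (hA : An o A) (hB : An o B) {l : ℝ → ℝ} {a b : ℝ}
    (ho : ∀ r ∉ Icc a b, ∃ n : ℤ, l r = n) (h : ∀ z : ℂ, z.im ∈ Icc a b → A z = B z) :
    tr A (sh l) = tr B (sh l) := by
  have e : A '' bx a b = B '' bx a b := image_congr fun z hz => h z hz.2
  have ho' : ∀ z : ℂ, z.im ∉ Icc a b → ∃ n : ℤ, sh l z = z + n := fun z hz => by
    obtain ⟨n, hn⟩ := ho _ hz
    exact ⟨n, by simp [hn]⟩
  ext x
  by_cases hx : x ∈ A '' bx a b
  · obtain ⟨z, hz, rfl⟩ := hx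
    rw [(hA.wd_sh l).apply, h z hz.2, (hB.wd_sh l).apply, h _ (by simpa using hz.2)]
  · rw [(hA.wd_sh l).fix (hA.out ho') hx, (hB.wd_sh l).fix (hB.out ho') (e ▸ hx)]

theorem An.cls_tw_neg (hB : An o B) : cls o (tw fun z => B (-z)) = cls o (tw B) := by
  have e : tw (fun z => B (-z)) = tr B (sh fun r => -Real.smoothTransition (-r)) := by
    refine (hB.neg.wd_sh _).ext (fun z => ?_) fun x hx => (hB.wd_sh _).out fun ⟨z, e⟩ =>
      hx ⟨-z, by simpa using e⟩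
    rw [(hB.wd_sh _).apply]
    congr 1; simp; ring
  rw [e, hB.cls_sh (l := fun r => -Real.smoothTransition (-r))
    (Real.smoothTransition.contDiff.comp contDiff_neg).neg (a := -1) (b := 0)
    (m := -1) (n := 0) (fun r hr => by simp [Real.smoothTransition.one_of_one_le
      (show 1 ≤ -r by linarith)]) fun r hr => by simp [Real.smoothTransition.zero_of_nonpos
      (show -r ≤ 0 by linarith)]]
  simp

/-- the class of a twist depends only on the germ of the chart along the core -/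
theorem cls_tw_germ (hA : An o A) (hB : An o B) {δ : ℝ} (hδ : 0 < δ)
    (h : ∀ z : ℂ, |z.im| < δ → A z = B z) : cls o (tw A) = cls o (tw B) := by
  have h2 : 0 < δ / 2 := by positivity
  have hl : ContDiff ℝ ∞ fun r : ℝ => Real.smoothTransition (r / (δ / 2)) :=
    Real.smoothTransition.contDiff.comp (by fun_prop)
  have e1 : ∀ r < (0 : ℝ), Real.smoothTransition (r / (δ / 2)) = ((0 : ℤ) : ℝ) := fun r hr => by
    simpa using Real.smoothTransition.zero_of_nonpos (div_nonpos_of_nonpos_of_nonneg hr.le h2.le)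
  have e2 : ∀ r > δ / 2, Real.smoothTransition (r / (δ / 2)) = ((1 : ℤ) : ℝ) := fun r hr => by
    simpa using Real.smoothTransition.one_of_one_le ((one_le_div h2).2 hr.le)
  have a := hA.cls_sh hl e1 e2
  have b := hB.cls_sh hl e1 e2
  rw [tr_sh_congr hA hB (a := 0) (b := δ / 2) (fun r hr => ?_) fun z hz => h z (abs_lt.2
    ⟨by linarith [hz.1], by linarith [hz.2]⟩), b] at a
  · simpa using a.symm
  · rw [mem_Icc, not_and_or, not_le, not_le] at hr
    exact hr.elim (fun a => ⟨0, e1 r a⟩) fun a => ⟨1, e2 r a⟩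

theorem An.cls_tw_comp (hA : An o A) {g : Equiv.Perm M} (hg : g ∈ G o) :
    cls o (tw (g ∘ A)) = cls o (tw A) := by
  rw [hA.tw_conj, cls_conj hA.tw_mem hg]

theorem Arc.map {Z : Set M} {η : M → ℝ} (h : Arc o Z B η) {g : Equiv.Perm M} (hg : g ∈ G o) :
    Arc o (g '' Z) (g ∘ B) (η ∘ (g⁻¹ : Equiv.Perm M)) := by
  have e : ∀ s : ℝ, (η ∘ (g⁻¹ : Equiv.Perm M)) ((g ∘ B) s) = η (B s) := fun s => by simp
  have m : ∀ x, x ∈ g '' Z ↔ g⁻¹ x ∈ Z := fun x =>
    ⟨fun ⟨y, hy, e⟩ => by simpa [← e] using hy, fun hx => ⟨_, hx, by simp⟩⟩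
  refine ⟨(homeo hg).isClosedMap _ h.cl, h.conn.image _ (G_cont hg).continuousOn, h.st.comp hg,
    fun z hz => h.off z (by simpa using (m _).1 hz), ?_, ?_, h.cont.comp (G_cont_inv hg),
    fun x => h.nn _, fun x => (h.zero _).trans (m x).symm,
    h.sm.comp (G_sm (inv_mem hg)).contMDiffOn fun x hx hz => hx ((m x).2 hz), ?_, ?_⟩
  · rw [core_comp, ← image_union]; exact (homeo hg).isClosedMap _ h.cl'
  · rw [core_comp, ← image_union, ← image_compl_eq g.bijective]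
    exact h.cc.image _ (G_cont hg).continuousOn
  · simpa only [e] using h.mono
  · simpa only [e] using h.lim

/-- transport of a cut system -/
def Cut.map {x : M} (c : Cut o x) {g : Equiv.Perm M} (hg : g ∈ G o) : Cut o (g x) where
  m := c.m
  Z j := g '' c.Z j
  B j := g ∘ c.B j
  η j := c.η j ∘ (g⁻¹ : Equiv.Perm M)
  cl := (homeo hg).isClosedMap _ c.cl
  mem := mem_image_of_mem g c.mem
  arc j hj := (c.arc j hj).map hg
  succ j hj := by rw [c.succ j hj, image_union, core_comp]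
  root O hO := by
    obtain ⟨φ, h1, h2, h3⟩ := c.root _ ((G_cont hg).continuousAt hO)
    refine ⟨_, h1.conj hg, fun t => by simp [h2 t], ?_⟩
    rintro _ ⟨_, ⟨y, hy, rfl⟩, rfl⟩
    simpa using h3 ⟨y, hy, rfl⟩
  face := by
    obtain ⟨D, h1, h2, h3⟩ := c.face
    refine ⟨g ∘ D, h1.comp hg, ?_, fun L hL hs => ?_⟩
    · rintro _ ⟨z, rfl⟩ ⟨y, hy, e⟩
      exact h2 ⟨z, rfl⟩ (g.injective e ▸ hy)
    · obtain ⟨φ, a, b, d⟩ := h3 _ (hL.image (G_cont_inv hg)) (by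
        rintro _ ⟨y, hy, rfl⟩ hz
        exact hs hy ⟨_, hz, by simp⟩)
      refine ⟨_, a.conj hg, fun t => ?_, ?_⟩
      · rintro _ ⟨y, hy, rfl⟩ ⟨w, hw, e⟩
        exact b t ⟨_, ⟨y, hy, rfl⟩, rfl⟩ (g.injective e ▸ hw)
      · rintro _ ⟨y, hy, rfl⟩
        obtain ⟨z, hz⟩ := d ⟨_, ⟨y, hy, rfl⟩, rfl⟩
        exact ⟨z, congrArg g hz⟩

/-- a diffeomorphism fixing the centre of a chart agrees near it with the end of a local isotopy -/
theorem germ_st (h1 : Germ1) (hD : St o D) {g : M → M} (hg : Pm o o g (D 0)) (h0 : g (D 0) = D 0) :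
    ∃ ψ, Iso o ψ ∧ (∀ t, ψ t (D 0) = D 0) ∧ (∀ t, ∀ x ∉ D '' closedBall 0 1, ψ t x = x) ∧
      ∀ᶠ x in 𝓝 (D 0), ψ 1 x = g x := by
  have hf : Pm oC oC (invFun D ∘ g ∘ D) 0 :=
    Pm.comp (f := g ∘ D) (by rw [comp_apply, h0]; exact hD.pm_inv 0) (hg.comp (hD.1 0))
  obtain ⟨ψ, a, b, c, d⟩ := h1 _ 1 hf (by
    rw [comp_apply, comp_apply, h0]; exact leftInverse_invFun hD.2 0) one_pos
  have c' : ∀ t, ∀ z ∉ closedBall (0 : ℂ) 1, ψ t z = z := fun t z hz =>
    c t z (not_le.1 (mt mem_closedBall_zero_iff.2 hz)).le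
  refine ⟨_, hD.tr_iso a (isCompact_closedBall 0 1) c', fun t => by rw [hD.apply, b],
    fun t x hx => hD.fix (c' t) hx, ?_⟩
  rw [← (hD.1 0).map_nhds, eventually_map]
  have : ∀ᶠ z in 𝓝 (0 : ℂ), g (D z) ∈ range D :=
    (hg.comp (hD.1 0)).1.contMDiffAt.continuousAt (hD.isOpen_range.mem_nhds ⟨0, h0.symm⟩)
  filter_upwards [d, this] with z e hz
  rw [hD.apply, e]
  exact invFun_eq hz

end

theorem cj_of (hL : Lk) (hC : Coll) (X : Sf) (hX : IsPreconnected (univ : Set X.R)) : Cj X := by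
  intro A B hA hB nA nB
  obtain ⟨k, hk, -, e, -⟩ := hL X univ A B hX isOpen_univ hA hB (subset_univ _) (subset_univ _)
    (by rw [← compl_eq_univ_sdiff]; exact nA) (by rw [← compl_eq_univ_sdiff]; exact nB)
  obtain ⟨φ, h1, -, ε, hε, δ, hδ, h2⟩ := hC X (k ∘ A) B univ (hA.comp hk) hB
    (by rw [core_comp, e]) isOpen_univ (subset_univ _)
  rw [← cls_eq_iff hA.tw_mem hB.tw_mem, ← hA.cls_tw_comp hk, ← (hA.comp hk).cls_tw_comp (h1.mem 1),
    cls_tw_germ ((hA.comp hk).comp (h1.mem 1)) (hB.affine 0 hε) hδ fun z hz => by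
      simpa using h2 z hz]
  rcases hε with rfl | rfl
  · simp
  · simpa using hB.cls_tw_neg

theorem graph_of (h1 : Morse) (h2 : Noc) (h3 : CutS) : Graph := by
  intro X hX x
  obtain ⟨m, hm⟩ := h2 X (h1 X)
  obtain ⟨y, ⟨c⟩⟩ := h3 X m hm hX
  obtain ⟨φ, a, -, rfl⟩ := hom X univ isOpen_univ hX y (mem_univ _) x (mem_univ _)
  exact ⟨c.map (a.mem 1)⟩

theorem G3.conn {X : Sf} (h : G3 X) : IsPreconnected (univ : Set X.R) := by
  obtain ⟨A, h1, -, h3⟩ := h
  refine conn_of_dense isOpen_univ ?_ (by rw [← compl_eq_univ_sdiff]; exact h3)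
  rw [compl_iUnion]
  exact dense_iInter_of_isOpen (fun i => (h1 i).isCompact_core.isClosed.isOpen_compl)
    fun i => (h1 i).dense

/-- if all non-separating twists are in `K` then `G = K` -/
theorem perf_of_tw (h1 : Germ1) (hS : Smale) (hA : ArcS) (hG : Graph) (X : Sf)
    (hX : IsPreconnected (univ : Set X.R)) (hT : TW X.o) : G X.o ≤ K X.o := by
  intro g hg
  obtain ⟨x⟩ := X.ne
  obtain ⟨c⟩ := hG X hX x
  obtain ⟨φ, a1, -, a2⟩ := hom X univ isOpen_univ hX (g x) (mem_univ _) x (mem_univ _)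
  obtain ⟨D, hD, rfl, -⟩ := exists_st_at X.o (univ_mem : univ ∈ 𝓝 x)
  have g1 := mul_mem (a1.mem 1) hg
  obtain ⟨ψ, b1, -, -, b2⟩ := germ_st h1 hD (g1 (D 0)) a2
  have g2 := mul_mem (inv_mem (b1.mem 1)) g1
  have n2 : ∀ᶠ y in 𝓝 (D 0), ((ψ 1)⁻¹ * (φ 1 * g)) y = y := b2.mono fun y hy => by
    rw [Equiv.Perm.mul_apply, ← hy]; simp
  obtain ⟨ρ, d1, -, d2⟩ := c.root _ (eventually_eventually_nhds.2 n2)
  have key : ∀ j ≤ c.m, ∃ f ∈ G X.o, Near f (c.Z j) ∧ cls X.o f = cls X.o g := by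
    intro j
    induction j with
    | zero =>
      intro _
      have r := inv_mem (d1.mem 1)
      refine ⟨_, mul_mem (mul_mem r g2) (inv_mem r), ?_, ?_⟩
      · refine ((near_iff.2 d2).conj (G_cont_inv r)).mono fun y hy => ⟨_, ⟨y, hy, rfl⟩, by simp⟩
      · rw [cls_conj g2 r, cls_mul (inv_mem (b1.mem 1)) g1, cls_mul (a1.mem 1) hg,
          cls_K (inv_mem b1.one_mem), cls_K a1.one_mem, one_mul, one_mul]
    | succ j ih =>
      intro hj
      obtain ⟨f, f1, f2, f3⟩ := ih (by omega)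
      obtain ⟨k, k1, k2⟩ := hA X _ _ _ hT (c.arc j hj) f f1 f2
      exact ⟨k * f, mul_mem (K_le k1) f1, c.succ j hj ▸ k2, by
        rw [cls_mul (K_le k1) f1, cls_K k1, one_mul, f3]⟩
  obtain ⟨f, f1, f2, f3⟩ := key _ le_rfl
  obtain ⟨O, o1, o2, o3⟩ := near_iff_open.1 f2
  obtain ⟨E, e1, -, e3⟩ := c.face
  obtain ⟨χ, c1, -, c3⟩ := e3 Oᶜ o1.isClosed_compl.isCompact (compl_subset_compl.2 o2)
  obtain ⟨h, k1, k2, k3⟩ := e1.exists_pull (mul_mem (mul_mem (c1.mem 1) f1) (inv_mem (c1.mem 1)))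
    (o1.isClosed_compl.isCompact.image (G_cont (c1.mem 1))) c3 fun y hy => by
      show χ 1 (f ((χ 1)⁻¹ y)) = y
      rw [o3 _ (not_not.1 fun hn => hy ⟨_, hn, by simp⟩)]; simp
  obtain ⟨κ, l1, rfl, r, l3⟩ := hS h k1 k2
  rw [← cls_eq_one hg, ← f3, ← cls_conj f1 (c1.mem 1), ← k3]
  exact cls_K (e1.tr_iso l1 (isCompact_closedBall 0 r) fun t z hz =>
    l3 t z (not_le.1 (mt mem_closedBall_zero_iff.2 hz)).le).one_mem

theorem perf_of (h1 : Germ1) (hS : Smale) (hL : Lk) (hC : Coll) (hT : Lant) (hA : ArcS)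
    (hG : Graph) : Perf := fun X hX =>
  perf_of_tw h1 hS hA hG X hX.conn (hT X hX (cj_of hL hC X hX.conn))

end Crest.Agent.X212.Prf6
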