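import Crest.Agent.X212.Prf6.Lant
import Crest.Agent.X212.Mcg32.Surg
import Crest.Agent.X212.Mcg32.Lk
import Crest.Agent.X212.Grm47.Germ
import Crest.Agent.X212.Cut44.Main
import Crest.Agent.X212.Mor94.Main
import Crest.Agent.X212.Mor94.Noc
import Crest.Agent.X212.Plb19.Main
import Crest.Agent.X212.Tub3.Nf
import Crest.Agent.X212.Cap52.Main
import Crest.Agent.X212.Arc9.Main
import Crest.Agent.X212.Lad50.Coll
import Crest.Agent.X212.Lad50.Simp
import Crest.Agent.X212.Lad50.Smale
import Crest.Agent.X212.Arx49.Dual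

/-!
# Row 212, PERF (helper6): assembly
-/

namespace Crest.Agent.X212.Prf6

theorem lk0 : Lk :=
  Mcg32.lk Tub3.nf0 Tub3.nf1 Tub3.tub Arx49.dual2 Plb19.plumb (Mcg32.surg Tub3.tub)

theorem graph0 : Graph := graph_of Mor94.morse Mor94.noc Cut44.cutS

theorem simp0 : Simp := Lad50.Si.simp_of graph0 Arx49.arcx Tub3.tub

theorem push0 : Push := push simp0 Grm47.germ1 Grm47.germ2

theorem arcS0 : ArcS :=
  Arc9.arcS Arx49.arcx Tub3.tub Tub3.nf1 Plb19.plumb lk0 Lad50.Co.coll Cap52.cap push0

theorem lant0 : Lant := lant Cap52.cap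

/-- **PERF**: for genus at least three every positive diffeomorphism is a product of commutators
and of ends of isotopies -/
theorem perf : Perf :=
  perf_of Grm47.germ1 Lad50.Sm.smale lk0 Lad50.Co.coll lant0 arcS0 graph0

end Crest.Agent.X212.Prf6
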