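import Crest.Agent.X212.Prf6.Rnd

/-!
# Row 212, PERF (helper6): the lantern
-/

set_option autoImplicit false
set_option linter.unusedSectionVars false
noncomputable section
open Set Filter Topology Function Complex Metric
open scoped ContDiff Manifold

namespace Crest.Agent.X212.Prf6

theorem int_ends {l : ℝ → ℝ} {a b : ℝ} {m n : ℤ} (h1 : ∀ r < a, l r = m) (h2 : ∀ r > b, l r = n) :
    ∀ r ∉ Icc a b, ∃ k : ℤ, l r = k := fun r hr => by
  rw [mem_Icc, not_and_or, not_le, not_le] at hr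
  exact hr.elim (fun h => ⟨m, h1 r h⟩) fun h => ⟨n, h2 r h⟩

theorem sh_int {l : ℝ → ℝ} {a b : ℝ} (h : ∀ r ∉ Icc a b, ∃ k : ℤ, l r = k) :
    ∀ z : ℂ, z.im ∉ Icc a b → ∃ n : ℤ, sh l z = z + n := fun z hz => by
  obtain ⟨n, hn⟩ := h _ hz
  exact ⟨n, by simp [hn]⟩

section
variable {N : Type*} [TopologicalSpace N] [ChartedSpace ℂ N] [IsManifold IC ∞ N] [T2Space N]
  {o : Or N} {E : ℂ → N}

theorem St.add (hE : St o E) (a : ℂ) : St o fun z => E (a + z) := by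
  simpa using hE.affine one_ne_zero a

/-- framed point pushing in the plane minus a closed set: the cocycle -/
theorem exists_push_coc {Γ : Type*} [CommGroup Γ] (hE : St o E) {Q : Set N} (hQ : IsClosed Q)
    (hS : IsPreconnected (E ⁻¹' Qᶜ)) (h0 : E 0 ∉ Q) {L : Equiv.Perm N → Γ}
    (Lm : ∀ f ∈ G o, ∀ g ∈ G o, Near f ({E 0} ∪ Q) → Near g ({E 0} ∪ Q) → L (f * g) = L f * L g)
    (L1 : ∀ φ, Iso o φ → NearI φ ({E 0} ∪ Q) → L (φ 1) = 1) :
    ∃ (F : ℂ → Equiv.Perm N) (c : ℂ → ℂ → Γ), Lev33.Coc (E ⁻¹' Qᶜ) c ∧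
      (∀ w, E w ∉ Q → F w ∈ G o ∧ Near (F w) Q ∧ F w (E 0) = E w) ∧
      ∀ Ψ, Iso o Ψ → NearI Ψ Q → ∀ y : ℝ → ℂ, ContDiff ℝ ∞ y → (∀ t, E (y t) ∉ Q) →
        (∀ᶠ z in 𝓝 0, ∀ t, Ψ t (E (y 0 + z)) = E (y t + z)) →
        Lev33.Prim univ (fun s t => c (y s) (y t)) fun t => L ((F (y t))⁻¹ * Ψ t * F (y 0)) := by
  have oS : IsOpen (E ⁻¹' Qᶜ) := hQ.isOpen_compl.preimage (cont_of_pm hE.1)
  have e2 : ∀ x, E x ∉ Q → ∃ R > (0 : ℝ), ∃ τ : ℂ → Equiv.Perm N,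
      ContMDiff (IC.prod IC) IC ∞ (fun p : ℂ × N => τ p.1 p.2) ∧ (∀ w, τ w ∈ G o) ∧ τ 0 = 1 ∧
      (∀ w z, ‖w‖ ≤ R → ‖z‖ ≤ R → τ w (E (x + z)) = E (x + w + z)) ∧
      (∀ᶠ y in 𝓝ˢ Q, ∀ w, τ w y = y) ∧ ∀ w, ‖w‖ ≤ R → E (x + w) ∉ Q := fun x hx => by
    obtain ⟨r, hr, hb⟩ := Metric.isOpen_iff.1 oS x hx
    have hb' : ∀ w : ℂ, ‖w‖ < r → E (x + w) ∉ Q := fun w hw => hb (by simpa using hw)
    obtain ⟨τ, t1, t2, t3, t4, t5⟩ := (hE.add x).exists_tau (R := r / 6) (by positivity)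
    refine ⟨r / 6, by positivity, τ, t1, t2, t3, fun w z a b => by rw [t4 w z a b]; congr 1; ring,
      mem_of_superset (((isCompact_closedBall 0 (5 * (r / 6))).image
        (cont_of_pm (hE.add x).1)).isClosed.isOpen_compl.mem_nhdsSet.2 ?_) fun y hy w => t5 w y hy,
      fun w hw => hb' w (by linarith)⟩
    rintro _ hy ⟨z, hz, rfl⟩
    exact hb' z (by rw [mem_closedBall_zero_iff] at hz; linarith) hy
  choose! R R0 τ T1 T2 T3 T4 T5 T6 using e2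
  let Tn : Equiv.Perm N → ℂ → ℂ → Prop := fun f x y => ∀ᶠ z in 𝓝 0, f (E (x + z)) = E (y + z)
  have tm : ∀ f g x y w, Tn f y w → Tn g x y → Tn (f * g) x w := fun f g x y w a b =>
    (a.and b).mono fun z hz => by rw [Equiv.Perm.mul_apply, hz.2, hz.1]
  have ti : ∀ f x y, Tn f x y → Tn f⁻¹ y x := fun f x y a =>
    a.mono fun z hz => by rw [Equiv.Perm.inv_eq_iff_eq, hz]
  have tt : ∀ x, E x ∉ Q → ∀ y, ‖y - x‖ ≤ R x → Tn (τ x (y - x)) x y := fun x hx y hy => by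
    filter_upwards [closedBall_mem_nhds (0 : ℂ) (R0 x hx)] with z hz
    rw [T4 x hx _ z hy (mem_closedBall_zero_iff.1 hz), add_sub_cancel]
  have tq : ∀ x, E x ∉ Q → ∀ w, Near (τ x w) Q := fun x hx w => (T5 x hx).mono fun y hy => hy w
  have e1 : ∀ w, E w ∉ Q → ∃ f ∈ G o, Near f Q ∧ Tn f 0 w := fun w hw => by
    have hl : Lev33.LCo (E ⁻¹' Qᶜ) fun w => ∃ f ∈ G o, Near f Q ∧ Tn f 0 w := by
      intro x hx
      filter_upwards [nhdsWithin_le_nhds (closedBall_mem_nhds x (R0 x hx))] with y hy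
      have a := tt x hx y (mem_closedBall_iff_norm.1 hy)
      exact propext ⟨fun ⟨f, b, c, d⟩ => ⟨_, mul_mem (inv_mem (T2 x hx _)) b, (tq x hx _).inv.mul c,
        tm _ _ _ _ _ (ti _ _ _ a) d⟩, fun ⟨f, b, c, d⟩ => ⟨_, mul_mem (T2 x hx _) b,
          (tq x hx _).mul c, tm _ _ _ _ _ a d⟩⟩
    rw [← hl.eq hS h0 hw]
    exact ⟨1, one_mem _, near_one _, Eventually.of_forall fun _ => rfl⟩
  choose! F F1 F2 F3 using e1
  have n0 : ∀ p : N → Prop, (∀ᶠ z in 𝓝 (0 : ℂ), p (E (0 + z))) → ∀ᶠ y in 𝓝ˢ {E 0}, p y :=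
    fun p a => by
      rw [nhdsSet_singleton, ← (hE.1 0).map_nhds, eventually_map]
      simpa using a
  have sb : ∀ f ∈ G o, Near f Q → ∀ x y, E x ∉ Q → E y ∉ Q → Tn f x y →
      (F y)⁻¹ * f * F x ∈ G o ∧ Near ((F y)⁻¹ * f * F x) ({E 0} ∪ Q) := fun f a b x y hx hy d =>
    ⟨mul_mem (mul_mem (inv_mem (F1 y hy)) a) (F1 x hx), Near.union (n0 _ (tm _ _ _ _ _
      (tm _ _ _ _ _ (ti _ _ _ (F3 y hy)) d) (F3 x hx))) (((F2 y hy).inv.mul b).mul (F2 x hx))⟩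
  let c : ℂ → ℂ → Γ := fun x y => L ((F y)⁻¹ * τ x (y - x) * F x)
  have key : ∀ (V : Type) [NormedAddCommGroup V] [NormedSpace ℝ V] (Ψ : V → Equiv.Perm N),
      ContMDiff (𝓘(ℝ, V).prod IC) IC ∞ (fun p : V × N => Ψ p.1 p.2) → (∀ v, Ψ v ∈ G o) →
      (∀ᶠ y in 𝓝ˢ Q, ∀ v, Ψ v y = y) → ∀ (O : Set V) (y : V → ℂ) (w : ℂ), IsOpen O →
      ContDiff ℝ ∞ y → E w ∉ Q → (∀ v ∈ O, E (y v) ∉ Q) →
      (∀ᶠ z in 𝓝 0, ∀ v ∈ O, Ψ v (E (w + z)) = E (y v + z)) → ∀ s ∈ O, ∀ᶠ t in 𝓝 s,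
        L ((F (y t))⁻¹ * Ψ t * F w) = L ((F (y s))⁻¹ * Ψ s * F w) * c (y s) (y t) := by
    intro V _ _ Ψ a1 a2 a3 O y w hO hy hw a4 a5 s hs
    have nq : ∀ v, Near (Ψ v) Q := fun v => a3.mono fun y hy => hy v
    have hx := a4 s hs
    obtain ⟨r, hr, hb⟩ := Metric.eventually_nhds_iff_ball.1 ((hy.continuous.continuousAt.eventually
      (closedBall_mem_nhds (y s) (R0 _ hx))).and (hO.mem_nhds hs))
    filter_upwards [ball_mem_nhds s hr] with t ht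
    let γ : ℝ → V := fun u => s + Real.smoothTransition u • (t - s)
    have γ1 : ContDiff ℝ ∞ γ :=
      contDiff_const.add (Real.smoothTransition.contDiff.smul contDiff_const)
    have γ2 : ∀ u, γ u ∈ ball s r := fun u => (convex_ball s r).add_smul_sub_mem (mem_ball_self hr) ht
      ⟨Real.smoothTransition.nonneg u, Real.smoothTransition.le_one u⟩
    have γ0 : γ 0 = s := by simp [γ]
    have γ3 : γ 1 = t := by simp [γ]
    have i1 : Iso o fun u => τ (y s) (y (γ u) - y s) :=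
      iso_of_fam (T1 _ hx) (T2 _ hx) ((hy.comp γ1).sub contDiff_const) (by
        rw [γ0, sub_self, T3 _ hx])
    have i2 : Iso o fun u => Ψ (γ u) * (Ψ s)⁻¹ :=
      iso_of_fam (τ := fun v => Ψ v * (Ψ s)⁻¹) (a1.comp (contMDiff_fst.prodMk
        ((G_sm (inv_mem (a2 s))).comp contMDiff_snd))) (fun v => mul_mem (a2 v) (inv_mem (a2 s)))
        γ1 (by rw [γ0, mul_inv_cancel])
    have i3 := (i1.inv.mul i2).conj (inv_mem (F1 _ hx))
    have n3 : NearI (fun u => (F (y s))⁻¹ * ((τ (y s) (y (γ u) - y s))⁻¹ * (Ψ (γ u) * (Ψ s)⁻¹)) *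
        (F (y s))⁻¹⁻¹) ({E 0} ∪ Q) := by
      refine NearI.union (n0 _ ?_) (((F2 _ hx).inv.nearI.mul ((NearI.inv
        ((T5 _ hx).mono fun y hy _ => hy _)).mul (NearI.mul (a3.mono fun y hy _ => hy _)
          (nq s).inv.nearI))).mul (F2 _ hx).inv.inv.nearI)
      filter_upwards [F3 _ hx, a5, closedBall_mem_nhds (0 : ℂ) (R0 _ hx)] with z b1 b2 b3 u
      simp only [Equiv.Perm.mul_apply, inv_inv]
      rw [Equiv.Perm.inv_eq_iff_eq, b1, Equiv.Perm.inv_eq_iff_eq, T4 _ hx _ z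
        (mem_closedBall_iff_norm.1 (hb _ (γ2 u)).1) (mem_closedBall_zero_iff.1 b3), ← b2 s hs,
        show ∀ x, (Ψ s)⁻¹ (Ψ s x) = x from fun x => by simp, b2 _ (hb _ (γ2 u)).2, add_sub_cancel]
    have k1 := L1 _ i3 n3
    have k2 := i3.mem 1
    have k3 := n3.near 1
    simp only [γ3] at k1 k2 k3
    have s1 := sb _ (T2 _ hx (y t - y s)) (tq _ hx _) _ _ hx (a4 t (hb t ht).2)
      (tt _ hx _ (mem_closedBall_iff_norm.1 (hb t ht).1))
    have s2 := sb _ (a2 s) (nq s) _ _ hw hx (a5.mono fun z hz => hz s hs)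
    rw [mul_comm, ← mul_one (c _ _), ← k1, ← Lm _ s1.1 _ k2 s1.2 k3,
      ← Lm _ (mul_mem s1.1 k2) _ s2.1 (s1.2.mul k3) s2.2]
    congr 1; group
  refine ⟨F, c, Lev33.coc_of_loc fun x hx => ⟨ball x (R x), mem_nhdsWithin_of_mem_nhds
    (ball_mem_nhds x (R0 x hx)), c x, fun y hy => Eventually.filter_mono nhdsWithin_le_nhds ?_⟩,
    fun w hw => ⟨F1 w hw, F2 w hw, by simpa using (F3 w hw).self_of_nhds⟩,
    fun Ψ a b y hy h1 h2 s _ => (key ℝ Ψ a.sm a.mem b univ y _ isOpen_univ hy (h1 0)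
      (fun v _ => h1 v) (h2.mono fun z hz v _ => hz v) s trivial).filter_mono nhdsWithin_le_nhds⟩
  refine key ℂ (fun v => τ x (v - x)) ((T1 x hx).comp (f := fun p : ℂ × N => (p.1 - x, p.2))
    (((contDiff_id.sub contDiff_const).contMDiff.comp contMDiff_fst).prodMk contMDiff_snd))
    (fun v => T2 x hx _) ((T5 x hx).mono fun y hy _ => hy _) (ball x (R x)) id x isOpen_ball
    contDiff_id hx (fun v hv => by simpa using T6 x hx (v - x) (mem_ball_iff_norm.1 hv).le) ?_ y hy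
  filter_upwards [closedBall_mem_nhds (0 : ℂ) (R0 _ hx)] with z hz v hv
  rw [T4 x hx _ z (mem_ball_iff_norm.1 hv).le (mem_closedBall_zero_iff.1 hz), add_sub_cancel, id]

/-- the monodromy of a round circle -/
theorem round_mono {Γ : Type*} [CommGroup Γ] (hE : St o E) {Q Q' : Set N} (hQ : IsClosed Q)
    (hQ' : Q' ⊆ Q) (hE' : ∀ z, E z ∉ Q') {L : Equiv.Perm N → Γ} {t : Γ}
    (Lm : ∀ f ∈ G o, ∀ g ∈ G o, Near f ({E 0} ∪ Q) → Near g ({E 0} ∪ Q) → L (f * g) = L f * L g)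
    (LR : ∀ E', St o E' → (∀ z, E' z ∉ Q') → ∀ ρ > (0 : ℝ), (∀ z, ‖z‖ = ρ → E' z ∉ {E 0} ∪ Q) →
      (∃ z, ‖z‖ < ρ ∧ E' z ∈ {E 0} ∪ Q) → ∃ δ > (0 : ℝ), ∀ (l : ℝ → ℝ) (m n : ℤ), ContDiff ℝ ∞ l →
        (∀ r < -δ, l r = m) → (∀ r > δ, l r = n) → Near (tr (E' ∘ ea ρ) (sh l)) ({E 0} ∪ Q) ∧
          L (tr (E' ∘ ea ρ) (sh l)) = t ^ (n - m))
    (LB : ∀ E', St o E' → E' 0 = E 0 → (∀ z, E' z ∉ Q) →
      Near (tr E' (rot 1 (-1))) ({E 0} ∪ Q) ∧ L (tr E' (rot 1 (-1))) = t⁻¹)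
    {a : ℂ} {ρ : ℝ} (hρ : 0 < ρ) (h1 : ∀ z, ‖z‖ = ρ → E (a + z) ∉ Q)
    (h2 : ∃ z, ‖z‖ < ρ ∧ E (a + z) ∈ Q) {F : Equiv.Perm N} (F1 : F ∈ G o) (F2 : Near F Q)
    (F3 : F (E 0) = E (a + ρ)) : ∃ Ψ, Iso o Ψ ∧ NearI Ψ Q ∧
      (∀ᶠ z in 𝓝 0, ∀ u : ℝ, Ψ u (E (a + ρ + z)) = E (a + ea ρ u + z)) ∧
      L (F⁻¹ * Ψ 1 * F) = t⁻¹ := by
  have hC := (hE.add a).an_ea hρ
  set C := (fun z => E (a + z)) ∘ ea ρ with hCe
  obtain ⟨η₀, η0, hη⟩ := hC.tube hQ.isOpen_compl (by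
    rintro _ ⟨u, rfl⟩; exact h1 _ (norm_ea_real hρ u))
  set η := η₀ / 3 with hηe
  have η1 : 0 < η := by positivity
  have g := inv_mem F1
  have fq : ∀ y, F⁻¹ y ∈ Q ↔ y ∈ Q := fun y => ⟨fun h => by
    have := F2.fix h
    rw [show F (F⁻¹ y) = y by simp] at this
    rwa [this],
    fun h => by rw [F2.inv.fix h]; exact h⟩
  have e0 : ea ρ 0 = ρ := by simp [ea]
  have A1 : ∀ s : ℝ, |s| = η → ∃ δ > (0 : ℝ), ∀ (l : ℝ → ℝ) (m n : ℤ), ContDiff ℝ ∞ l →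
      (∀ r < -δ, l r = m) → (∀ r > δ, l r = n) →
        Near (tr (⇑F⁻¹ ∘ C) (sh fun r => l (r - s))) ({E 0} ∪ Q) ∧
          L (tr (⇑F⁻¹ ∘ C) (sh fun r => l (r - s))) = t ^ (n - m) := fun s hs => by
    have hρ' : 0 < ρ * Real.exp (-(2 * Real.pi * s)) := by positivity
    have e : (fun z => (⇑F⁻¹ ∘ C) (z + s * I)) =
        (⇑F⁻¹ ∘ fun z => E (a + z)) ∘ ea (ρ * Real.exp (-(2 * Real.pi * s))) := by
      ext z; simp only [hCe, comp_apply, ea_shift]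
    simp only [(hC.comp g).tr_shift, e]
    refine LR _ ((hE.add a).comp g) (fun z k => hE' (a + z) ?_) _ hρ' (fun z hz => ?_) ?_
    · have := F2.fix (hQ' k)
      simp only [comp_apply] at this k
      rw [← this] at k
      simpa using k
    · obtain ⟨v, rfl⟩ := ea_surj hρ' (w := z) (by rintro rfl; simp at hz; exact hρ'.ne' (by simp [hz]))
      have v0 : v.im = 0 := le_antisymm (not_lt.1 fun k => ((norm_ea_lt hρ').2 k).ne hz)
        (not_lt.1 fun k => ((lt_norm_ea hρ').2 k).ne' hz)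
      rw [← ea_shift]
      rintro (k | k)
      · rw [mem_singleton_iff, comp_apply, Equiv.Perm.inv_eq_iff_eq, F3, ← e0] at k
        have := hC.im_eq k
        simp [v0] at this
        simp [this] at hs
        linarith
      · exact hη (v + s * I) (by simp [v0, hs]; linarith) ((fq _).1 k)
    · obtain ⟨z, z1, z2⟩ := h2
      refine ⟨z, ?_, .inr ((fq _).2 z2)⟩
      rcases eq_or_ne z 0 with rfl | z0
      · simpa using hρ'
      · obtain ⟨v, rfl⟩ := ea_surj hρ z0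
        have v1 := (norm_ea_lt hρ).1 z1
        have v2 : η₀ ≤ v.im := not_lt.1 fun k => hη v (by rwa [abs_of_pos v1]) z2
        rw [show v = v - s * I + s * I by ring, ea_shift, norm_ea_lt hρ']
        simp
        linarith [le_abs_self s]
  obtain ⟨d₁, d1, D1⟩ := A1 (-η) (by rw [abs_neg, abs_of_pos η1])
  obtain ⟨d₂, d2, D2⟩ := A1 η (abs_of_pos η1)
  obtain ⟨d, d0, d3, d4, d5⟩ : ∃ d > (0 : ℝ), d ≤ d₁ ∧ d ≤ d₂ ∧ d ≤ η / 2 :=
    ⟨min d₁ (min d₂ (η / 2)), by positivity, min_le_left _ _,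
      (min_le_right _ _).trans (min_le_left _ _), (min_le_right _ _).trans (min_le_right _ _)⟩
  let l : ℝ → ℝ := fun r => Real.smoothTransition (r / d)
  have l0 : ContDiff ℝ ∞ l := Real.smoothTransition.contDiff.comp (by fun_prop)
  have l1 : ∀ r ≤ (0 : ℝ), l r = 0 := fun r hr =>
    Real.smoothTransition.zero_of_nonpos (div_nonpos_of_nonpos_of_nonneg hr d0.le)
  have l2 : ∀ r ≥ d, l r = 1 := fun r hr => Real.smoothTransition.one_of_one_le ((one_le_div d0).2 hr)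
  obtain ⟨n1, k1⟩ := D1 l 0 1 l0 (fun r hr => by simpa using l1 r (by linarith))
    fun r hr => by simpa using l2 r (by linarith)
  obtain ⟨n2, k2⟩ := D2 (fun r => -l r) 0 (-1) l0.neg (fun r hr => by simpa using l1 r (by linarith))
    fun r hr => by simpa using l2 r (by linarith)
  let β : ℝ → ℝ := fun r => l (r - -η) + -l (r - η)
  have β1 : ContDiff ℝ ∞ β := (l0.comp (by fun_prop)).add (l0.comp (by fun_prop)).neg
  have β2 : ∀ r, |r| < η / 2 → β r = 1 := fun r hr => by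
    rw [abs_lt] at hr
    simp only [β]
    rw [l2 _ (by linarith), l1 _ (by linarith)]; simp
  have β3 : ∀ u : ℝ, ∀ r ∉ Icc (-η) (2 * η), ∃ n : ℤ, u * β r = n := fun u r hr => by
    refine ⟨0, ?_⟩
    rw [mem_Icc, not_and_or, not_le, not_le] at hr
    simp only [β]
    rcases hr with k | k
    · rw [l1 _ (by linarith), l1 _ (by linarith)]; simp
    · rw [l2 _ (by linarith), l2 _ (by linarith)]; simp
  have i1 := hC.tr_iso (sh_iso (l := fun u r => u * β r) (contDiff_fst.mul (β1.comp contDiff_snd))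
    (by simp)) (fun u => sh_per _) fun u => sh_int (β3 u)
  have m1 := tr_nearI hC.1 (fun u => hC.wd_sh fun r => u * β r) (isCompact_bx (-η) (2 * η))
    (fun u => hC.out (sh_int (β3 u))) (Z := Q) (disjoint_left.2 (by
      rintro _ ⟨z, hz, rfl⟩
      exact hη z (abs_lt.2 ⟨by linarith [hz.2.1], by linarith [hz.2.2]⟩)))
  obtain ⟨κ, κ0, B, hB, b1, b2⟩ := exists_st ((hE.add (a + ρ)).1 0)
    (s := {z | E (a + ρ + z) ∉ Q}) ((cont_of_pm (hE.add _).1).continuousAt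
      (hQ.isOpen_compl.mem_nhds (by simpa using h1 ρ (by simp [hρ.le]))))
  have b3 : ∀ z, B z ∉ Q := fun z => by
    obtain ⟨w, hw, e⟩ := b1 ⟨z, rfl⟩
    exact e ▸ hw
  have r0 : ∀ u : ℝ, ∀ z ∉ closedBall (0 : ℂ) 1, rot 1 (-u) z = z := fun u z hz =>
    rot_out one_pos _ (not_le.1 (mt mem_closedBall_zero_iff.2 hz)).le
  have i2 := hB.tr_iso ((rot_iso one_pos).reparam contDiff_neg neg_zero) (isCompact_closedBall 0 1) r0
  have m2 := hB.tr_nearI (isCompact_closedBall 0 1) r0 (Z := Q) (disjoint_left.2 (by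
    rintro _ ⟨z, -, rfl⟩; exact b3 z))
  refine ⟨_, i1.mul i2, m1.mul m2, ?_, ?_⟩
  · obtain ⟨r, r1, r2⟩ := Metric.isOpen_iff.1 (isOpenMap_of_pm (an_ea hρ).1 {z | |z.im| < η / 2}
      (isOpen_lt (by fun_prop) continuous_const)) ρ ⟨0, by simpa using η1, e0⟩
    filter_upwards [ball_mem_nhds (0 : ℂ) r1, ball_mem_nhds (0 : ℂ) (half_pos κ0)] with z z1 z2 u
    rw [mem_ball_zero_iff] at z1 z2
    have k0 : (κ : ℂ) ≠ 0 := ofReal_ne_zero.2 κ0.ne'
    have b4 : ∀ w : ℂ, ‖w‖ ≤ 1 / 2 → B w = E (a + ρ + κ * w) := fun w hw =>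
      b2 w ((abs_re_le_norm w).trans (by linarith)) ((abs_im_le_norm w).trans (by linarith))
    have z3 : ‖z / κ‖ ≤ 1 / 2 := by
      rw [norm_div, norm_real, Real.norm_of_nonneg κ0.le, div_le_iff₀ κ0]; linarith
    obtain ⟨v, v1, v2⟩ := r2 (show ρ + z * exp (2 * Real.pi * I * (-u : ℝ)) ∈ ball (ρ : ℂ) r by
      simpa only [mem_ball_iff_norm, add_sub_cancel_left, norm_mul, norm_exp_2pi, mul_one] using z1)
    rw [Equiv.Perm.mul_apply, ← mul_div_cancel₀ z k0, ← b4 _ z3, hB.apply, b4 _ (by rwa [norm_rot]),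
      rot_in one_pos _ z3, ← mul_assoc, mul_div_cancel₀ z k0, add_assoc, ← v2]
    refine ((hC.wd_sh _).apply v).trans (congrArg E ?_)
    have : exp (2 * Real.pi * I * (-u : ℝ)) * exp (2 * Real.pi * I * u) = 1 := by
      rw [← exp_add]; simp
    rw [sh_apply, β2 _ v1, mul_one, add_assoc, show ea ρ (v + u) = ea ρ v * exp (2 * Real.pi * I * u) by
      rw [ea, ea, mul_add, exp_add, mul_assoc (ρ : ℂ)], v2, add_mul, mul_assoc z, this, mul_one, ea]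
  · obtain ⟨n3, k3⟩ := LB _ (hB.comp g) (by
      rw [comp_apply, Equiv.Perm.inv_eq_iff_eq, F3, b2 0 (by simp) (by simp)]; simp)
      fun z k => b3 z ((fq _).1 k)
    have hC' := hC.comp g
    have g1 := hC'.sh_mem (l := fun r => l (r - -η)) (l0.comp (by fun_prop)) (int_ends (m := 0) (n := 1)
      (a := -η) (b := η) (fun r hr => by simpa using l1 _ (by linarith))
      fun r hr => by simpa using l2 _ (by linarith))
    have g2 := hC'.sh_mem (l := fun r => -l (r - η)) (l0.comp (by fun_prop)).neg (int_ends (m := 0)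
      (n := -1) (a := η) (b := 2 * η) (fun r hr => by simpa using l1 _ (by linarith))
      fun r hr => by simpa using l2 _ (by linarith))
    have g3 := (hB.comp g).tr_mem (rot_mem one_pos (-1)) (isCompact_closedBall 0 1) (r0 1)
    have e : F⁻¹ * (tr C (sh fun r => 1 * β r) * tr B (rot 1 (-1))) * F =
        tr (⇑F⁻¹ ∘ C) (sh fun r => l (r - -η)) * tr (⇑F⁻¹ ∘ C) (sh fun r => -l (r - η)) *
          tr (⇑F⁻¹ ∘ B) (rot 1 (-1)) := by
      rw [← tr_mul (hC'.wd_sh _) (hC'.wd_sh _), ← sh_add, tr_conj (hC.wd_sh _), tr_conj (hB.wd _)]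
      simp only [one_mul, β]
      group
    rw [e, Lm _ (mul_mem g1 g2) _ g3 (n1.mul n2) n3, Lm _ g1 _ g2 n1 n2, k1, k2, k3]
    simp

/-- the lantern relation in a plane chart -/
theorem lant_core {Γ : Type*} [CommGroup Γ] (hE : St o E) {Q Q' : Set N} (hQ : Q.Finite)
    (hQ' : Q' ⊆ Q) (hE' : ∀ z, E z ∉ Q') (hz : ∀ z, E z ∈ Q ↔ z = 1 ∨ z = 3)
    {L : Equiv.Perm N → Γ} {t : Γ}
    (Lm : ∀ f ∈ G o, ∀ g ∈ G o, Near f ({E 0} ∪ Q) → Near g ({E 0} ∪ Q) → L (f * g) = L f * L g)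
    (L1 : ∀ φ, Iso o φ → NearI φ ({E 0} ∪ Q) → L (φ 1) = 1)
    (LR : ∀ E', St o E' → (∀ z, E' z ∉ Q') → ∀ ρ > (0 : ℝ), (∀ z, ‖z‖ = ρ → E' z ∉ {E 0} ∪ Q) →
      (∃ z, ‖z‖ < ρ ∧ E' z ∈ {E 0} ∪ Q) → ∃ δ > (0 : ℝ), ∀ (l : ℝ → ℝ) (m n : ℤ), ContDiff ℝ ∞ l →
        (∀ r < -δ, l r = m) → (∀ r > δ, l r = n) → Near (tr (E' ∘ ea ρ) (sh l)) ({E 0} ∪ Q) ∧
          L (tr (E' ∘ ea ρ) (sh l)) = t ^ (n - m))
    (LB : ∀ E', St o E' → E' 0 = E 0 → (∀ z, E' z ∉ Q) →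
      Near (tr E' (rot 1 (-1))) ({E 0} ∪ Q) ∧ L (tr E' (rot 1 (-1))) = t⁻¹) : t = 1 := by
  have hS : IsPreconnected (E ⁻¹' Qᶜ) := by
    simpa only [← compl_eq_univ_sdiff, preimage_compl] using conn_diff_fin oC (hQ.preimage hE.2.injOn) isOpen_univ
      isPreconnected_univ
  obtain ⟨F, c, hc, hF, hP⟩ := exists_push_coc hE hQ.isClosed hS (by simp [hz]) Lm L1
  have st : ∀ s : ℝ, s ≠ 0 → ∃ b, Lev33.Prim (E ⁻¹' Qᶜ ∩ {z | 0 ≤ s * z.im}) c b := fun s hs => by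
    have s2 : 0 < s * s := mul_self_pos.2 hs
    refine (hc.mono inter_subset_left).prim_star (x0 := s * I) (mem_inter ?_ (by simpa using s2.le))
      fun z hz' a b ha hb hab => mem_inter (fun k => ?_) ?_
    · rw [mem_preimage, mem_compl_iff, hz]
      rintro (k | k) <;> exact hs (by simpa using congrArg im k)
    · have k1 : a * s + b * z.im = 0 := by
        rcases (hz _).1 k with e | e <;> simpa using congrArg im e
      have k2 : a = 0 := by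
        have := mul_nonneg hb (show 0 ≤ s * z.im from hz'.2)
        have : a * (s * s) ≤ 0 := by nlinarith [congrArg (s * ·) k1]
        exact le_antisymm (by nlinarith) ha
      rw [k2, zero_add] at hab
      rw [k2, hab] at k
      exact hz'.1 (by simpa using k)
    · have := mul_nonneg hb (show 0 ≤ s * z.im from hz'.2)
      have := mul_nonneg ha s2.le
      simp; nlinarith
  obtain ⟨p, hp⟩ := st 1 one_ne_zero
  obtain ⟨q, hq⟩ := st (-1) (by simp)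
  have rd : ∀ (a ρ : ℝ), 0 < ρ → (∀ z : ℂ, ‖z‖ = ρ → E (a + z) ∉ Q) →
      (∃ z : ℂ, ‖z‖ < ρ ∧ E (a + z) ∈ Q) →
      t⁻¹ = p (a - ρ) * (q (a - ρ))⁻¹ * (p (a + ρ) * (q (a + ρ))⁻¹)⁻¹ := fun a ρ hρ h1 h2 => by
    have e0 : ea ρ (0 : ℝ) = ρ := by simp [ea]
    have e1 : ea ρ (1 : ℝ) = ρ := by simp [ea]
    have e2 : ea ρ (1 / 2 : ℝ) = -ρ := by
      rw [ea, show (2 * Real.pi * I * (1 / 2 : ℝ) : ℂ) = Real.pi * I by push_cast; ring, exp_pi_mul_I]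
      simp
    have e3 : ∀ u : ℝ, (a + ea ρ u).im = ρ * Real.sin (2 * Real.pi * u) := fun u => by
      rw [ea, show (2 * Real.pi * I * u : ℂ) = (2 * Real.pi * u : ℝ) * I by push_cast; ring]
      simp only [add_im, ofReal_im, zero_add, im_ofReal_mul, exp_ofReal_mul_I_im]
    obtain ⟨f1, f2, f3⟩ := hF (a + ρ) (h1 ρ (by simp [hρ.le]))
    obtain ⟨Ψ, a1, a2, a3, a4⟩ := round_mono hE hQ.isClosed hQ' hE' Lm LR LB hρ h1 h2 f1 f2 f3
    have y1 : ContDiff ℝ ∞ fun u : ℝ => a + ea ρ u := contDiff_const.add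
      ((contMDiff_iff_contDiff.1 (sm_of_pm (an_ea hρ).1)).comp ofRealCLM.contDiff)
    have y2 : ∀ u : ℝ, E (a + ea ρ u) ∉ Q := fun u => h1 _ (norm_ea_real hρ u)
    have b := hP Ψ a1 a2 _ y1 y2 (by simpa only [e0] using a3)
    have hpi := Real.pi_pos
    have u1 := (hp.comp y1.continuous.continuousOn (T := Icc 0 (1 / 2)) fun u hu => ⟨y2 u, by
      rw [mem_ofPred_eq, e3, one_mul]
      exact mul_nonneg hρ.le (Real.sin_nonneg_of_nonneg_of_le_pi (by nlinarith [hu.1])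
        (by nlinarith [hu.2]))⟩).uniq (b.mono (subset_univ _)) isPreconnected_Icc (x := 0) (y := 1 / 2)
      (by simp) (by simp)
    have u2 := (hq.comp y1.continuous.continuousOn (T := Icc (1 / 2) 1) fun u hu => ⟨y2 u, by
      rw [mem_ofPred_eq, e3, ← Real.sin_sub_two_pi, neg_one_mul, ← mul_neg, ← Real.sin_neg]
      exact mul_nonneg hρ.le (Real.sin_nonneg_of_nonneg_of_le_pi (by nlinarith [hu.2])
        (by nlinarith [hu.1]))⟩).uniq (b.mono (subset_univ _)) isPreconnected_Icc (x := 1 / 2) (y := 1)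
      (by norm_num) (by norm_num)
    have l1 := L1 _ iso_one (near_one _).nearI
    simp only [e0, e1, e2, a4, a1.zero, mul_one, inv_mul_cancel, l1, ← sub_eq_add_neg] at u1 u2
    rw [u2, u1]
    simp only [mul_inv_rev, inv_inv, one_mul]
    ac_rfl
  have c1 : ∀ (a ρ : ℝ), |1 - a| ≠ ρ → |3 - a| ≠ ρ → ∀ z : ℂ, ‖z‖ = ρ → E (a + z) ∉ Q := by
    intro a ρ h1 h2 z h k
    rcases (hz _).1 k with e | e
    · rw [← eq_sub_iff_add_eq'] at e
      exact h1 (by rw [← h, e]; norm_cast)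
    · rw [← eq_sub_iff_add_eq'] at e
      exact h2 (by rw [← h, e]; norm_cast)
  have r1 := rd 1 1 one_pos (c1 _ _ (by norm_num) (by norm_num)) ⟨0, by simp, by simp [hz]⟩
  have r2 := rd 3 1 one_pos (c1 _ _ (by norm_num) (by norm_num)) ⟨0, by simp, by simp [hz]⟩
  have r3 := rd 2 2 two_pos (c1 _ _ (by norm_num) (by norm_num)) ⟨1, by simp, by norm_num [hz]⟩
  norm_num at r1 r2 r3
  have : t⁻¹ * t⁻¹ = t⁻¹ * (p 2 * (p 2)⁻¹ * (q 2 * (q 2)⁻¹)) := by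
    nth_rw 1 [r1]
    nth_rw 1 [r2]
    rw [r3]
    simp only [mul_comm, mul_left_comm, mul_assoc]
  simpa using this

end

theorem lant (hc : Cap) : Lant := by
  intro X hG hJ B0 hB0 nB0
  have hX := hG.conn
  obtain ⟨A, hA, hd, h3⟩ := hG
  obtain ⟨Y, j, D, h⟩ := hc X (Fin 3) A hA hd
  have hY := h.col.conn_down h3
  have h0 := h.col.col0
  set Z := ⋃ k, core (A k)
  set P := range fun p : Fin 3 × Bool => D p.1 p.2 0 with hPe
  have hZ : ∀ i z, A i z ∈ Z → z.im = 0 := fun i z hz => by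
    obtain ⟨k, hk⟩ := mem_iUnion.1 hz
    rcases eq_or_ne i k with rfl | e
    · exact (hA i).mem_core.1 hk
    · exact (disjoint_left.1 (hd i k e) ⟨z, rfl⟩ (core_subset _ hk)).elim
  have inj : ∀ p q : Fin 3 × Bool, D p.1 p.2 0 = D q.1 q.2 0 → p = q := fun p q e =>
    by_contra fun k => disjoint_left.1 (h.dis p q k) ⟨0, rfl⟩ ⟨0, e.symm⟩
  have mv : ∀ (p : Fin 3 × Bool) (y : Y.R), (∀ q, q ≠ p → y ≠ D q.1 q.2 0) → ∃ g ∈ G Y.o,
      g y = D p.1 p.2 0 ∧ ∀ q, q ≠ p → g (D q.1 q.2 0) = D q.1 q.2 0 := fun p y hy => by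
    have hf : ((fun q : Fin 3 × Bool => D q.1 q.2 0) '' {p}ᶜ).Finite := toFinite _
    obtain ⟨φ, a, b, c⟩ := hom_gen Y.o hf.isClosed.isOpen_compl (by
      rw [compl_eq_univ_sdiff]; exact conn_diff_fin Y.o hf isOpen_univ hY) (x := y)
      (y := D p.1 p.2 0) (fun ⟨q, k, e⟩ => hy q k e.symm) fun ⟨q, k, e⟩ => k (inj _ _ e)
    exact ⟨_, a.mem 1, c, fun q k => (b.near 1).fix (by rw [compl_compl]; exact ⟨q, k, rfl⟩)⟩
  obtain ⟨E, hE, e0, e1, e2, e3⟩ : ∃ E, St Y.o E ∧ E 0 = D 0 true 0 ∧ E 1 = D 1 true 0 ∧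
      E 3 = D 2 true 0 ∧ ∀ i z, E z ≠ D i false 0 := by
    have a0 := h.st 0 true
    have b0 : ∀ z, ∀ q : Fin 3 × Bool, q ≠ (0, true) → D 0 true z ≠ D q.1 q.2 0 := fun z q k e =>
      disjoint_left.1 (h.dis q (0, true) k) ⟨0, rfl⟩ ⟨z, e⟩
    obtain ⟨g, g1, g2, g3⟩ := mv (1, true) (D 0 true 1) fun q _ => by
      rcases eq_or_ne q (0, true) with rfl | k
      · exact fun e => one_ne_zero (a0.2 e)
      · exact b0 _ q k
    have b1 : ∀ z, ∀ q : Fin 3 × Bool, q ≠ (0, true) → q ≠ (1, true) →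
        g (D 0 true z) ≠ D q.1 q.2 0 := fun z q k k' e => b0 z q k (g.injective (e.trans (g3 q k').symm))
    obtain ⟨f, f1, f2, f3⟩ := mv (2, true) (g (D 0 true 3)) fun q _ => by
      rcases eq_or_ne q (0, true) with rfl | k
      · exact fun e => by simpa using a0.2 (g.injective (e.trans (g3 _ (by simp)).symm))
      rcases eq_or_ne q (1, true) with rfl | k'
      · exact fun e => by simpa using a0.2 (g.injective (e.trans g2.symm))
      · exact b1 _ q k k'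
    refine ⟨_, (a0.comp g1).comp f1, ?_, ?_, f2, fun i z e => b1 z (i, false) (by simp) (by simp)
      (f.injective (e.trans (f3 (i, false) (by simp)).symm))⟩
    · exact (congrArg f (g3 (0, true) (by simp))).trans (f3 (0, true) (by simp))
    · exact (congrArg f g2).trans (f3 (1, true) (by simp))
  have pe : {E 0} ∪ P \ {E 0} = P := by
    rw [union_sdiff_self, union_eq_right, singleton_subset_iff, e0]; exact ⟨(0, true), rfl⟩
  have LC : ∀ C, An Y.o C → (∀ z, C z ∉ P) → NS (jv j Z ∘ C) → ∀ (l : ℝ → ℝ) (a b : ℝ) (m n : ℤ),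
      ContDiff ℝ ∞ l → (∀ r < a, l r = m) → (∀ r > b, l r = n) → Near (tr C (sh l)) P ∧
        cls X.o (lf j Z (tr C (sh l))) = cls X.o (tw B0) ^ (n - m) := by
    intro C c1 c2 c3 l a b m n l1 l2 l3
    refine ⟨tr_near c1.1 (c1.wd_sh _) (isCompact_bx a b) (c1.out (sh_int (int_ends l2 l3)))
      (disjoint_left.2 ?_), ?_⟩
    · rintro _ ⟨z, -, rfl⟩; exact c2 z
    · rw [h0.lf_tr c2 (c1.wd_sh _), (h0.an_jv c1 c2).cls_sh l1 l2 l3,
        (cls_eq_iff (h0.an_jv c1 c2).tw_mem hB0.tw_mem).2 (hJ _ _ (h0.an_jv c1 c2) hB0 c3 nB0)]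
  refine (cls_eq_one hB0.tw_mem).1 (lant_core hE (Q := P \ {E 0}) (Q' := range fun i => D i false 0)
    (h.col.fin.subset sdiff_subset) ?_ (fun z ⟨i, e⟩ => e3 i z e.symm) (fun z => ⟨?_, ?_⟩)
    (L := fun f => cls X.o (lf j Z f)) ?_ ?_ ?_ ?_)
  · rintro _ ⟨i, rfl⟩
    exact ⟨⟨(i, false), rfl⟩, fun e => e3 i 0 e.symm⟩
  · rintro ⟨⟨⟨i, b⟩, e⟩, k⟩
    cases b
    · exact (e3 i z e.symm).elim
    · fin_cases i
      · exact (k (e.symm.trans e0.symm)).elim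
      · exact .inl (hE.2 (e.symm.trans e1.symm))
      · exact .inr (hE.2 (e.symm.trans e2.symm))
  · rintro (rfl | rfl)
    · exact ⟨⟨(1, true), e1.symm⟩, fun e => one_ne_zero (hE.2 e)⟩
    · exact ⟨⟨(2, true), e2.symm⟩, fun e => by simpa using hE.2 e⟩
  · intro f a g b c d
    rw [pe] at c d
    rw [h0.lf_mul (fun _ => c.fix) fun _ => d.fix, cls_mul (h0.lf_mem a c) (h0.lf_mem b d)]
  · intro φ a b
    rw [pe] at b
    exact cls_K (h0.lf_iso a b).one_mem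
  · rw [pe]
    rintro E' a b ρ hρ c ⟨z, z1, ⟨i, s⟩, z2⟩
    obtain ⟨δ, hδ, C, c1, c2, -, c3⟩ := (a.an_ea hρ).thin h.col.fin.isClosed.isOpen_compl (by
      rintro _ ⟨u, rfl⟩; exact c _ (norm_ea_real hρ u))
    refine ⟨δ, hδ, fun l m n l1 l2 l3 => ?_⟩
    rw [← tr_sh_congr c1 (a.an_ea hρ) (int_ends l2 l3) fun z hz => c3 z (abs_le.2 hz)]
    cases s
    · exact (b z ⟨i, z2⟩).elim
    · exact LC C c1 (fun z => c2 ⟨z, rfl⟩) (h.ns_round hA hZ hX hY a hρ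
        ⟨z, mem_ball_zero_iff.2 z1, z2.symm⟩ (fun ⟨w, e⟩ => b w ⟨i, e.symm⟩) c1
        (fun z => c2 ⟨z, rfl⟩) hδ c3) l _ _ m n l1 l2 l3
  · rw [pe]
    intro E' a b c
    have d : ∀ z, (E' ∘ ea 1) z ∉ P := fun z k => c _ ⟨k, fun e => ea_ne one_pos z (a.2 (e.trans b.symm))⟩
    obtain ⟨u, v, l2, l3⟩ := rl_ends one_pos one_pos (-1)
    rw [a.tr_rot one_pos]
    simpa using LC _ (a.an_ea one_pos) d (h.ns_round hA hZ hX hY a one_pos (i := 0)
      ⟨0, by simp, b.trans e0⟩ (fun ⟨w, e⟩ => c w ⟨⟨(0, false), e.symm⟩, fun k => e3 0 0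
        (k.symm.trans e)⟩) (a.an_ea one_pos) d one_pos fun _ _ => rfl) _ u v 0 (-1) (rl_cd _ _ _)
      (by simpa using l2) (by simpa using l3)

end Crest.Agent.X212.Prf6
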