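import Crest.Agent.X212.Prf6.Main

/-!
# Row 212, PERF (helper6): pushing one foot of a handle
-/

set_option autoImplicit false
set_option linter.unusedSectionVars false
noncomputable section
open Set Filter Topology Function Complex Metric
open scoped ContDiff Manifold

namespace Crest.Agent.X212.Prf6

section
variable {M N : Type*} [TopologicalSpace M] [ChartedSpace ℂ M] [IsManifold IC ∞ M] [T2Space M]
  [TopologicalSpace N] [ChartedSpace ℂ N] [IsManifold IC ∞ N] [T2Space N] [Nonempty M]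
  {o : Or M} {o' : Or N} {A : ℂ → M} {j : M → N} {D : Unit → Bool → ℂ → N}

theorem near_pt {f : Equiv.Perm N} {x : N} : Near f {x} ↔ ∀ᶠ y in 𝓝 x, f y = y := by
  rw [Near, nhdsSet_singleton]

theorem nearI_pt {φ : ℝ → Equiv.Perm N} {x : N} :
    NearI φ {x} ↔ ∀ᶠ y in 𝓝 x, ∀ t, φ t y = y := by rw [NearI, nhdsSet_singleton]

theorem CapD.q_not (h : CapD o o' (fun _ : Unit => A) j D) : D () false 0 ∉ range (D () true) :=
  fun e => disjoint_left.1 (h.dis ((), true) ((), false) (by simp)) e ⟨0, rfl⟩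

theorem CapD.dis_q (h : CapD o o' (fun _ : Unit => A) j D) (L : Set ℂ) :
    Disjoint (D () true '' L) {D () false 0} :=
  disjoint_singleton_right.2 fun e => h.q_not (image_subset_range _ _ e)

/-- isotopies that fix the upper point -/
theorem CapD.fix (h : CapD o o' (fun _ : Unit => A) j D) (hA : An o A) (hn : NS A) (hT : TW o)
    (h2 : Germ2) {φ : ℝ → Equiv.Perm N} (hφ : Iso o' φ) (hq : NearI φ {D () false 0})
    (hp : ∀ t, φ t (D () true 0) = D () true 0) (h1 : Near (φ 1) {D () true 0}) :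
    lf j (core A) (φ 1) ∈ K o := by
  have hE := h.st () true
  set E := D () true with hE'
  set σ := Real.smoothTransition
  have σ1 : σ 1 = 1 := Real.smoothTransition.one
  have σm : ∀ t, σ t ∈ Icc (0 : ℝ) 1 := fun t =>
    ⟨Real.smoothTransition.nonneg t, Real.smoothTransition.le_one t⟩
  have hc := hφ.clamp
  obtain ⟨ρ, hρ, hb⟩ : ∃ ρ > 0, ∀ z ∈ ball (0 : ℂ) ρ, ∀ t, φ (σ t) (E z) ∈ range E := by
    have : ∀ᶠ z in 𝓝 (0 : ℂ), ∀ t ∈ Icc (0 : ℝ) 1, φ t (E z) ∈ range E :=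
      isCompact_Icc.eventually_forall_of_forall_eventually fun t _ =>
        (hφ.cont.comp (f := fun p : ℂ × ℝ => (p.2, E p.1)) (continuous_snd.prodMk
          ((cont_of_pm hE.1).comp continuous_fst))).continuousAt (hE.isOpen_range.mem_nhds
            ⟨0, (hp t).symm⟩)
    obtain ⟨ρ, hρ, hb⟩ := Metric.eventually_nhds_iff_ball.1 this
    exact ⟨ρ, hρ, fun z hz t => hb z hz _ (σm t)⟩
  obtain ⟨κ, m, δ, hδ, -, k1, k2, k3, k4⟩ := h2 (fun t z => invFun E (φ (σ t) (E z))) ρ 1 hρ one_pos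
    (fun p hp => by
      obtain ⟨w, hw⟩ := hb p.2 hp.2 p.1
      refine (cd_of_prod (F := ℝ) (ContMDiffAt.comp (g := invFun E) p ?_ (hc.sm.comp
        (f := fun p : ℝ × ℂ => (p.1, E p.2)) (contMDiff_fst.prodMk
          ((sm_of_pm hE.1).comp contMDiff_snd))).contMDiffAt)).contDiffWithinAt
      rw [comp_apply, ← hw]
      exact (hE.pm_inv w).1.contMDiffAt)
    (fun t => by rw [hp]; exact leftInverse_invFun hE.2 0)
    (fun t => by
      have := (Pm.comp (o'' := oC) (f := φ (σ t) ∘ E) (g := invFun E)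
        (by rw [comp_apply, hp]; exact hE.pm_inv 0) ((hφ.mem _ _).comp (hE.1 0))).2
      simp only [oC, one_mul] at this
      exact this)
    (Eventually.of_forall fun z => by
      simp only [σ, Real.smoothTransition.zero, hφ.zero]
      exact leftInverse_invFun hE.2 z)
    (by
      filter_upwards [(cont_of_pm hE.1).continuousAt.eventually (near_pt.1 h1)] with z hz
      rw [σ1, hz]
      exact leftInverse_invFun hE.2 z)
  have k2' : ∀ t, ∀ z ∉ closedBall (0 : ℂ) 1, κ t z = z := fun t z hz =>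
    k2 t z (not_le.1 (mt mem_closedBall_zero_iff.2 hz)).le
  have i1 := (hE.tr_iso k1 (isCompact_closedBall 0 1) k2').clamp.inv.mul hc.clamp
  have n1 : NearI (fun t => (tr E (κ (σ t)))⁻¹ * φ (σ (σ t))) {E 0, D () false 0} := by
    refine NearI.union (Z := {E 0}) (nearI_pt.2 ?_) (((hE.tr_nearI (isCompact_closedBall 0 1) k2'
      (h.dis_q _)).reparam σ).inv.mul (hq.reparam _))
    rw [← (hE.1 0).map_nhds, eventually_map]
    filter_upwards [k3, ball_mem_nhds 0 hρ] with z a b t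
    rw [Equiv.Perm.mul_apply, Equiv.Perm.inv_eq_iff_eq, hE.apply, a _ (σm t)]
    exact (invFun_eq (hb z b _)).symm
  have h0 := h.col1.col0
  have a := (h0.lf_iso i1 n1).one_mem
  have f1 : ∀ y ∈ ({E 0, D () false 0} : Set N), φ 1 y = y := by
    rintro _ (rfl | rfl)
    exacts [hp 1, (hq.near 1).fix rfl]
  have f2 := fun y => (n1.near 1).fix (x := y)
  simp only [Real.smoothTransition.one, σ, k4] at a f2
  have f3 : ∀ y ∈ ({E 0, D () false 0} : Set N), tr E (rot δ m) y = y := fun y hy => by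
    have := f2 y hy
    rw [Equiv.Perm.mul_apply, f1 y hy, Equiv.Perm.inv_eq_iff_eq] at this
    exact this.symm
  rw [← mul_inv_cancel_left (tr E (rot δ m)) (φ 1), h0.lf_mul f3 f2]
  exact mul_mem (h.lf_rot hA hn hT hδ m) a

variable (o') in
/-- the stabiliser -/
def Sb (p q : N) : Subgroup (Equiv.Perm N) where
  carrier := {f | f ∈ G o' ∧ Near f {q} ∧ f p = p}
  one_mem' := ⟨one_mem _, near_one _, rfl⟩
  mul_mem' := fun {f g} a b => ⟨mul_mem a.1 b.1, a.2.1.mul b.2.1, by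
    rw [Equiv.Perm.mul_apply, b.2.2, a.2.2]⟩
  inv_mem' := fun {f} a => ⟨inv_mem a.1, a.2.1.inv, by rw [Equiv.Perm.inv_eq_iff_eq, a.2.2]⟩

variable (o') in
/-- ends of isotopies in the stabiliser -/
def Ie (p q : N) : Subgroup (Equiv.Perm N) where
  carrier := {f | ∃ φ, Iso o' φ ∧ NearI φ {q} ∧ (∀ t, φ t p = p) ∧ φ 1 = f}
  one_mem' := ⟨_, iso_one, (near_one _).nearI, fun _ => rfl, rfl⟩
  mul_mem' := by
    rintro _ _ ⟨φ, a, b, c, rfl⟩ ⟨ψ, a', b', c', rfl⟩
    exact ⟨_, a.mul a', b.mul b', fun t => by rw [Equiv.Perm.mul_apply, c', c], rfl⟩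
  inv_mem' := by
    rintro _ ⟨φ, a, b, c, rfl⟩
    exact ⟨_, a.inv, b.inv, fun t => by rw [Equiv.Perm.inv_eq_iff_eq, c], rfl⟩

theorem Ie_le {p q : N} : Ie o' p q ≤ Sb o' p q := by
  rintro _ ⟨φ, a, b, c, rfl⟩
  exact ⟨a.mem 1, b.near 1, c 1⟩

theorem NearI.conj_pt {φ : ℝ → Equiv.Perm N} {q : N} (h : NearI φ {q}) {g : Equiv.Perm N}
    (hq : Near g {q}) : NearI (fun t => g * φ t * g⁻¹) {q} :=
  (hq.nearI.mul h).mul hq.inv.nearI

theorem Ie_conj {p q : N} {f g : Equiv.Perm N} (hf : f ∈ Ie o' p q) (hg : g ∈ Sb o' p q) :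
    g * f * g⁻¹ ∈ Ie o' p q := by
  obtain ⟨φ, a, b, c, rfl⟩ := hf
  exact ⟨_, a.conj hg.1, b.conj_pt hg.2.1, fun t => by
    rw [Equiv.Perm.mul_apply, Equiv.Perm.mul_apply, (inv_mem hg).2.2, c, hg.2.2], rfl⟩

/-- the class of the lift extends to the stabiliser -/
theorem CapD.exists_ell (h : CapD o o' (fun _ : Unit => A) j D) (hA : An o A) (hn : NS A)
    (hT : TW o) (h1 : Germ1) (h2 : Germ2) {p q : N} (hp : D () true 0 = p) (hq : D () false 0 = q) :
    ∃ L : Equiv.Perm N → Ab o, (∀ f ∈ Sb o' p q, ∀ g ∈ Sb o' p q, L (f * g) = L f * L g) ∧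
      (∀ f ∈ Ie o' p q, L f = 1) ∧
      ∀ f ∈ Sb o' p q, Near f {p} → L f = cls o (lf j (core A) f) := by
  have h0 := h.col1.col0
  rw [hp, hq] at h0
  have nP : ∀ f ∈ Sb o' p q, Near f {p} → Near f {p, q} := fun f a b => b.union a.2.1
  have mu : ∀ f ∈ Sb o' p q, ∀ g ∈ Sb o' p q, Near f {p} → Near g {p} →
      cls o (lf j (core A) (f * g)) = cls o (lf j (core A) f) * cls o (lf j (core A) g) :=
    fun f a g b c d => by
      rw [h0.lf_mul (fun _ => (nP f a c).fix) fun _ => (nP g b d).fix,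
        cls_mul (h0.lf_mem a.1 (nP f a c)) (h0.lf_mem b.1 (nP g b d))]
  have ex : ∀ f ∈ Sb o' p q, ∃ κ ∈ Ie o' p q, Near (κ⁻¹ * f) {p} := fun f hf => by
    subst hp hq
    obtain ⟨ψ, a, b, c, d⟩ := germ_st h1 (h.st () true) (hf.1 _) hf.2.2
    refine ⟨_, ⟨ψ, a, nearI_of_closed ((isCompact_closedBall 0 1).image
      (cont_of_pm (h.st () true).1)).isClosed (h.dis_q _) c, b, rfl⟩,
      near_pt.2 (d.mono fun y hy => ?_)⟩
    rw [Equiv.Perm.mul_apply, ← hy]; simp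
  choose! κ k1 k2 using ex
  have ind : ∀ f ∈ Sb o' p q, ∀ κ' ∈ Ie o' p q, Near (κ'⁻¹ * f) {p} →
      cls o (lf j (core A) ((κ f)⁻¹ * f)) = cls o (lf j (core A) (κ'⁻¹ * f)) := fun f hf κ' a b => by
    have e : (κ f)⁻¹ * κ' = (κ f)⁻¹ * f * (κ'⁻¹ * f)⁻¹ := by group
    have c : Near ((κ f)⁻¹ * κ') {p} := e ▸ (k2 f hf).mul b.inv
    have m := mul_mem (inv_mem (k1 f hf)) a
    rw [show (κ f)⁻¹ * f = (κ f)⁻¹ * κ' * (κ'⁻¹ * f) by group, mu _ (Ie_le m)
      _ (mul_mem (inv_mem (Ie_le a)) hf) c b]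
    obtain ⟨φ, a1, a2, a3, a4⟩ := m
    subst hp hq
    rw [← a4, cls_K (h.fix hA hn hT h2 a1 a2 a3 (a4 ▸ c)), one_mul]
  refine ⟨fun f => cls o (lf j (core A) ((κ f)⁻¹ * f)), fun f hf g hg => ?_,
    fun f hf => ?_, fun f hf hn => ?_⟩
  · have a := mul_mem (inv_mem (Ie_le (k1 f hf))) hf
    have e : (κ f * ((κ f)⁻¹ * f * κ g * ((κ f)⁻¹ * f)⁻¹))⁻¹ * (f * g) =
        (κ f)⁻¹ * f * ((κ g)⁻¹ * g) := by group
    simp only
    rw [ind _ (mul_mem hf hg) _ (mul_mem (k1 f hf) (Ie_conj (k1 g hg) a))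
      (e ▸ (k2 f hf).mul (k2 g hg)), e,
      mu _ a _ (mul_mem (inv_mem (Ie_le (k1 g hg))) hg) (k2 f hf) (k2 g hg)]
  · simp only
    rw [ind f (Ie_le hf) f hf (by simpa using near_one _), inv_mul_cancel, h0.lf_one, cls_one]
  · simp only
    rw [ind f hf 1 (one_mem _) (by simpa using hn), inv_one, one_mul]

/-- twists along non-separating curves that miss the two points lift to `K` -/
theorem CapD.lf_sh (h : CapD o o' (fun _ : Unit => A) j D) (hA : An o A) (hT : TW o) {B : ℂ → N}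
    (hB : An o' B) (hn : NS B) (hp : B 0 = D () true 0) (hq : D () false 0 ∉ range B) {a : ℝ}
    (ha : 6 ≤ |a|) : Near (tr B (sh fun r => Real.smoothTransition (r - a)))
      {D () true 0, D () false 0} ∧
      lf j (core A) (tr B (sh fun r => Real.smoothTransition (r - a))) ∈ K o := by
  have hC := hB.height (g := fun r => a + sq r) (contDiff_const.add sq_cd) fun r => by
    rw [deriv_const_add]; exact sq_deriv r
  set C : ℂ → N := fun z => B (z.re + (a + sq z.im : ℝ) * I)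
  have e1 : ∀ z : ℂ, z.im ∈ Icc (0 : ℝ) 1 → C z = B (z + a * I) := fun z hz => by
    show B _ = _
    rw [sq_id (abs_le.2 ⟨by linarith [hz.1], hz.2⟩)]
    congr 1
    apply Complex.ext <;> simp [add_comm]
  have e : tr B (sh fun r => Real.smoothTransition (r - a)) = tw C := by
    rw [tw, tr_sh_congr hC (hB.shift (a * I)) (fun _ => st_int) e1]
    refine (hB.wd_sh _).ext (fun z => ?_) fun x hx => ((hB.shift _).wd_sh _).out fun ⟨z, e⟩ =>
      hx ⟨_, e⟩
    have := ((hB.shift (a * I)).wd_sh Real.smoothTransition).apply (z - a * I)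
    simp only [sub_add_cancel] at this
    rw [this]
    congr 1; simp; ring
  have hr : ∀ z, C z ∉ ({D () true 0, D () false 0} : Set N) := by
    rintro z (e | e)
    · have h1 := hB.im_eq (e.trans hp.symm)
      have h2 := abs_sq_lt z.im
      simp at h1
      rw [show sq z.im = -a by linarith, abs_neg] at h2
      linarith
    · exact hq ⟨_, e⟩
  have h0 := h.col1.col0
  rw [e]
  refine ⟨tr_near hC.1 (hC.wd_sh _) (isCompact_bx 0 1) (hC.out fun z hz => ?_)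
    (disjoint_left.2 ?_), ?_⟩
  · obtain ⟨n, hn⟩ := st_int hz
    exact ⟨n, by simp [hn]⟩
  · rintro _ ⟨z, -, rfl⟩; exact hr z
  · rw [tw, h0.lf_tr hr (hC.wd_sh _)]
    refine hT _ (h0.an_jv hC hr) (h.col1.ns_jv hA.dense hC hr ?_)
    have := hB.ns_shift hn (a * I)
    unfold NS at this ⊢
    rwa [core_congr (A := fun z => B (z + a * I)) fun t => e1 t (by simp)]

end

theorem push (hS : Simp) (h1 : Germ1) (h2 : Germ2) : Push := by
  classical
  intro X Y A j D hT hA hn h φ hφ hq hp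
  obtain ⟨L, Lm, L1, l2⟩ := h.exists_ell hA hn hT h1 h2 rfl rfl
  set p := D () true 0
  set q := D () false 0
  have pq : p ≠ q := fun e => h.q_not ⟨0, e⟩
  have hY := h.col1.conn_down hn
  have e1 : ∀ w, w ≠ q → ∃ f ∈ G Y.o, Near f {q} ∧ f p = w := fun w hw => by
    obtain ⟨ψ, a, b, c⟩ := hom_gen Y.o (W := {q}ᶜ) isOpen_compl_singleton
      (by rw [compl_eq_univ_sdiff]; exact conn_diff_pt Y.o isOpen_univ hY q) pq hw
    exact ⟨_, a.mem 1, by simpa using b.near 1, c⟩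
  choose! F F1 F2 F3 using e1
  have e2 : ∀ x, x ≠ q → ∃ E : ℂ → Y.R, ∃ τ : ℂ → Equiv.Perm Y.R, St Y.o E ∧ E 0 = x ∧
      ContMDiff (IC.prod IC) IC ∞ (fun p : ℂ × Y.R => τ p.1 p.2) ∧ (∀ w, τ w ∈ G Y.o) ∧ τ 0 = 1 ∧
      (∀ w, ‖w‖ ≤ 1 → τ w x = E w) ∧ ∀ᶠ y in 𝓝 q, ∀ w, τ w y = y := fun x hx => by
    obtain ⟨E, a, rfl, b⟩ := exists_st_at Y.o (isOpen_compl_singleton.mem_nhds hx)
    obtain ⟨τ, t1, t2, t3, t4, t5⟩ := a.exists_tau one_pos
    refine ⟨E, τ, a, rfl, t1, t2, t3, fun w hw => by simpa using t4 w 0 hw (by simp), ?_⟩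
    filter_upwards [((isCompact_closedBall 0 (5 * 1)).image
      (cont_of_pm a.1)).isClosed.isOpen_compl.mem_nhds fun e => b (image_subset_range _ _ e) rfl]
      with y hy w using t5 w y hy
  choose! E τ E1 E2 T1 T2 T3 T4 T5 using e2
  have ne : ∀ f : Equiv.Perm Y.R, Near f {q} → ∀ x, x ≠ q → f x ≠ q := fun f a x hx e =>
    hx (f.injective (e.trans (a.fix rfl).symm))
  have sb : ∀ f ∈ G Y.o, Near f {q} → ∀ x, x ≠ q → (F (f x))⁻¹ * f * F x ∈ Sb Y.o p q :=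
    fun f a b x hx => ⟨mul_mem (mul_mem (inv_mem (F1 _ (ne f b x hx))) a) (F1 x hx),
      ((F2 _ (ne f b x hx)).inv.mul b).mul (F2 x hx), by
        rw [Equiv.Perm.mul_apply, Equiv.Perm.mul_apply, F3 x hx, Equiv.Perm.inv_eq_iff_eq,
          F3 _ (ne f b x hx)]⟩
  let c : Y.R → Y.R → Ab X.o := fun x y => L ((F y)⁻¹ * τ x (invFun (E x) y) * F x)
  have key : ∀ (V : Type) [NormedAddCommGroup V] [NormedSpace ℝ V] (Ψ : V → Equiv.Perm Y.R),
      ContMDiff (𝓘(ℝ, V).prod IC) IC ∞ (fun p : V × Y.R => Ψ p.1 p.2) → (∀ v, Ψ v ∈ G Y.o) →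
      (∀ᶠ y in 𝓝 q, ∀ v, Ψ v y = y) → ∀ w, w ≠ q → ∀ s, ∀ᶠ t in 𝓝 s,
        L ((F (Ψ t w))⁻¹ * Ψ t * F w) = L ((F (Ψ s w))⁻¹ * Ψ s * F w) * c (Ψ s w) (Ψ t w) := by
    intro V _ _ Ψ a1 a2 a3 w hw s
    have nq : ∀ v, Near (Ψ v) {q} := fun v => near_pt.2 (a3.mono fun y hy => hy v)
    have hx := ne _ (nq s) w hw
    set x := Ψ s w with hxe
    have sw : ContMDiff 𝓘(ℝ, V) IC ∞ fun v => Ψ v w := a1.comp (contMDiff_id.prodMk contMDiff_const)
    obtain ⟨r, hr, hb⟩ := Metric.eventually_nhds_iff_ball.1 (sw.continuous.continuousAt.eventually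
      (p := fun y => y ∈ E x '' ball 0 1) (((E1 x hx).isOpenEmbedding.isOpenMap _ isOpen_ball).mem_nhds
        ⟨0, by simp, E2 x hx⟩))
    have tx : ∀ y ∈ E x '' ball 0 1, τ x (invFun (E x) y) x = y := by
      rintro _ ⟨z, hz, rfl⟩
      rw [leftInverse_invFun (E1 x hx).2, T4 x hx z (mem_ball_zero_iff.1 hz).le]
    filter_upwards [ball_mem_nhds s hr] with t ht
    let γ : ℝ → V := fun u => s + Real.smoothTransition u • (t - s)
    have γ1 : ContDiff ℝ ∞ γ :=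
      contDiff_const.add (Real.smoothTransition.contDiff.smul contDiff_const)
    have γ2 : ∀ u, γ u ∈ ball s r := fun u => (convex_ball s r).add_smul_sub_mem (mem_ball_self hr) ht
      ⟨Real.smoothTransition.nonneg u, Real.smoothTransition.le_one u⟩
    have γ0 : γ 0 = s := by simp [γ]
    have γ3 : γ 1 = t := by simp [γ]
    have i1 : Iso Y.o fun u => τ x (invFun (E x) (Ψ (γ u) w)) := by
      refine iso_of_fam (T1 x hx) (T2 x hx) (contMDiff_iff_contDiff.1 fun u => ?_) ?_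
      · obtain ⟨z, -, hz⟩ := hb _ (γ2 u)
        refine ContMDiffAt.comp (g := invFun (E x)) u ?_ (sw.comp γ1.contMDiff u)
        rw [← hz]
        exact ((E1 x hx).pm_inv z).1.contMDiffAt
      · rw [γ0, ← hxe, ← T3 x hx]
        congr 1
        exact (E1 x hx).2 ((invFun_eq ⟨0, E2 x hx⟩).trans (E2 x hx).symm)
    have i2 : Iso Y.o fun u => Ψ (γ u) * (Ψ s)⁻¹ :=
      iso_of_fam (τ := fun v => Ψ v * (Ψ s)⁻¹) (a1.comp (contMDiff_fst.prodMk
        ((G_sm (inv_mem (a2 s))).comp contMDiff_snd))) (fun v => mul_mem (a2 v) (inv_mem (a2 s)))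
        γ1 (by rw [γ0, mul_inv_cancel])
    have i3 : (F x)⁻¹ * ((τ x (invFun (E x) (Ψ t w)))⁻¹ * (Ψ t * (Ψ s)⁻¹)) * (F x)⁻¹⁻¹ ∈ Ie Y.o p q := by
      refine ⟨_, (i1.inv.mul i2).conj (inv_mem (F1 x hx)), NearI.conj_pt
        ((NearI.inv (nearI_pt.2 ((T5 x hx).mono fun y hy _ => hy _))).mul
          ((nearI_pt.2 (a3.mono fun y hy _ => hy _)).mul (nq s).inv.nearI))
          (F2 x hx).inv, fun u => ?_, by simp only [γ3]⟩
      simp only [Equiv.Perm.mul_apply, inv_inv, F3 x hx]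
      rw [Equiv.Perm.inv_eq_iff_eq, F3 x hx, Equiv.Perm.inv_eq_iff_eq, tx _ (hb _ (γ2 u)), hxe]
      simp
    have s1 := sb _ (T2 x hx (invFun (E x) (Ψ t w))) (near_pt.2 ((T5 x hx).mono fun y hy => hy _)) x hx
    rw [tx _ (hb t ht)] at s1
    have s2 := sb _ (a2 s) (nq s) w hw
    rw [mul_comm, ← mul_one (c _ _), ← L1 _ i3, ← Lm _ s1 _ (Ie_le i3),
      ← Lm _ (mul_mem s1 (Ie_le i3)) _ s2]
    congr 1; rw [← hxe]; group
  have prim : ∀ Ψ, Iso Y.o Ψ → NearI Ψ {q} → ∀ w, w ≠ q → Lev33.Prim (Icc 0 1)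
      (fun s t => c (Ψ s w) (Ψ t w)) fun t => L ((F (Ψ t w))⁻¹ * Ψ t * F w) :=
    fun Ψ a b w hw s _ => (key ℝ Ψ a.sm a.mem (nearI_pt.1 b) w hw s).filter_mono nhdsWithin_le_nhds
  have L2 : ∀ w, L ((F w)⁻¹ * 1 * F w) = 1 := fun w => by
    rw [mul_one, inv_mul_cancel]; exact L1 _ (one_mem _)
  have hc : Lev33.Coc {q}ᶜ c := by
    refine Lev33.coc_of_loc fun x hx => ⟨E x '' ball 0 1, mem_nhdsWithin_of_mem_nhds
      (((E1 x hx).isOpenEmbedding.isOpenMap _ isOpen_ball).mem_nhds ⟨0, by simp, E2 x hx⟩), c x, ?_⟩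
    rintro _ ⟨z, hz, rfl⟩
    refine Eventually.filter_mono nhdsWithin_le_nhds ?_
    rw [← ((E1 x hx).1 z).map_nhds, eventually_map]
    filter_upwards [key ℂ (τ x) (T1 x hx) (T2 x hx) (T5 x hx) x hx z, isOpen_ball.mem_nhds hz]
      with v a b
    rw [T4 x hx z (mem_ball_zero_iff.1 hz).le, T4 x hx v (mem_ball_zero_iff.1 b).le] at a
    simp only [c, leftInverse_invFun (E1 x hx).2 _]
    exact a
  have t1 := hS Y q (Ab X.o) c hY hc (fun B hB nB qB b hb => ?_) (fun t => φ t p)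
    (hφ.cont.comp (f := fun t => (t, p)) (by fun_prop)) (fun t => ne _ (hq.near t) p pq)
    (by rw [hφ.zero, hp.fix rfl]; rfl) _ (prim φ hφ hq p pq)
  · have f0 : F p ∈ Sb Y.o p q := ⟨F1 p pq, F2 p pq, F3 p pq⟩
    have f1 : φ 1 ∈ Sb Y.o p q := ⟨hφ.mem 1, hq.near 1, hp.fix rfl⟩
    simp only [hφ.zero, Equiv.Perm.one_apply, L2, hp.fix rfl] at t1
    rw [Lm _ (mul_mem (inv_mem f0) f1) _ f0, Lm _ (inv_mem f0) _ f1, mul_right_comm,
      ← Lm _ (inv_mem f0) _ f0, inv_mul_cancel, L1 _ (one_mem _), one_mul, l2 _ f1 hp] at t1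
    exact (cls_eq_one (h.col1.col0.lf_mem f1.1 (hp.union f1.2.1))).1 t1.symm
  · set σ := Real.smoothTransition
    have hσ : ContDiff ℝ ∞ σ := Real.smoothTransition.contDiff
    let β : ℝ → ℝ := fun r => σ (r - -6) + -σ (r - 6)
    have β1 : ContDiff ℝ ∞ β := (hσ.comp (by fun_prop)).add (hσ.comp (by fun_prop)).neg
    have β2 : β 0 = 1 := by
      simp [β, σ, Real.smoothTransition.one_of_one_le, Real.smoothTransition.zero_of_nonpos]
    have β3 : ∀ t : ℝ, ∀ z : ℂ, z.im ∉ Icc (-6 : ℝ) 7 → ∃ n : ℤ, sh (fun r => t * β r) z = z + n := by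
      refine fun t z hz => ⟨0, ?_⟩
      rw [mem_Icc, not_and_or, not_le, not_le] at hz
      rcases hz with a | a
      · simp [β, σ, Real.smoothTransition.zero_of_nonpos (show z.im + 6 ≤ 0 by linarith),
          Real.smoothTransition.zero_of_nonpos (show z.im - 6 ≤ 0 by linarith)]
      · simp [β, σ, Real.smoothTransition.one_of_one_le (show 1 ≤ z.im + 6 by linarith),
          Real.smoothTransition.one_of_one_le (show 1 ≤ z.im - 6 by linarith)]
    have w0 : B 0 ≠ q := fun e => qB ⟨0, e⟩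
    have p1 := prim _ (hB.tr_iso (sh_iso (l := fun t r => t * β r)
      (contDiff_fst.mul (β1.comp contDiff_snd)) (by simp)) (fun t => sh_per _) β3)
      (tr_nearI hB.1 (fun t => hB.wd_sh _) (isCompact_bx (-6) 7) (fun t => hB.out (β3 t))
        (disjoint_singleton_right.2 fun e => qB (image_subset_range _ _ e))) _ w0
    have e : ∀ t : ℝ, tr B (sh fun r => t * β r) (B 0) = B t := fun t => by
      rw [(hB.wd_sh _).apply]; simp [β2]
    simp only [e] at p1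
    have g := inv_mem (F1 _ w0)
    have hC := hB.comp g
    have c0 : (⇑(F (B 0))⁻¹ ∘ B) 0 = p := by
      rw [comp_apply, Equiv.Perm.inv_eq_iff_eq, F3 _ w0]
    have c1 : q ∉ range (⇑(F (B 0))⁻¹ ∘ B) := fun ⟨z, e⟩ => qB ⟨z, by
      rw [comp_apply, Equiv.Perm.inv_eq_iff_eq, (F2 _ w0).fix rfl] at e; exact e⟩
    obtain ⟨n1, k1⟩ := h.lf_sh hA hT hC (nB.comp g) c0 c1 (a := -6) (by norm_num)
    obtain ⟨n2, k2⟩ := h.lf_sh hA hT hC (nB.comp g) c0 c1 (a := 6) (by norm_num)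
    have e3 : (F (B 0))⁻¹ * tr B (sh fun r => 1 * β r) * F (B 0) =
        tr (⇑(F (B 0))⁻¹ ∘ B) (sh fun r => σ (r - -6)) *
          (tr (⇑(F (B 0))⁻¹ ∘ B) (sh fun r => σ (r - 6)))⁻¹ := by
      rw [← tr_inv (hC.wd_sh _), sh_inv, ← tr_mul (hC.wd_sh _) (hC.wd_sh _), ← sh_add,
        tr_conj (hB.wd_sh _), inv_inv]
      simp only [one_mul, β]
    have n3 := n1.mul n2.inv
    have s3 := sb _ ((hB.tr_iso (sh_iso (l := fun t r => t * β r)
      (contDiff_fst.mul (β1.comp contDiff_snd)) (by simp)) (fun t => sh_per _) β3).mem 1)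
      (tr_near hB.1 (hB.wd_sh _) (isCompact_bx (-6) 7) (hB.out (β3 1))
        (disjoint_singleton_right.2 fun e => qB (image_subset_range _ _ e))) _ w0
    have e4 : B ((1 : ℝ) : ℂ) = B 0 := by simpa using hB.per 0 1
    rw [e, e4] at s3
    rw [p1.uniq hb isPreconnected_Icc (x := 0) (y := 1) (by simp) (by simp)]
    simp only [zero_mul, sh_zero, tr_one, ofReal_zero, L2, e4]
    rw [l2 _ s3 (e3 ▸ n3.mono (singleton_subset_iff.2 (Or.inl rfl))), e3,
      h.col1.col0.lf_mul (fun _ => n1.fix) fun _ => n2.inv.fix, h.col1.col0.lf_inv fun _ => n2.fix,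
      cls_K (mul_mem k1 (inv_mem k2))]
    simp

end Crest.Agent.X212.Prf6
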