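import Crest.Agent.X212.Prf6.Push
import Crest.Agent.X212.Mcg32.Top

/-!
# Row 212, PERF (helper6): round circles in a capped surface
-/

set_option autoImplicit false
set_option linter.unusedSectionVars false
noncomputable section
open Set Filter Topology Function Complex Metric
open scoped ContDiff Manifold

namespace Crest.Agent.X212.Prf6

theorem norm_ea_lt {ρ : ℝ} (hρ : 0 < ρ) {z : ℂ} : ‖ea ρ z‖ < ρ ↔ 0 < z.im := by
  rw [norm_ea hρ, mul_lt_iff_lt_one_right hρ, Real.exp_lt_one_iff, neg_lt_zero,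
    mul_pos_iff_of_pos_left (by positivity)]

theorem lt_norm_ea {ρ : ℝ} (hρ : 0 < ρ) {z : ℂ} : ρ < ‖ea ρ z‖ ↔ z.im < 0 := by
  rw [norm_ea hρ, lt_mul_iff_one_lt_right hρ, Real.one_lt_exp_iff, neg_pos]
  have := Real.pi_pos
  exact ⟨fun h => by by_contra k; nlinarith [mul_nonneg this.le (not_lt.1 k)], fun h => by nlinarith⟩

theorem norm_ea_real {ρ : ℝ} (hρ : 0 < ρ) (t : ℝ) : ‖ea ρ t‖ = ρ := by simp [norm_ea hρ]

theorem ea_shift (ρ a : ℝ) (z : ℂ) :
    ea ρ (z + a * I) = ea (ρ * Real.exp (-(2 * Real.pi * a))) z := by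
  rw [ea, ea, mul_add, exp_add, show 2 * Real.pi * I * (a * I) = (-(2 * Real.pi * a) : ℝ) by
    push_cast; linear_combination 2 * Real.pi * a * I_sq, ofReal_mul, ofReal_exp]
  ring

section
variable {M N : Type*} [TopologicalSpace M] [ChartedSpace ℂ M] [IsManifold IC ∞ M] [T2Space M]
  [TopologicalSpace N] [ChartedSpace ℂ N] [IsManifold IC ∞ N] [T2Space N] [Nonempty M]
  {o : Or M} {o' : Or N} {j : M → N} {B E : ℂ → N}

theorem An.tr_shift (hB : An o' B) (a : ℝ) (l : ℝ → ℝ) :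
    tr B (sh fun r => l (r - a)) = tr (fun z => B (z + a * I)) (sh l) := by
  refine (hB.wd_sh _).ext (fun z => ?_) fun x hx => ((hB.shift _).wd_sh _).out fun ⟨z, e⟩ =>
    hx ⟨_, e⟩
  have := ((hB.shift (a * I)).wd_sh l).apply (z - a * I)
  simp only [sub_add_cancel] at this
  rw [this]
  congr 1; simp; ring

/-- the outside of a closed disc -/
theorem St.conn_out (hE : St o' E) (hN : IsPreconnected (univ : Set N)) {ρ : ℝ} (hρ : 0 < ρ) :
    IsPreconnected (E '' closedBall 0 ρ)ᶜ := by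
  have := ChartedSpace.locallyConnectedSpace ℂ N
  have hc := cont_of_pm (hE.an_ea hρ).1
  rw [compl_eq_univ_sdiff]
  refine Mcg32.conn_of hN (isOpen_univ.sdiff ((isCompact_closedBall 0 ρ).image
    (cont_of_pm hE.1)).isClosed) hE.isOpen_range (fun y hy => image_subset_range _ _ hy.2)
    ((convex_halfSpace_im_lt 0).isPreconnected.image _ hc.continuousOn) ?_ ?_
  · rintro _ ⟨z, hz, rfl⟩
    refine ⟨trivial, fun ⟨w, hw, e⟩ => ?_⟩
    rw [hE.2 e, mem_closedBall_zero_iff] at hw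
    exact ((lt_norm_ea hρ).2 hz).not_ge hw
  · rintro _ ⟨⟨w, rfl⟩, -, hw⟩
    have h1 : ρ < ‖w‖ := not_le.1 fun h => hw ⟨w, mem_closedBall_zero_iff.2 h, rfl⟩
    obtain ⟨z, rfl⟩ := ea_surj hρ (w := w) (by rintro rfl; simp at h1; linarith)
    exact ⟨z, (lt_norm_ea hρ).1 h1, rfl⟩

variable {ι : Type*} {A : ι → ℂ → M} {D : ι → Bool → ℂ → N}

/-- a round circle that separates the two feet of a handle lifts to a non-separating curve -/
theorem CapD.ns_round (h : CapD o o' A j D) (hA : ∀ i, An o (A i))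
    (hZ : ∀ i z, A i z ∈ ⋃ k, core (A k) → z.im = 0) (hM : IsPreconnected (univ : Set M))
    (hN : IsPreconnected (univ : Set N)) (hE : St o' E) {ρ : ℝ} (hρ : 0 < ρ) {i : ι}
    (h1 : D i true 0 ∈ E '' ball 0 ρ) (h2 : D i false 0 ∉ range E) {C : ℂ → N} (hC : An o' C)
    (hP : ∀ z, C z ∉ range fun p : ι × Bool => D p.1 p.2 0) {δ : ℝ} (hδ : 0 < δ)
    (e : ∀ z : ℂ, |z.im| ≤ δ → C z = E (ea ρ z)) : NS (jv j (⋃ k, core (A k)) ∘ C) := by
  have h0 := h.col.col0
  set Z := ⋃ k, core (A k)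
  set P := range fun p : ι × Bool => D p.1 p.2 0
  have hC' := h0.an_jv hC hP
  have oI : IsOpen (E '' ball 0 ρ) := hE.isOpenEmbedding.isOpenMap _ isOpen_ball
  have oO : IsOpen (E '' closedBall 0 ρ)ᶜ :=
    ((isCompact_closedBall 0 ρ).image (cont_of_pm hE.1)).isClosed.isOpen_compl
  have side : ∀ (O : Set N) (b : Bool) (s : ℝ), IsOpen O → IsPreconnected O → D i b 0 ∈ O →
      s ≠ 0 → (∀ r : ℝ, 0 < r → j (A i (s * r * I)) = D i b r) →
      IsPreconnected (insert (A i 0) (jv j Z '' (O \ P))) := fun O b s a1 a2 a3 a4 a5 => by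
    refine ((conn_diff_fin o' h.col.fin a1 a2).image _ (h0.cont_jv.mono fun y hy => hy.2)
      ).subset_closure (subset_insert _ _) (insert_subset ?_ subset_closure)
    have t1 : Tendsto (fun r : ℝ => A i (s * r * I)) (𝓝[>] 0) (𝓝 (A i 0)) :=
      (((cont_of_pm (hA i).1).comp (f := fun r : ℝ => (s * r * I : ℂ)) (by fun_prop)).tendsto' 0 _
        (by simp)).mono_left nhdsWithin_le_nhds
    have t2 : ∀ᶠ r : ℝ in 𝓝 0, D i b r ∈ O := (((cont_of_pm (h.st i b).1).comp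
      continuous_ofReal).tendsto' 0 _ (by simp)).eventually (a1.mem_nhds a3)
    refine mem_closure_of_tendsto t1 ?_
    filter_upwards [nhdsWithin_le_nhds t2, self_mem_nhdsWithin] with r r1 r2
    have r3 : A i (s * r * I) ∉ Z := fun k => (mem_Ioi.1 r2).ne' (by simpa [a4] using hZ i _ k)
    exact ⟨_, ⟨r1, by rw [← a5 r r2]; exact h0.j_not r3⟩, by rw [← a5 r r2, h0.jv_j r3]⟩
  have s1 := side _ true 1 oI ((convex_ball 0 ρ).isPreconnected.image _
    (cont_of_pm hE.1).continuousOn) h1 one_ne_zero fun r hr => by simpa using h.up i 0 r hr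
  have s2 := side _ false (-1) oO (hE.conn_out hN hρ)
    (fun k => h2 (image_subset_range _ _ k)) (by simp) fun r hr => by simpa using h.dn i 0 r hr
  have off : ∀ O : Set N, (∀ t : ℝ, E (ea ρ t) ∉ O) →
      insert (A i 0) (jv j Z '' (O \ P)) ⊆ univ \ core (jv j Z ∘ C) := by
    rintro O hO _ (rfl | ⟨y, hy, rfl⟩) <;> refine ⟨trivial, fun ⟨t, ht⟩ => ?_⟩
    · exact h0.jv_not (hP t) (by
        rw [show jv j Z (C t) = A i 0 from ht]; exact mem_iUnion.2 ⟨i, mem_core rfl⟩)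
    · have := congrArg j ht
      simp only [comp_apply] at this
      rw [h0.j_jv (hP t), h0.j_jv hy.2, e t (by simpa using hδ.le)] at this
      exact hO t (this ▸ hy.1)
  have ex : ∀ ε > (0 : ℝ), ∃ r > (0 : ℝ), r < ε ∧ r ≤ δ := fun ε hε =>
    ⟨min (ε / 2) δ, by positivity, (min_le_left _ _).trans_lt (by linarith), min_le_right _ _⟩
  rw [NS, compl_eq_univ_sdiff]
  refine hC'.conn_diff isOpen_univ hM (subset_univ _) (s1.union _ (mem_insert _ _) (mem_insert _ _) s2)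
    (union_subset (off _ fun t ⟨w, hw, k⟩ => ?_) (off _ fun t k => k ⟨_, ?_, rfl⟩))
    (fun ε hε => ?_) fun ε hε => ?_
  · rw [hE.2 k, mem_ball_zero_iff, norm_ea_real hρ] at hw
    exact lt_irrefl _ hw
  · rw [mem_closedBall_zero_iff, norm_ea_real hρ]
  · obtain ⟨r, r1, r2, r3⟩ := ex ε hε
    have i1 : ((r : ℂ) * I).im = r := by simp
    refine ⟨r * I, by rw [i1]; exact ⟨r1, r2⟩, .inl (.inr ⟨_, ⟨?_, hP _⟩, rfl⟩)⟩
    rw [e _ (by rw [i1, abs_of_pos r1]; exact r3)]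
    exact ⟨_, mem_ball_zero_iff.2 ((norm_ea_lt hρ).2 (i1.symm ▸ r1)), rfl⟩
  · obtain ⟨r, r1, r2, r3⟩ := ex ε hε
    have i1 : (-(r : ℂ) * I).im = -r := by simp
    refine ⟨-r * I, by rw [i1]; constructor <;> linarith, .inr (.inr ⟨_, ⟨?_, hP _⟩, rfl⟩)⟩
    rw [e _ (by rw [i1, abs_neg, abs_of_pos r1]; exact r3)]
    rintro ⟨w, hw, k⟩
    rw [hE.2 k, mem_closedBall_zero_iff] at hw
    exact ((lt_norm_ea hρ).2 (by rw [i1]; linarith)).not_ge hw

end

end Crest.Agent.X212.Prf6
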